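import Vale.Agent.P074.Defs

open MeasureTheory Filter Topology

namespace Vale.Agent.P074

variable {d : ℕ}

/-- The part of a convex body which leaves the body after a small translation is small. -/
lemma vol_shift {K : Set (E d)} (hK : IsCompact K) (hc : Convex ℝ K) {c : E d} {r : ℝ} (hr : 0 < r)
    (hball : Metric.closedBall c r ⊆ K) (v : E d) (hv : ‖v‖ ≤ r) :
    volume.real (K \ {x | x + v ∈ K}) ≤ volume.real K * (d * (‖v‖ / r)) := by
  set t : ℝ := 1 - ‖v‖ / r with ht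
  have hvr : ‖v‖ / r ≤ 1 := by rw [div_le_one hr]; exact hv
  have hvr0 : 0 ≤ ‖v‖ / r := by positivity
  have ht0 : 0 ≤ t := by linarith
  have ht1 : t ≤ 1 := by linarith
  have hcK : c ∈ K := hball (Metric.mem_closedBall_self hr.le)
  have hhom : ∀ x, AffineMap.homothety c t x = t • x + (1 - t) • c := by
    intro x
    rw [AffineMap.homothety_apply, vsub_eq_sub, vadd_eq_add, smul_sub, sub_smul 1 t c, one_smul]
    abel
  have hsub : AffineMap.homothety c t '' K ⊆ K ∩ {x | x + v ∈ K} := by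
    rintro _ ⟨x, hx, rfl⟩
    rw [hhom]
    refine ⟨hc hx hcK ht0 (by linarith) (by ring), ?_⟩
    by_cases hv0 : v = 0
    · rw [Set.mem_ofPred_eq, hv0, add_zero]
      exact hc hx hcK ht0 (by linarith) (by ring)
    · have hvn : 0 < ‖v‖ := norm_pos_iff.mpr hv0
      have hw : c + (r / ‖v‖) • v ∈ K := by
        apply hball
        rw [Metric.mem_closedBall, dist_eq_norm, add_sub_cancel_left, norm_smul,
          Real.norm_of_nonneg (by positivity)]
        rw [div_mul_cancel₀ _ hvn.ne']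
      have := hc hx hw ht0 (by linarith : (0 : ℝ) ≤ 1 - t) (by ring)
      have h2 : t • x + (1 - t) • (c + (r / ‖v‖) • v) = t • x + (1 - t) • c + v := by
        rw [smul_add, smul_smul, show (1 - t) * (r / ‖v‖) = 1 by
          rw [ht]; field_simp; ring, one_smul]
        abel
      rw [h2] at this
      exact this
  have hKfin : volume K ≠ ⊤ := hK.measure_lt_top.ne
  have hm : MeasurableSet {x | x + v ∈ K} :=
    (hK.isClosed.preimage (continuous_id.add continuous_const)).measurableSet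
  have hvol : volume.real (AffineMap.homothety c t '' K) = t ^ d * volume.real K := by
    rw [Measure.real, Measure.addHaar_image_homothety, ENNReal.toReal_mul,
      finrank_euclideanSpace_fin, abs_of_nonneg (by positivity),
      ENNReal.toReal_ofReal (by positivity)]
    rfl
  have hle : t ^ d * volume.real K ≤ volume.real (K ∩ {x | x + v ∈ K}) := by
    rw [← hvol]
    exact measureReal_mono hsub (ne_top_of_le_ne_top hKfin (measure_mono Set.inter_subset_left))
  have hd : volume.real (K \ {x | x + v ∈ K}) =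
      volume.real K - volume.real (K ∩ {x | x + v ∈ K}) := by
    rw [← Set.sdiff_self_inter, measureReal_sdiff Set.inter_subset_left
      (hK.isClosed.measurableSet.inter hm)]
  have hbern : 1 + (d : ℝ) * (-(‖v‖ / r)) ≤ (1 + -(‖v‖ / r)) ^ d :=
    one_add_mul_le_pow (by linarith) d
  have ht' : (1 + -(‖v‖ / r)) = t := by rw [ht]; ring
  rw [ht'] at hbern
  have hV : 0 ≤ volume.real K := measureReal_nonneg
  rw [hd]
  nlinarith [mul_le_mul_of_nonneg_right hbern hV]

lemma pointwise_dm {L h A0 A1 B0 B1 D0 D1 f0 f1 : ℝ} (hh : 0 < h)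
    (hA0 : |A0| ≤ L) (hA1 : |A1| ≤ L) (hB0 : |B0| ≤ L) (hB1 : |B1| ≤ L)
    (h1 : h * A0 ≤ D0) (h2 : D0 ≤ h * B0) (h3 : h * A1 ≤ D1) (h4 : D1 ≤ h * B1)
    (hD : D0 - D1 = f1 - f0) :
    (A0 - A1) ^ 2 ≤ (4 / h ^ 2 * f1 ^ 2 + 4 * L * (B0 + B1)) +
      (4 / h ^ 2 * f0 ^ 2 - 4 * L * (A0 + A1)) := by
  set u := (D0 - D1) / h with hu
  have hu2 : 2 * u ^ 2 ≤ 4 / h ^ 2 * f1 ^ 2 + 4 / h ^ 2 * f0 ^ 2 := by
    have : 4 / h ^ 2 * f1 ^ 2 + 4 / h ^ 2 * f0 ^ 2 - 2 * u ^ 2 = 2 * (f1 + f0) ^ 2 / h ^ 2 := by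
      rw [hu, hD]; field_simp; ring
    have h5 : 0 ≤ 2 * (f1 + f0) ^ 2 / h ^ 2 := by positivity
    linarith
  have e0 : D0 / h ≤ B0 := by rw [div_le_iff₀ hh]; linarith
  have e1 : A0 ≤ D0 / h := by rw [le_div_iff₀ hh]; linarith
  have e2 : D1 / h ≤ B1 := by rw [div_le_iff₀ hh]; linarith
  have e3 : A1 ≤ D1 / h := by rw [le_div_iff₀ hh]; linarith
  have hu' : u = D0 / h - D1 / h := by rw [hu]; ring
  obtain ⟨a1, a2⟩ := abs_le.mp hA0
  obtain ⟨a3, a4⟩ := abs_le.mp hA1
  obtain ⟨a5, a6⟩ := abs_le.mp hB0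
  obtain ⟨a7, a8⟩ := abs_le.mp hB1
  have hg0 : 0 ≤ B0 - A0 := by linarith
  have hg1 : 0 ≤ B1 - A1 := by linarith
  have hL : 0 ≤ L := (abs_nonneg _).trans hA0
  have q0 : (B0 - A0) ^ 2 ≤ 2 * L * (B0 - A0) := by nlinarith
  have q1 : (B1 - A1) ^ 2 ≤ 2 * L * (B1 - A1) := by nlinarith
  have hLg0 : 0 ≤ L * (B0 - A0) := mul_nonneg hL hg0
  have hLg1 : 0 ≤ L * (B1 - A1) := mul_nonneg hL hg1
  have gen : ∀ g : ℝ, (|u| + g) ^ 2 ≤ 2 * u ^ 2 + 2 * g ^ 2 := by
    intro g
    have h9 := sq_nonneg (|u| - g)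
    have h10 := sq_abs u
    linarith [show (|u| + g) ^ 2 + (|u| - g) ^ 2 = 2 * |u| ^ 2 + 2 * g ^ 2 by ring]
  have key : (A0 - A1) ^ 2 ≤ 2 * u ^ 2 + 4 * L * (B0 - A0) + 4 * L * (B1 - A1) := by
    rcases le_total A0 A1 with hle | hle
    · have hx : A1 - A0 ≤ |u| + (B0 - A0) := by
        have := neg_abs_le u
        linarith
      have h7 : (A1 - A0) ^ 2 ≤ (|u| + (B0 - A0)) ^ 2 :=
        pow_le_pow_left₀ (by linarith) hx 2
      have h8 := gen (B0 - A0)
      have h9 : (A0 - A1) ^ 2 = (A1 - A0) ^ 2 := by ring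
      rw [h9]
      linarith
    · have hx : A0 - A1 ≤ |u| + (B1 - A1) := by
        have := le_abs_self u
        linarith
      have h7 : (A0 - A1) ^ 2 ≤ (|u| + (B1 - A1)) ^ 2 :=
        pow_le_pow_left₀ (by linarith) hx 2
      have h8 := gen (B1 - A1)
      linarith
  have hexp : (4 / h ^ 2 * f1 ^ 2 + 4 * L * (B0 + B1)) +
      (4 / h ^ 2 * f0 ^ 2 - 4 * L * (A0 + A1)) =
      (4 / h ^ 2 * f1 ^ 2 + 4 / h ^ 2 * f0 ^ 2) + (4 * L * (B0 - A0) + 4 * L * (B1 - A1)) := by
    ring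
  rw [hexp]
  linarith

/-- The interpolation estimate in one direction. -/
lemma dm_dir {K : Set (E d)} (hK : IsCompact K) (hc : Convex ℝ K) {c : E d} {r : ℝ} (hr : 0 < r)
    (hball : Metric.closedBall c r ⊆ K) {L : ℝ} (hL : 0 < L)
    (φ0 φ1 : E d → ℝ) (T0 T1 : E d → E d) (hφ0 : Continuous φ0) (hφ1 : Continuous φ1)
    (hT0 : Measurable T0) (hT1 : Measurable T1) (hb0 : ∀ x, ‖T0 x‖ ≤ L) (hb1 : ∀ x, ‖T1 x‖ ≤ L)
    (hs0 : ∀ᵐ x ∂(volume.restrict K), ∀ x' ∈ K, φ0 x + inner ℝ (T0 x) (x' - x) ≤ φ0 x')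
    (hs1 : ∀ᵐ x ∂(volume.restrict K), ∀ x' ∈ K, φ1 x + inner ℝ (T1 x) (x' - x) ≤ φ1 x')
    (h : ℝ) (h0 : 0 < h) (h1 : h ≤ r) (e : E d) (he : ‖e‖ = 1) :
    ∫ x in K, (inner ℝ (T0 x) e - inner ℝ (T1 x) e) ^ 2 ≤
      8 / h ^ 2 * (∫ x in K, (φ0 x - φ1 x) ^ 2) +
        20 * L ^ 2 * (volume.real K * (d * (h / r))) := by
  set v : E d := h • e with hv
  have hvn : ‖v‖ = h := by rw [hv, norm_smul, he, mul_one, Real.norm_of_nonneg h0.le]
  set V : ℝ := volume.real K * (d * (h / r)) with hV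
  have hmK : MeasurableSet K := hK.isClosed.measurableSet
  have hKfin : volume K < ⊤ := hK.measure_lt_top
  set S : Set (E d) := {x | x + v ∈ K} with hS
  set S' : Set (E d) := {x | x + -v ∈ K} with hS'
  have hmS : MeasurableSet S :=
    (hK.isClosed.preimage (continuous_id.add continuous_const)).measurableSet
  have hmS' : MeasurableSet S' :=
    (hK.isClosed.preimage (continuous_id.add continuous_const)).measurableSet
  have hV1 : volume.real (K \ S) ≤ V := by
    have := vol_shift hK hc hr hball v (by rw [hvn]; exact h1)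
    rwa [hvn] at this
  have hV2 : volume.real (K \ S') ≤ V := by
    have := vol_shift hK hc hr hball (-v) (by rw [norm_neg, hvn]; exact h1)
    rwa [norm_neg, hvn] at this
  set a0 : E d → ℝ := fun x => inner ℝ (T0 x) e with ha0
  set a1 : E d → ℝ := fun x => inner ℝ (T1 x) e with ha1
  have hma0 : Measurable a0 := hT0.inner measurable_const
  have hma1 : Measurable a1 := hT1.inner measurable_const
  have hba0 : ∀ x, |a0 x| ≤ L := fun x => by
    refine (abs_real_inner_le_norm _ _).trans ?_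
    rw [he, mul_one]; exact hb0 x
  have hba1 : ∀ x, |a1 x| ≤ L := fun x => by
    refine (abs_real_inner_le_norm _ _).trans ?_
    rw [he, mul_one]; exact hb1 x
  set F : E d → ℝ := fun x => (φ0 x - φ1 x) ^ 2 with hF
  have hFc : Continuous F := by fun_prop
  have hFnn : ∀ x, 0 ≤ F x := fun x => sq_nonneg _
  have hFint : IntegrableOn F K := hFc.continuousOn.integrableOn_compact hK
  set b : E d → ℝ := fun x => a0 x + a1 x with hb
  have hmb : Measurable b := hma0.add hma1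
  have hbb : ∀ x, ‖b x‖ ≤ 2 * L := fun x => by
    rw [Real.norm_eq_abs]
    refine (abs_add_le _ _).trans ?_
    linarith [hba0 x, hba1 x]
  have hbint : IntegrableOn b K :=
    IntegrableOn.of_bound hKfin hmb.aestronglyMeasurable (2 * L) (ae_of_all _ hbb)
  -- the pointwise inequality
  set P : E d → ℝ := fun x => 4 / h ^ 2 * F x + 4 * L * b x with hP
  set Q : E d → ℝ := fun x => 4 / h ^ 2 * F x - 4 * L * b x with hQ
  have hPint : IntegrableOn P K := (hFint.const_mul _).add (hbint.const_mul _)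
  have hQint : IntegrableOn Q K := (hFint.const_mul _).sub (hbint.const_mul _)
  have htr : MeasurePreserving (fun x : E d => x + v) volume volume :=
    measurePreserving_add_right volume v
  have hg : ∀ (φ : E d → ℝ) (T : E d → E d),
      (∀ᵐ x ∂(volume.restrict K), ∀ x' ∈ K, φ x + inner ℝ (T x) (x' - x) ≤ φ x') →
      ∀ᵐ x ∂(volume : Measure (E d)), x ∈ K ∩ S →
        h * inner ℝ (T x) e ≤ φ (x + v) - φ x ∧
          φ (x + v) - φ x ≤ h * inner ℝ (T (x + v)) e := by
    intro φ T hs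
    rw [ae_restrict_iff' hmK] at hs
    have hs2 := htr.quasiMeasurePreserving.ae hs
    filter_upwards [hs, hs2] with x hx1 hx2 hx
    have e1 := hx1 hx.1 (x + v) hx.2
    have e2 := hx2 hx.2 x hx.1
    rw [add_sub_cancel_left, hv, inner_smul_right] at e1
    rw [sub_add_cancel_left, hv, inner_neg_right, inner_smul_right] at e2
    constructor
    · rw [hv]; linarith
    · rw [hv]; linarith
  have hpt : ∀ᵐ x ∂(volume.restrict (K ∩ S)), (a0 x - a1 x) ^ 2 ≤ P (x + v) + Q x := by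
    rw [ae_restrict_iff' (hmK.inter hmS)]
    filter_upwards [hg φ0 T0 hs0, hg φ1 T1 hs1] with x hx0 hx1 hx
    obtain ⟨p1, p2⟩ := hx0 hx
    obtain ⟨p3, p4⟩ := hx1 hx
    have := pointwise_dm (f0 := φ0 x - φ1 x) (f1 := φ0 (x + v) - φ1 (x + v)) h0
      (hba0 x) (hba1 x) (hba0 (x + v)) (hba1 (x + v)) p1 p2 p3 p4 (by ring)
    exact this
  have hpre : (fun x : E d => x + v) ⁻¹' (K ∩ S') = K ∩ S := by
    ext x
    simp only [hS, hS', Set.mem_preimage, Set.mem_inter_iff, Set.mem_ofPred_eq,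
      add_neg_cancel_right]
    tauto
  have hemb : MeasurableEmbedding (fun x : E d => x + v) :=
    (MeasurableEquiv.addRight v).measurableEmbedding
  have hPs : ∫ x in K ∩ S, P (x + v) = ∫ x in K ∩ S', P x := by
    rw [← hpre]
    exact htr.setIntegral_preimage_emb hemb P (K ∩ S')
  have hPsint : IntegrableOn (fun x => P (x + v)) (K ∩ S) := by
    rw [← hpre]
    exact (htr.integrableOn_comp_preimage hemb).mpr (hPint.mono_set Set.inter_subset_left)
  have hsqb : ∀ x, ‖(a0 x - a1 x) ^ 2‖ ≤ 4 * L ^ 2 := by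
    intro x
    rw [Real.norm_eq_abs, abs_of_nonneg (sq_nonneg _)]
    have := abs_le.mp (hba0 x)
    have := abs_le.mp (hba1 x)
    nlinarith
  have hsqint : IntegrableOn (fun x => (a0 x - a1 x) ^ 2) K :=
    IntegrableOn.of_bound hKfin (by fun_prop) (4 * L ^ 2) (ae_of_all _ hsqb)
  have hI1 : ∫ x in K ∩ S, (a0 x - a1 x) ^ 2 ≤
      (∫ x in K ∩ S', P x) + ∫ x in K ∩ S, Q x := by
    rw [← hPs, ← integral_add hPsint (hQint.mono_set Set.inter_subset_left)]
    exact integral_mono_ae (hsqint.mono_set Set.inter_subset_left)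
      (hPsint.add (hQint.mono_set Set.inter_subset_left)) hpt
  have hI2 : ∫ x in K \ S, (a0 x - a1 x) ^ 2 ≤ 4 * L ^ 2 * V := by
    have hfin : volume (K \ S) < ⊤ := lt_of_le_of_lt (measure_mono Set.sdiff_subset) hKfin
    have := norm_setIntegral_le_of_norm_le_const hfin (fun x _ => hsqb x)
    refine (le_abs_self _).trans (this.trans ?_)
    gcongr
  have hPQ : (∫ x in K ∩ S', P x) + ∫ x in K ∩ S, Q x ≤
      8 / h ^ 2 * (∫ x in K, F x) + 16 * L ^ 2 * V := by
    have i1 : ∫ x in K ∩ S', P x =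
        4 / h ^ 2 * (∫ x in K ∩ S', F x) + 4 * L * ∫ x in K ∩ S', b x := by
      rw [hP, integral_add ((hFint.mono_set Set.inter_subset_left).const_mul _)
        ((hbint.mono_set Set.inter_subset_left).const_mul _), integral_const_mul,
        integral_const_mul]
    have i2 : ∫ x in K ∩ S, Q x =
        4 / h ^ 2 * (∫ x in K ∩ S, F x) - 4 * L * ∫ x in K ∩ S, b x := by
      rw [hQ, integral_sub ((hFint.mono_set Set.inter_subset_left).const_mul _)
        ((hbint.mono_set Set.inter_subset_left).const_mul _), integral_const_mul,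
        integral_const_mul]
    have i3 : ∫ x in K ∩ S', F x ≤ ∫ x in K, F x :=
      setIntegral_mono_set hFint (ae_of_all _ hFnn) (Set.inter_subset_left.eventuallyLE)
    have i4 : ∫ x in K ∩ S, F x ≤ ∫ x in K, F x :=
      setIntegral_mono_set hFint (ae_of_all _ hFnn) (Set.inter_subset_left.eventuallyLE)
    have i5 : (∫ x in K ∩ S', b x) + ∫ x in K \ S', b x = ∫ x in K, b x :=
      integral_inter_add_sdiff hmS' hbint
    have i6 : (∫ x in K ∩ S, b x) + ∫ x in K \ S, b x = ∫ x in K, b x :=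
      integral_inter_add_sdiff hmS hbint
    have i7 : |∫ x in K \ S', b x| ≤ 2 * L * V := by
      have hfin : volume (K \ S') < ⊤ := lt_of_le_of_lt (measure_mono Set.sdiff_subset) hKfin
      refine (norm_setIntegral_le_of_norm_le_const hfin (fun x _ => hbb x)).trans ?_
      gcongr
    have i8 : |∫ x in K \ S, b x| ≤ 2 * L * V := by
      have hfin : volume (K \ S) < ⊤ := lt_of_le_of_lt (measure_mono Set.sdiff_subset) hKfin
      refine (norm_setIntegral_le_of_norm_le_const hfin (fun x _ => hbb x)).trans ?_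
      gcongr
    have j7 := abs_le.mp i7
    have j8 := abs_le.mp i8
    have hc4 : (0 : ℝ) < 4 / h ^ 2 := by positivity
    have k1 := mul_le_mul_of_nonneg_left i3 hc4.le
    have k2 := mul_le_mul_of_nonneg_left i4 hc4.le
    have k3 : (∫ x in K ∩ S', b x) - (∫ x in K ∩ S, b x) ≤ 4 * L * V := by linarith
    have k4 := mul_le_mul_of_nonneg_left k3 (by linarith : (0 : ℝ) ≤ 4 * L)
    rw [i1, i2]
    have h8 : 8 / h ^ 2 * (∫ x in K, F x) = 4 / h ^ 2 * (∫ x in K, F x) +
      4 / h ^ 2 * (∫ x in K, F x) := by ring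
    rw [h8]
    nlinarith
  have hsplit : (∫ x in K ∩ S, (a0 x - a1 x) ^ 2) + ∫ x in K \ S, (a0 x - a1 x) ^ 2 =
      ∫ x in K, (a0 x - a1 x) ^ 2 := integral_inter_add_sdiff hmS hsqint
  rw [← hsplit]
  linarith

/-- Interpolation between the potentials and their gradients. -/
theorem DM {K : Set (E d)} (hK : IsCompact K) (hc : Convex ℝ K) (hi : (interior K).Nonempty)
    {L : ℝ} (hL : 0 < L) :
    ∃ C h0 : ℝ, 0 < C ∧ 0 < h0 ∧ ∀ (φ0 φ1 : E d → ℝ) (T0 T1 : E d → E d),
      Continuous φ0 → Continuous φ1 → Measurable T0 → Measurable T1 →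
      (∀ x, ‖T0 x‖ ≤ L) → (∀ x, ‖T1 x‖ ≤ L) →
      (∀ᵐ x ∂(volume.restrict K), ∀ x' ∈ K, φ0 x + inner ℝ (T0 x) (x' - x) ≤ φ0 x') →
      (∀ᵐ x ∂(volume.restrict K), ∀ x' ∈ K, φ1 x + inner ℝ (T1 x) (x' - x) ≤ φ1 x') →
      ∀ h, 0 < h → h ≤ h0 →
        ∫ x in K, ‖T0 x - T1 x‖ ^ 2 ≤ C * ((∫ x in K, (φ0 x - φ1 x) ^ 2) / h ^ 2 + h) := by
  obtain ⟨c, hcint⟩ := hi
  obtain ⟨r0, hr0, hb⟩ := Metric.isOpen_iff.mp isOpen_interior c hcint
  have hr : 0 < r0 / 2 := by positivity
  have hball : Metric.closedBall c (r0 / 2) ⊆ K :=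
    (Metric.closedBall_subset_ball (by linarith)).trans (hb.trans interior_subset)
  set r := r0 / 2 with hrdef
  refine ⟨8 * d + 20 * L ^ 2 * (volume.real K * (d * (d / r))) + 1, r, by positivity, hr, ?_⟩
  intro φ0 φ1 T0 T1 hφ0 hφ1 hT0 hT1 hb0 hb1 hs0 hs1 h hh hhr
  have hmK : MeasurableSet K := hK.isClosed.measurableSet
  have hKfin : volume K < ⊤ := hK.measure_lt_top
  have hdir := fun i : Fin d => dm_dir hK hc hr hball hL φ0 φ1 T0 T1 hφ0 hφ1 hT0 hT1 hb0 hb1
    hs0 hs1 h hh hhr (EuclideanSpace.single i (1 : ℝ)) (by simp)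
  have hsum : ∀ x, ‖T0 x - T1 x‖ ^ 2 = ∑ i : Fin d,
      (inner ℝ (T0 x) (EuclideanSpace.single i (1 : ℝ)) -
        inner ℝ (T1 x) (EuclideanSpace.single i (1 : ℝ))) ^ 2 := by
    intro x
    rw [EuclideanSpace.norm_sq_eq]
    refine Finset.sum_congr rfl fun i _ => ?_
    simp [EuclideanSpace.inner_single_right]
  have hint : ∀ i : Fin d, IntegrableOn (fun x =>
      (inner ℝ (T0 x) (EuclideanSpace.single i (1 : ℝ)) -
        inner ℝ (T1 x) (EuclideanSpace.single i (1 : ℝ))) ^ 2) K := by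
    intro i
    refine IntegrableOn.of_bound hKfin ?_ (4 * L ^ 2) (ae_of_all _ fun x => ?_)
    · have h1 : Measurable fun x => inner ℝ (T0 x) (EuclideanSpace.single i (1 : ℝ)) :=
        hT0.inner measurable_const
      have h2 : Measurable fun x => inner ℝ (T1 x) (EuclideanSpace.single i (1 : ℝ)) :=
        hT1.inner measurable_const
      exact ((h1.sub h2).pow_const 2).aestronglyMeasurable
    · rw [Real.norm_eq_abs, abs_of_nonneg (sq_nonneg _)]
      have e0 : |inner ℝ (T0 x) (EuclideanSpace.single i (1 : ℝ))| ≤ L := by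
        refine (abs_real_inner_le_norm _ _).trans ?_
        simpa using hb0 x
      have e1 : |inner ℝ (T1 x) (EuclideanSpace.single i (1 : ℝ))| ≤ L := by
        refine (abs_real_inner_le_norm _ _).trans ?_
        simpa using hb1 x
      have := abs_le.mp e0
      have := abs_le.mp e1
      nlinarith
  have h1 : ∫ x in K, ‖T0 x - T1 x‖ ^ 2 = ∑ i : Fin d, ∫ x in K,
      (inner ℝ (T0 x) (EuclideanSpace.single i (1 : ℝ)) -
        inner ℝ (T1 x) (EuclideanSpace.single i (1 : ℝ))) ^ 2 := by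
    rw [← integral_finsetSum _ (fun i _ => hint i)]
    exact integral_congr_ae (ae_of_all _ hsum)
  set I := ∫ x in K, (φ0 x - φ1 x) ^ 2 with hI
  have hI0 : 0 ≤ I := integral_nonneg fun x => sq_nonneg _
  have h2 : ∫ x in K, ‖T0 x - T1 x‖ ^ 2 ≤
      d * (8 / h ^ 2 * I + 20 * L ^ 2 * (volume.real K * (d * (h / r)))) := by
    rw [h1]
    refine (Finset.sum_le_sum fun i _ => hdir i).trans ?_
    rw [Finset.sum_const, Finset.card_univ, Fintype.card_fin, nsmul_eq_mul]
  refine h2.trans ?_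
  have hV : 0 ≤ volume.real K := measureReal_nonneg
  have e1 : (d : ℝ) * (8 / h ^ 2 * I + 20 * L ^ 2 * (volume.real K * (d * (h / r)))) =
      8 * d * (I / h ^ 2) + 20 * L ^ 2 * (volume.real K * (d * (d / r))) * h := by
    field_simp
  rw [e1]
  have hIh : 0 ≤ I / h ^ 2 := by positivity
  have hA : 0 ≤ 20 * L ^ 2 * (volume.real K * (d * (d / r))) := by positivity
  have hd0 : (0 : ℝ) ≤ 8 * d := by positivity
  nlinarith [mul_nonneg hA hIh, mul_nonneg hd0 hh.le]

end Vale.Agent.P074
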