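import Mathlib

/-! Definitions for P074: stability exponents of quadratic optimal transport maps. -/

namespace Vale.Agent.P074

open MeasureTheory

/-- Euclidean space `ℝ^d`. -/
abbrev E (d : ℕ) : Type := EuclideanSpace ℝ (Fin d)

/-- The uniform probability measure on `K`. -/
noncomputable def unif {d : ℕ} (K : Set (E d)) : Measure (E d) :=
  (volume K)⁻¹ • volume.restrict K

/-- `T` is a quadratic optimal transport map from `ρ` to `μ`: it minimizes `∫ |x - T(x)|² dρ` among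
all Borel maps pushing `ρ` forward to `μ`. -/
def IsOptimalMap {d : ℕ} (ρ μ : Measure (E d)) (T : E d → E d) : Prop :=
  Measurable T ∧ ρ.map T = μ ∧ ∀ S : E d → E d, Measurable S → ρ.map S = μ →
    ∫ x, ‖x - T x‖ ^ 2 ∂ρ ≤ ∫ x, ‖x - S x‖ ^ 2 ∂ρ

/-- The quadratic Wasserstein distance: the infimum over all couplings `π` of `μ` and `ν` of
`(∫ |y - z|² dπ)^(1/2)`. -/
noncomputable def W2 {d : ℕ} (μ ν : Measure (E d)) : ℝ :=
  sInf {w : ℝ | ∃ π : Measure (E d × E d), π.map Prod.fst = μ ∧ π.map Prod.snd = ν ∧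
    w = Real.sqrt (∫ p, ‖p.1 - p.2‖ ^ 2 ∂π)}

/-- `α` is an admissible exponent in dimension `d`. -/
def Admissible (d : ℕ) (α : ℝ) : Prop :=
  ∀ K : Set (E d), IsCompact K → Convex ℝ K → (interior K).Nonempty →
  ∀ Y : Set (E d), IsCompact Y → Y.Nonempty →
  ∃ C : ℝ, ∀ μ ν : Measure (E d), IsProbabilityMeasure μ → IsProbabilityMeasure ν →
    μ Yᶜ = 0 → ν Yᶜ = 0 →
    ∀ T S : E d → E d, IsOptimalMap (unif K) μ T → IsOptimalMap (unif K) ν S →
      Real.sqrt (∫ x, ‖T x - S x‖ ^ 2 ∂(unif K)) ≤ C * (W2 μ ν) ^ α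

end Vale.Agent.P074
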