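import Mathlib

/-! The Prékopa–Leindler inequality (exponent 1/2) for `ℝ≥0∞`-valued functions on `Fin d → ℝ`. -/

namespace Vale.Agent.P074

open MeasureTheory Set
open scoped ENNReal Pointwise

/-- One-dimensional Brunn–Minkowski for compact sets. -/
theorem bm_compact {A B : Set ℝ} (hA : IsCompact A) (hB : IsCompact B) (hA0 : A.Nonempty)
    (hB0 : B.Nonempty) : volume A + volume B ≤ volume (A + B) := by
  obtain ⟨a, haA, ha⟩ := hA.exists_isGreatest hA0
  obtain ⟨b, hbB, hb⟩ := hB.exists_isLeast hB0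
  have h1 : (fun x => x + b) '' A ⊆ A + B := by
    rintro _ ⟨x, hx, rfl⟩
    exact Set.add_mem_add hx hbB
  have h2 : (fun y => a + y) '' B ⊆ A + B := by
    rintro _ ⟨y, hy, rfl⟩
    exact Set.add_mem_add haA hy
  have h3 : volume ((fun x => x + b) '' A) = volume A := by
    rw [Set.image_add_right]
    exact measure_preimage_add_right _ _ _
  have h4 : volume ((fun y => a + y) '' B) = volume B := by
    rw [Set.image_add_left]
    exact measure_preimage_add _ _ _
  have h5 : ((fun x => x + b) '' A) ∩ ((fun y => a + y) '' B) ⊆ {a + b} := by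
    rintro z ⟨⟨x, hx, rfl⟩, ⟨y, hy, hxy⟩⟩
    have h6 := ha hx
    have h7 := hb hy
    simp only [Set.mem_singleton_iff] at *
    linarith
  have h6 : volume (((fun x => x + b) '' A) ∩ ((fun y => a + y) '' B)) = 0 :=
    measure_mono_null h5 (by simp)
  have hm2 : MeasurableSet ((fun y => a + y) '' B) := (hB.image (by fun_prop)).measurableSet
  calc volume A + volume B
      = volume ((fun x => x + b) '' A) + volume ((fun y => a + y) '' B) := by rw [h3, h4]
    _ = volume (((fun x => x + b) '' A) ∪ ((fun y => a + y) '' B)) := by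
        rw [← measure_union_add_inter _ hm2, h6, add_zero]
    _ ≤ volume (A + B) := measure_mono (Set.union_subset h1 h2)

theorem bm_half {A L : Set ℝ} (hA : MeasurableSet A) (hL : IsCompact L) (hA0 : A.Nonempty)
    (hL0 : L.Nonempty) : volume A + volume L ≤ volume (A + L) := by
  obtain ⟨a0, ha0⟩ := hA0
  have h1 : volume A ≤ volume (A + L) - volume L := by
    rw [hA.measure_eq_iSup_isCompact]
    refine iSup₂_le fun K hK => iSup_le fun hKc => ?_
    refine ENNReal.le_sub_of_add_le_right hL.measure_lt_top.ne ?_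
    have h2 : IsCompact (insert a0 K) := hKc.insert a0
    calc volume K + volume L ≤ volume (insert a0 K) + volume L := by
          gcongr
          exact Set.subset_insert _ _
      _ ≤ volume (insert a0 K + L) := bm_compact h2 hL (Set.insert_nonempty _ _) hL0
      _ ≤ volume (A + L) := measure_mono (Set.add_subset_add_right (Set.insert_subset ha0 hK))
  have h3 : volume L ≤ volume (A + L) := by
    have h4 : (fun y => a0 + y) '' L ⊆ A + L := by
      rintro _ ⟨y, hy, rfl⟩
      exact Set.add_mem_add ha0 hy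
    calc volume L = volume ((fun y => a0 + y) '' L) := by
          rw [Set.image_add_left]
          exact (measure_preimage_add _ _ _).symm
      _ ≤ _ := measure_mono h4
  calc volume A + volume L ≤ (volume (A + L) - volume L) + volume L := by gcongr
    _ = volume (A + L) := tsub_add_cancel_of_le h3

/-- One-dimensional Brunn–Minkowski. -/
theorem bm {A B : Set ℝ} (hA : MeasurableSet A) (hB : MeasurableSet B) (hA0 : A.Nonempty)
    (hB0 : B.Nonempty) : volume A + volume B ≤ volume (A + B) := by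
  obtain ⟨b0, hb0⟩ := hB0
  have h3 : volume A ≤ volume (A + B) := by
    have h4 : (fun x => x + b0) '' A ⊆ A + B := by
      rintro _ ⟨y, hy, rfl⟩
      exact Set.add_mem_add hy hb0
    calc volume A = volume ((fun x => x + b0) '' A) := by
          rw [Set.image_add_right]
          exact (measure_preimage_add_right _ _ _).symm
      _ ≤ _ := measure_mono h4
  by_cases hinf : volume A = ∞
  · rw [hinf] at h3
    rw [top_le_iff.1 h3]
    exact le_top
  have h1 : volume B ≤ volume (A + B) - volume A := by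
    rw [hB.measure_eq_iSup_isCompact]
    refine iSup₂_le fun K hK => iSup_le fun hKc => ?_
    refine ENNReal.le_sub_of_add_le_left hinf ?_
    have h2 : IsCompact (insert b0 K) := hKc.insert b0
    calc volume A + volume K ≤ volume A + volume (insert b0 K) := by
          gcongr
          exact Set.subset_insert _ _
      _ ≤ volume (A + insert b0 K) := bm_half hA h2 hA0 (Set.insert_nonempty _ _)
      _ ≤ volume (A + B) := measure_mono (Set.add_subset_add_left (Set.insert_subset hb0 hK))
  calc volume A + volume B ≤ volume A + (volume (A + B) - volume A) := by gcongr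
    _ = volume (A + B) := add_tsub_cancel_of_le h3

theorem pl_core (f g k : ℝ → ℝ) (hf : Measurable f) (hg : Measurable g) (hk : Measurable k)
    (hf0 : ∀ x, 0 ≤ f x) (hg0 : ∀ x, 0 ≤ g x) (hk0 : ∀ x, 0 ≤ k x)
    (hf1 : ∀ x, f x ≤ 1) (hg1 : ∀ x, g x ≤ 1)
    (hfs : ∀ t < 1, ∃ x, t < f x) (hgs : ∀ t < 1, ∃ x, t < g x)
    (h : ∀ x y, f x * g y ≤ (k ((x + y) * (1 / 2))) ^ 2) :
    (∫⁻ x, ENNReal.ofReal (f x)) + (∫⁻ x, ENNReal.ofReal (g x)) ≤
      2 * ∫⁻ x, ENNReal.ofReal (k x) := by
  rw [lintegral_eq_lintegral_meas_lt volume (ae_of_all _ hf0) hf.aemeasurable,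
    lintegral_eq_lintegral_meas_lt volume (ae_of_all _ hg0) hg.aemeasurable,
    lintegral_eq_lintegral_meas_lt volume (ae_of_all _ hk0) hk.aemeasurable,
    ← lintegral_const_mul' 2 _ (by simp)]
  refine (le_lintegral_add _ _).trans ?_
  refine setLIntegral_mono' measurableSet_Ioi ?_
  intro t ht
  have ht0 : (0 : ℝ) < t := ht
  by_cases ht1 : t < 1
  · have hA : MeasurableSet {a | t < f a} := measurableSet_lt measurable_const hf
    have hB : MeasurableSet {a | t < g a} := measurableSet_lt measurable_const hg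
    refine (bm hA hB (hfs t ht1) (hgs t ht1)).trans ?_
    have h1 : {a | t < f a} + {a | t < g a} ⊆ (fun z => z * (1 / 2)) ⁻¹' {a | t < k a} := by
      rintro _ ⟨x, hx, y, hy, rfl⟩
      simp only [Set.mem_ofPred_eq, Set.mem_preimage] at *
      have h2 := h x y
      have h3 : t ^ 2 < (k ((x + y) * (1 / 2))) ^ 2 := by nlinarith
      exact lt_of_pow_lt_pow_left₀ 2 (hk0 _) h3
    refine (measure_mono h1).trans ?_
    rw [Real.volume_preimage_mul_right (by norm_num)]
    norm_num
  · have h1 : {a | t < f a} = ∅ := by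
      ext a
      simp only [Set.mem_ofPred_eq, Set.mem_empty_iff_false, iff_false, not_lt]
      linarith [hf1 a]
    have h2 : {a | t < g a} = ∅ := by
      ext a
      simp only [Set.mem_ofPred_eq, Set.mem_empty_iff_false, iff_false, not_lt]
      linarith [hg1 a]
    rw [h1, h2]
    simp

theorem ennreal_amgm (x y : ℝ≥0∞) : 4 * (x * y) ≤ (x + y) ^ 2 := by
  by_cases hx : x = ∞
  · rw [hx]; simp
  by_cases hy : y = ∞
  · rw [hy]; simp
  lift x to NNReal using hx
  lift y to NNReal using hy
  norm_cast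
  rw [← NNReal.coe_le_coe]
  push_cast
  nlinarith [sq_nonneg ((x : ℝ) - y)]

theorem pl_bdd (U V M : ℝ → ℝ) (hU : Measurable U) (hV : Measurable V) (hM : Measurable M)
    (hU0 : ∀ x, 0 ≤ U x) (hV0 : ∀ x, 0 ≤ V x) (hM0 : ∀ x, 0 ≤ M x) (N : ℝ)
    (hUN : ∀ x, U x ≤ N) (hVN : ∀ x, V x ≤ N)
    (h : ∀ x y, U x * V y ≤ (M ((x + y) * (1 / 2))) ^ 2) :
    (∫⁻ x, ENNReal.ofReal (U x)) * (∫⁻ x, ENNReal.ofReal (V x)) ≤
      (∫⁻ x, ENNReal.ofReal (M x)) ^ 2 := by
  have hbU : BddAbove (Set.range U) := ⟨N, by rintro _ ⟨x, rfl⟩; exact hUN x⟩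
  have hbV : BddAbove (Set.range V) := ⟨N, by rintro _ ⟨x, rfl⟩; exact hVN x⟩
  set a := ⨆ x, U x with ha
  set b := ⨆ x, V x with hb
  have haU : ∀ x, U x ≤ a := fun x => le_ciSup hbU x
  have hbV' : ∀ x, V x ≤ b := fun x => le_ciSup hbV x
  by_cases ha0 : a ≤ 0
  · have : ∀ x, ENNReal.ofReal (U x) = 0 := fun x =>
      ENNReal.ofReal_eq_zero.2 ((haU x).trans ha0)
    simp [this]
  by_cases hb0 : b ≤ 0
  · have : ∀ x, ENNReal.ofReal (V x) = 0 := fun x =>
      ENNReal.ofReal_eq_zero.2 ((hbV' x).trans hb0)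
    simp [this]
  push Not at ha0 hb0
  have hab : 0 < a * b := mul_pos ha0 hb0
  set c := Real.sqrt (a * b) with hc
  have hc0 : 0 < c := Real.sqrt_pos.2 hab
  have hc2 : c ^ 2 = a * b := Real.sq_sqrt hab.le
  have key := pl_core (fun x => U x / a) (fun x => V x / b) (fun x => M x / c)
    (hU.div_const _) (hV.div_const _) (hM.div_const _)
    (fun x => div_nonneg (hU0 x) ha0.le) (fun x => div_nonneg (hV0 x) hb0.le)
    (fun x => div_nonneg (hM0 x) hc0.le)
    (fun x => (div_le_one ha0).2 (haU x)) (fun x => (div_le_one hb0).2 (hbV' x))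
    (by
      intro t ht
      have h1 : t * a < a := by nlinarith
      obtain ⟨x, hx⟩ := exists_lt_of_lt_ciSup h1
      exact ⟨x, (lt_div_iff₀ ha0).2 hx⟩)
    (by
      intro t ht
      have h1 : t * b < b := by nlinarith
      obtain ⟨x, hx⟩ := exists_lt_of_lt_ciSup h1
      exact ⟨x, (lt_div_iff₀ hb0).2 hx⟩)
    (by
      intro x y
      have h1 := h x y
      have h2 : U x / a * (V y / b) = (U x * V y) / (a * b) := by field_simp
      rw [h2, div_pow, hc2]
      gcongr)
  have e1 : (∫⁻ x, ENNReal.ofReal (U x)) =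
      ENNReal.ofReal a * ∫⁻ x, ENNReal.ofReal (U x / a) := by
    rw [← lintegral_const_mul' _ _ ENNReal.ofReal_ne_top]
    refine lintegral_congr fun x => ?_
    rw [← ENNReal.ofReal_mul ha0.le]
    congr 1
    field_simp
  have e2 : (∫⁻ x, ENNReal.ofReal (V x)) =
      ENNReal.ofReal b * ∫⁻ x, ENNReal.ofReal (V x / b) := by
    rw [← lintegral_const_mul' _ _ ENNReal.ofReal_ne_top]
    refine lintegral_congr fun x => ?_
    rw [← ENNReal.ofReal_mul hb0.le]
    congr 1
    field_simp
  have e3 : (∫⁻ x, ENNReal.ofReal (M x)) =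
      ENNReal.ofReal c * ∫⁻ x, ENNReal.ofReal (M x / c) := by
    rw [← lintegral_const_mul' _ _ ENNReal.ofReal_ne_top]
    refine lintegral_congr fun x => ?_
    rw [← ENNReal.ofReal_mul hc0.le]
    congr 1
    field_simp
  rw [e1, e2, e3]
  set X := ∫⁻ x, ENNReal.ofReal (U x / a)
  set Y := ∫⁻ x, ENNReal.ofReal (V x / b)
  set Z := ∫⁻ x, ENNReal.ofReal (M x / c)
  have h4 : 4 * (X * Y) ≤ 4 * Z ^ 2 := by
    calc 4 * (X * Y) ≤ (X + Y) ^ 2 := ennreal_amgm X Y
      _ ≤ (2 * Z) ^ 2 := by gcongr
      _ = 4 * Z ^ 2 := by ring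
  have h5 : X * Y ≤ Z ^ 2 := by
    rwa [ENNReal.mul_le_mul_iff_right (by norm_num) (by norm_num)] at h4
  calc ENNReal.ofReal a * X * (ENNReal.ofReal b * Y)
      = (ENNReal.ofReal a * ENNReal.ofReal b) * (X * Y) := by ring
    _ ≤ (ENNReal.ofReal a * ENNReal.ofReal b) * Z ^ 2 := by gcongr
    _ = (ENNReal.ofReal c) ^ 2 * Z ^ 2 := by
        rw [← ENNReal.ofReal_mul ha0.le, ← hc2, ENNReal.ofReal_pow hc0.le]
    _ = (ENNReal.ofReal c * Z) ^ 2 := by ring

theorem pl_one (u v m : ℝ → ℝ≥0∞) (hu : Measurable u) (hv : Measurable v) (hm : Measurable m)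
    (h : ∀ x y, u x * v y ≤ (m ((x + y) * (1 / 2))) ^ 2) :
    (∫⁻ x, u x) * (∫⁻ x, v x) ≤ (∫⁻ x, m x) ^ 2 := by
  have hsup : ∀ w : ℝ → ℝ≥0∞, Measurable w →
      ∫⁻ x, w x = ⨆ n : ℕ, ∫⁻ x, min (w x) n := by
    intro w hw
    rw [← lintegral_iSup (fun n => hw.min measurable_const)]
    · refine lintegral_congr fun x => ?_
      refine le_antisymm ?_ (iSup_le fun n => min_le_left _ _)
      by_cases hx : w x = ∞
      · rw [hx]
        simp only [le_top, inf_of_le_right]
        rw [ENNReal.iSup_natCast]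
      · obtain ⟨n, hn⟩ := ENNReal.exists_nat_gt hx
        exact le_iSup_of_le n (by rw [min_eq_left hn.le])
    · intro i j hij x
      simp only
      gcongr
  rw [hsup u hu, hsup v hv, ENNReal.iSup_mul]
  refine iSup_le fun n => ?_
  rw [ENNReal.mul_iSup]
  refine iSup_le fun k => ?_
  set N : ℕ := max n k with hN
  have key := pl_bdd (fun x => (min (u x) n).toReal) (fun x => (min (v x) k).toReal)
    (fun x => (min (m x) N).toReal)
    (hu.min measurable_const).ennreal_toReal (hv.min measurable_const).ennreal_toReal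
    (hm.min measurable_const).ennreal_toReal
    (fun x => ENNReal.toReal_nonneg) (fun x => ENNReal.toReal_nonneg)
    (fun x => ENNReal.toReal_nonneg) N
    (fun x => by
      have : (min (u x) n).toReal ≤ ((n : ℝ≥0∞)).toReal :=
        ENNReal.toReal_mono (by simp) (min_le_right _ _)
      refine this.trans ?_
      simp [hN])
    (fun x => by
      have : (min (v x) k).toReal ≤ ((k : ℝ≥0∞)).toReal :=
        ENNReal.toReal_mono (by simp) (min_le_right _ _)
      refine this.trans ?_
      simp [hN])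
    (fun x y => by
      rw [← ENNReal.toReal_mul, ← ENNReal.toReal_pow]
      refine ENNReal.toReal_mono (by
        refine ENNReal.pow_ne_top ?_
        exact ne_top_of_le_ne_top (by simp) (min_le_right _ _)) ?_
      rcases le_total (m ((x + y) * (1 / 2))) N with h1 | h1
      · rw [min_eq_left h1]
        refine le_trans ?_ (h x y)
        gcongr <;> exact min_le_left _ _
      · rw [min_eq_right h1, sq]
        gcongr
        · refine (min_le_right _ _).trans ?_
          exact_mod_cast le_max_left n k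
        · refine (min_le_right _ _).trans ?_
          exact_mod_cast le_max_right n k)
  have e : ∀ (w : ℝ → ℝ≥0∞) (j : ℕ),
      (∫⁻ x, ENNReal.ofReal ((min (w x) j).toReal)) = ∫⁻ x, min (w x) j := by
    intro w j
    refine lintegral_congr fun x => ?_
    exact ENNReal.ofReal_toReal (ne_top_of_le_ne_top (by simp) (min_le_right _ _))
  rw [e, e, e] at key
  refine key.trans ?_
  gcongr
  exact min_le_left _ _

/-- The Prékopa–Leindler inequality (exponent `1/2`) on `Fin d → ℝ`. -/
theorem prekopa_leindler (d : ℕ) (u v m : (Fin d → ℝ) → ℝ≥0∞) (hu : Measurable u)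
    (hv : Measurable v) (hm : Measurable m)
    (h : ∀ x y, u x * v y ≤ (m ((1 / 2 : ℝ) • (x + y))) ^ 2) :
    (∫⁻ x, u x) * (∫⁻ x, v x) ≤ (∫⁻ x, m x) ^ 2 := by
  induction d with
  | zero =>
    have e : ∀ w : (Fin 0 → ℝ) → ℝ≥0∞, (∫⁻ x, w x) = w 0 := by
      intro w
      rw [volume_pi, Measure.pi_of_empty _ (0 : Fin 0 → ℝ), lintegral_dirac]
    rw [e, e, e]
    have := h 0 0
    simpa using this
  | succ d ih =>
    have hmp := (volume_preserving_piFinSuccAbove (fun _ : Fin (d + 1) => ℝ) 0).symm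
    set e := (MeasurableEquiv.piFinSuccAbove (fun _ : Fin (d + 1) => ℝ) 0).symm with he
    have hint : ∀ w : (Fin (d + 1) → ℝ) → ℝ≥0∞, Measurable w →
        (∫⁻ x, w x) = ∫⁻ s : ℝ, ∫⁻ y : Fin d → ℝ, w (e (s, y)) := by
      intro w hw
      rw [← hmp.lintegral_comp hw]
      rw [Measure.volume_eq_prod, lintegral_prod]
      exact (hw.comp e.measurable).aemeasurable
    rw [hint u hu, hint v hv, hint m hm]
    have hmeas : ∀ w : (Fin (d + 1) → ℝ) → ℝ≥0∞, Measurable w →
        Measurable (fun s : ℝ => ∫⁻ y : Fin d → ℝ, w (e (s, y))) := by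
      intro w hw
      exact Measurable.lintegral_prod_right' (f := fun p : ℝ × (Fin d → ℝ) => w (e p))
        (hw.comp e.measurable)
    refine pl_one _ _ _ (hmeas u hu) (hmeas v hv) (hmeas m hm) ?_
    intro s t
    refine ih _ _ _ (hu.comp (e.measurable.comp measurable_prodMk_left))
      (hv.comp (e.measurable.comp measurable_prodMk_left))
      (hm.comp (e.measurable.comp measurable_prodMk_left)) ?_
    intro x y
    refine (h _ _).trans (le_of_eq ?_)
    congr 2
    ext i
    refine Fin.cases ?_ (fun j => ?_) i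
    · simp [he, MeasurableEquiv.piFinSuccAbove_symm_apply]
      ring
    · simp [he, MeasurableEquiv.piFinSuccAbove_symm_apply]
      ring

end Vale.Agent.P074
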