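import Mathlib
import Vale.Agent.P074.Defs
import Vale.Agent.P074.PL

open MeasureTheory

namespace Vale.Agent.P074

theorem pl_E {d : ℕ} (u v m : E d → ENNReal) (hu : Measurable u)
    (hv : Measurable v) (hm : Measurable m)
    (h : ∀ x y, u x * v y ≤ (m ((1 / 2 : ℝ) • (x + y))) ^ 2) :
    (∫⁻ x, u x) * (∫⁻ x, v x) ≤ (∫⁻ x, m x) ^ 2 := by
  have key : ∀ g : E d → ENNReal, Measurable g →
      ∫⁻ x, g x = ∫⁻ x : Fin d → ℝ, g (WithLp.toLp 2 x) := by
    intro g hg
    have := (EuclideanSpace.volume_preserving_symm_measurableEquiv_toLp (Fin d)).symm.lintegral_comp hg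
    exact this.symm
  rw [key u hu, key v hv, key m hm]
  refine prekopa_leindler d _ _ _ ?_ ?_ ?_ fun x y => ?_
  · exact hu.comp (MeasurableEquiv.toLp 2 (Fin d → ℝ)).measurable
  · exact hv.comp (MeasurableEquiv.toLp 2 (Fin d → ℝ)).measurable
  · exact hm.comp (MeasurableEquiv.toLp 2 (Fin d → ℝ)).measurable
  · have := h (WithLp.toLp 2 x) (WithLp.toLp 2 y)
    exact this

end Vale.Agent.P074
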