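import Mathlib
import Vale.Agent.P074.Defs

/-! Laguerre cells and semi-discrete optimal transport, for P074. -/

set_option linter.unusedSectionVars false

open MeasureTheory Finset
open scoped RealInnerProductSpace

namespace Vale.Agent.P074

variable {d : ℕ} {ι : Type*} [Fintype ι]

/-- the Laguerre cell of the label `k` (labels with coinciding sites share their cell) -/
def cell (x : ι → E d) (ψ : ι → ℝ) (k : ι) : Set (E d) :=
  {z | ∀ l, x l ≠ x k → ⟪z, x l⟫ - ψ l < ⟪z, x k⟫ - ψ k}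

lemma isOpen_cell (x : ι → E d) (ψ : ι → ℝ) (k : ι) : IsOpen (cell x ψ k) := by
  have : cell x ψ k = ⋂ l, {z | x l ≠ x k → ⟪z, x l⟫ - ψ l < ⟪z, x k⟫ - ψ k} := by
    ext z; simp [cell]
  rw [this]
  refine isOpen_iInter_of_finite fun l => ?_
  by_cases h : x l = x k
  · simp [h]
  · simp only [ne_eq, h, not_false_eq_true, forall_const]
    exact isOpen_lt (by fun_prop) (by fun_prop)

lemma measurableSet_cell (x : ι → E d) (ψ : ι → ℝ) (k : ι) : MeasurableSet (cell x ψ k) :=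
  (isOpen_cell x ψ k).measurableSet

/-- the midpoint property -/
lemma midpoint_mem_cell {x : ι → E d} {ψ ψ' : ι → ℝ} {k : ι} {z z' : E d}
    (hz : z ∈ cell x ψ k) (hz' : z' ∈ cell x ψ' k) :
    (1 / 2 : ℝ) • (z + z') ∈ cell x (fun l => (ψ l + ψ' l) / 2) k := by
  intro l hl
  have h1 := hz l hl
  have h2 := hz' l hl
  rw [inner_smul_left, inner_smul_left, inner_add_left, inner_add_left]
  simp only [conj_trivial]
  linarith

lemma cell_eq_of_eq {x : ι → E d} {ψ : ι → ℝ} (hψ : ∀ k l, x k = x l → ψ k = ψ l) {k l : ι}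
    (h : x k = x l) : cell x ψ k = cell x ψ l := by
  ext z
  simp only [cell, Set.mem_ofPred_eq, h, hψ k l h]

lemma eq_of_mem_cell {x : ι → E d} {ψ : ι → ℝ} {k l : ι} {z : E d}
    (hk : z ∈ cell x ψ k) (hl : z ∈ cell x ψ l) : x k = x l := by
  by_contra h
  have h1 := hk l (Ne.symm h)
  have h2 := hl k h
  linarith

/-- the convex potential -/
noncomputable def Phi [Nonempty ι] (x : ι → E d) (ψ : ι → ℝ) (z : E d) : ℝ :=
  univ.sup' univ_nonempty fun k => ⟪z, x k⟫ - ψ k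

lemma le_Phi [Nonempty ι] (x : ι → E d) (ψ : ι → ℝ) (z : E d) (k : ι) :
    ⟪z, x k⟫ - ψ k ≤ Phi x ψ z :=
  Finset.le_sup' (fun k => ⟪z, x k⟫ - ψ k) (mem_univ k)

lemma Phi_le [Nonempty ι] {x : ι → E d} {ψ : ι → ℝ} {z : E d} {c : ℝ}
    (h : ∀ k, ⟪z, x k⟫ - ψ k ≤ c) : Phi x ψ z ≤ c :=
  Finset.sup'_le _ _ fun k _ => h k

lemma exists_Phi_eq [Nonempty ι] (x : ι → E d) (ψ : ι → ℝ) (z : E d) :
    ∃ k, Phi x ψ z = ⟪z, x k⟫ - ψ k := by
  obtain ⟨k, _, hk⟩ := Finset.exists_mem_eq_sup' (univ_nonempty (α := ι)) fun k => ⟪z, x k⟫ - ψ k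
  exact ⟨k, hk⟩

lemma Phi_eq_of_mem_cell [Nonempty ι] {x : ι → E d} {ψ : ι → ℝ}
    (hψ : ∀ k l, x k = x l → ψ k = ψ l) {z : E d} {k : ι} (hz : z ∈ cell x ψ k) :
    Phi x ψ z = ⟪z, x k⟫ - ψ k := by
  refine le_antisymm (Phi_le fun l => ?_) (le_Phi x ψ z k)
  by_cases h : x l = x k
  · rw [h, hψ l k h]
  · exact (hz l h).le

/-- the hyperplane `⟪z, a⟫ = c` is a null set -/
lemma volume_hyperplane (a : E d) (ha : a ≠ 0) (c : ℝ) : volume {z : E d | ⟪z, a⟫ = c} = 0 := by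
  rcases Set.eq_empty_or_nonempty {z : E d | ⟪z, a⟫ = c} with h | ⟨z0, hz0⟩
  · rw [h]; simp
  · have hset : {z : E d | ⟪z, a⟫ = c} =
        (AffineSubspace.mk' z0 (LinearMap.ker (innerSL ℝ a).toLinearMap) : Set (E d)) := by
      ext z
      simp only [Set.mem_ofPred_eq] at hz0 ⊢
      rw [SetLike.mem_coe, AffineSubspace.mem_mk', LinearMap.mem_ker]
      change _ ↔ ⟪a, z - z0⟫ = 0
      rw [inner_sub_right, real_inner_comm, real_inner_comm z0 a, hz0, sub_eq_zero]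
    rw [hset]
    refine Measure.addHaar_affineSubspace _ _ ?_
    intro htop
    have : (AffineSubspace.mk' z0 (LinearMap.ker (innerSL ℝ a).toLinearMap)).direction = ⊤ := by
      rw [htop]; exact AffineSubspace.direction_top ℝ (E d) (E d)
    rw [AffineSubspace.direction_mk'] at this
    have h2 : a ∈ LinearMap.ker (innerSL ℝ a).toLinearMap := by rw [this]; trivial
    rw [LinearMap.mem_ker] at h2
    exact ha (inner_self_eq_zero.1 (show ⟪a, a⟫ = 0 from h2))

/-- almost every point lies in some cell -/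
lemma ae_exists_cell [Nonempty ι] (x : ι → E d) (ψ : ι → ℝ) : ∀ᵐ z : E d, ∃ k, z ∈ cell x ψ k := by
  have h : ∀ k l, x k ≠ x l → ∀ᵐ z : E d, ⟪z, x k - x l⟫ ≠ ψ k - ψ l := by
    intro k l hkl
    have := volume_hyperplane (x k - x l) (sub_ne_zero.2 hkl) (ψ k - ψ l)
    rw [ae_iff]; simpa using this
  have h' : ∀ᵐ z : E d, ∀ k l, x k ≠ x l → ⟪z, x k - x l⟫ ≠ ψ k - ψ l := by
    rw [ae_all_iff]; intro k
    rw [ae_all_iff]; intro l
    by_cases hkl : x k = x l
    · simp [hkl]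
    · filter_upwards [h k l hkl] with z hz _ using hz
  filter_upwards [h'] with z hz
  obtain ⟨k, hk⟩ := exists_Phi_eq x ψ z
  refine ⟨k, fun l hl => ?_⟩
  have h1 := le_Phi x ψ z l
  rw [hk] at h1
  refine lt_of_le_of_ne h1 fun heq => ?_
  apply hz l k hl
  rw [inner_sub_right]; linarith

lemma Phi_sub_le [Nonempty ι] (x : ι → E d) (ψ ψ' : ι → ℝ) (z : E d) :
    |Phi x ψ z - Phi x ψ' z| ≤ ‖ψ - ψ'‖ := by
  have key : ∀ ψ ψ' : ι → ℝ, Phi x ψ z ≤ Phi x ψ' z + ‖ψ - ψ'‖ := by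
    intro ψ ψ'
    refine Phi_le fun k => ?_
    have h1 := le_Phi x ψ' z k
    have h2 : |(ψ - ψ') k| ≤ ‖ψ - ψ'‖ := by
      rw [← Real.norm_eq_abs]; exact norm_le_pi_norm (ψ - ψ') k
    rw [Pi.sub_apply, abs_le] at h2
    linarith [h2.1]
  rw [abs_le]
  have h1 := key ψ ψ'
  have h2 := key ψ' ψ
  rw [norm_sub_rev] at h2
  constructor <;> linarith

lemma continuous_Phi [Nonempty ι] (x : ι → E d) (ψ : ι → ℝ) : Continuous (Phi x ψ) := by
  unfold Phi
  exact Continuous.finset_sup'_apply univ_nonempty fun k _ => by fun_prop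

lemma Phi_abs_le [Nonempty ι] {x : ι → E d} {L : ℝ} (hL : ∀ k, ‖x k‖ ≤ L) (ψ : ι → ℝ) {R : ℝ}
    {z : E d} (hz : ‖z‖ ≤ R) : |Phi x ψ z| ≤ R * L + ‖ψ‖ := by
  have h0 : ∀ k, |⟪z, x k⟫| ≤ R * L := fun k =>
    (abs_real_inner_le_norm z (x k)).trans
      (mul_le_mul hz (hL k) (norm_nonneg _) ((norm_nonneg z).trans hz))
  have h1 : ∀ k, |ψ k| ≤ ‖ψ‖ := fun k => by
    rw [← Real.norm_eq_abs]; exact norm_le_pi_norm ψ k
  rw [abs_le]
  constructor
  · obtain ⟨k⟩ := ‹Nonempty ι›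
    have := le_Phi x ψ z k
    have h2 := abs_le.1 (h0 k)
    have h3 := abs_le.1 (h1 k)
    linarith [h2.1, h3.2]
  · refine Phi_le fun k => ?_
    have h2 := abs_le.1 (h0 k)
    have h3 := abs_le.1 (h1 k)
    linarith [h2.2, h3.1]

open Classical in
/-- total mass of the labels sharing the site of `k` -/
noncomputable def mass (x : ι → E d) (m : ι → ℝ) (k : ι) : ℝ :=
  ∑ l ∈ univ.filter (fun l => x l = x k), m l

lemma mass_pos (x : ι → E d) {m : ι → ℝ} (hm : ∀ k, 0 < m k) (k : ι) : 0 < mass x m k := by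
  classical
  exact Finset.sum_pos (fun l _ => hm l) ⟨k, by simp⟩

lemma mass_eq {x : ι → E d} (m : ι → ℝ) {k l : ι} (h : x k = x l) : mass x m k = mass x m l := by
  unfold mass; rw [h]

lemma le_mass (x : ι → E d) {m : ι → ℝ} (hm : ∀ k, 0 < m k) (k : ι) : m k ≤ mass x m k := by
  classical
  exact Finset.single_le_sum (f := m) (fun l _ => (hm l).le) (by simp)

/-- the fractional share of the label `k` in its cell -/
noncomputable def share (x : ι → E d) (m : ι → ℝ) (k : ι) : ℝ := m k / mass x m k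

lemma share_nonneg (x : ι → E d) {m : ι → ℝ} (hm : ∀ k, 0 < m k) (k : ι) : 0 < share x m k :=
  div_pos (hm k) (mass_pos x hm k)

lemma share_le_one (x : ι → E d) {m : ι → ℝ} (hm : ∀ k, 0 < m k) (k : ι) : share x m k ≤ 1 :=
  (div_le_one (mass_pos x hm k)).2 (le_mass x hm k)

lemma share_mul_mass (x : ι → E d) {m : ι → ℝ} (hm : ∀ k, 0 < m k) (k : ι) :
    share x m k * mass x m k = m k := div_mul_cancel₀ _ (mass_pos x hm k).ne'

open Classical in
/-- the shares form a partition of unity on each cell -/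
lemma sum_share_indicator (x : ι → E d) {m : ι → ℝ} (hm : ∀ k, 0 < m k) {ψ : ι → ℝ}
    (hψ : ∀ k l, x k = x l → ψ k = ψ l) {z : E d} (hz : ∃ k, z ∈ cell x ψ k) :
    ∑ k, share x m k * (cell x ψ k).indicator (fun _ => (1 : ℝ)) z = 1 := by
  obtain ⟨k, hk⟩ := hz
  have h1 : ∀ l, share x m l * (cell x ψ l).indicator (fun _ => (1 : ℝ)) z =
      if x l = x k then m l / mass x m k else 0 := by
    intro l
    by_cases h : x l = x k
    · rw [if_pos h, Set.indicator_of_mem (by rw [cell_eq_of_eq hψ h]; exact hk), mul_one, share,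
        mass_eq m h]
    · rw [if_neg h, Set.indicator_of_notMem, mul_zero]
      exact fun hl => h (eq_of_mem_cell hl hk)
  rw [Finset.sum_congr rfl fun l _ => h1 l, ← Finset.sum_filter, ← Finset.sum_div]
  exact div_self (mass_pos x hm k).ne'

end Vale.Agent.P074
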