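import Mathlib
import Vale.Agent.P074.Cells

/-! Existence of Laguerre cells with prescribed masses, for P074. -/

set_option linter.unusedSectionVars false

open MeasureTheory Finset
open scoped RealInnerProductSpace

namespace Vale.Agent.P074

variable {d : ℕ} {ι : Type*} [Fintype ι] [Nonempty ι]

lemma integrable_Phi {α : Measure (E d)} [IsFiniteMeasure α] {R : ℝ} (hR : ∀ᵐ z ∂α, ‖z‖ ≤ R)
    {x : ι → E d} {L : ℝ} (hL : ∀ k, ‖x k‖ ≤ L) (ψ : ι → ℝ) : Integrable (Phi x ψ) α := by
  refine Integrable.of_bound (continuous_Phi x ψ).aestronglyMeasurable (R * L + ‖ψ‖) ?_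
  filter_upwards [hR] with z hz
  rw [Real.norm_eq_abs]
  exact Phi_abs_le hL ψ hz

/-- integrating the partition of unity -/
lemma sum_share_measure {α : Measure (E d)} [IsFiniteMeasure α] (hα : α ≪ volume)
    (x : ι → E d) {m : ι → ℝ} (hm : ∀ k, 0 < m k) {ψ : ι → ℝ}
    (hψ : ∀ k l, x k = x l → ψ k = ψ l) :
    ∑ k, share x m k * α.real (cell x ψ k) = α.real Set.univ := by
  classical
  have h1 : ∀ᵐ z ∂α, ∑ k, share x m k * (cell x ψ k).indicator (fun _ => (1 : ℝ)) z = 1 := by
    filter_upwards [hα.ae_le (ae_exists_cell x ψ)] with z hz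
    exact sum_share_indicator x hm hψ hz
  have h2 : ∫ z, ∑ k, share x m k * (cell x ψ k).indicator (fun _ => (1 : ℝ)) z ∂α =
      ∫ _, (1 : ℝ) ∂α := integral_congr_ae h1
  rw [integral_const, smul_eq_mul, mul_one] at h2
  rw [← h2, integral_finsetSum]
  · refine Finset.sum_congr rfl fun k _ => ?_
    rw [integral_const_mul, integral_indicator (measurableSet_cell x ψ k), setIntegral_const,
      smul_eq_mul, mul_one]
  · intro k _
    refine Integrable.const_mul ?_ _
    exact (integrable_const (1 : ℝ)).indicator (measurableSet_cell x ψ k)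

/-- if the cells have at most the prescribed masses, they have exactly the prescribed masses -/
lemma cell_mass_eq_of_le {α : Measure (E d)} [IsFiniteMeasure α] (hα : α ≪ volume)
    (x : ι → E d) {m : ι → ℝ} (hm : ∀ k, 0 < m k) (hsum : ∑ k, m k = α.real Set.univ)
    {ψ : ι → ℝ} (hψ : ∀ k l, x k = x l → ψ k = ψ l)
    (hle : ∀ k, α.real (cell x ψ k) ≤ mass x m k) (k : ι) :
    α.real (cell x ψ k) = mass x m k := by
  have h1 := sum_share_measure hα x hm hψ
  have h2 : ∑ k, share x m k * α.real (cell x ψ k) = ∑ k, share x m k * mass x m k := by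
    rw [h1, Finset.sum_congr rfl fun k _ => share_mul_mass x hm k, hsum]
  have h3 := (Finset.sum_eq_sum_iff_of_le (s := univ)
    (f := fun k => share x m k * α.real (cell x ψ k)) (g := fun k => share x m k * mass x m k)
    (fun k _ => mul_le_mul_of_nonneg_left (hle k) (share_nonneg x hm k).le)).1 h2 k (mem_univ k)
  exact mul_left_cancel₀ (share_nonneg x hm k).ne' h3

open Classical in
/-- raising the weights of one class -/
noncomputable def bump (x : ι → E d) (ψ : ι → ℝ) (k : ι) (s : ℝ) : ι → ℝ :=
  fun l => if x l = x k then ψ l + s else ψ l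

lemma bump_class {x : ι → E d} {ψ : ι → ℝ} (hψ : ∀ k l, x k = x l → ψ k = ψ l) (k : ι) (s : ℝ) :
    ∀ i j, x i = x j → bump x ψ k s i = bump x ψ k s j := by
  intro i j hij
  unfold bump
  rw [hij, hψ i j hij]

/-- continuity from below of the mass of a cell in the weights -/
lemma cell_le_of_bump {α : Measure (E d)} [IsFiniteMeasure α] {x : ι → E d} {ψ : ι → ℝ} {k : ι}
    {M : ℝ} (hM : 0 ≤ M) (hstep : ∀ s : ℝ, 0 < s → α.real (cell x (bump x ψ k s) k) ≤ M) :
    α.real (cell x ψ k) ≤ M := by
  classical
  have hmono : Monotone fun n : ℕ => cell x (bump x ψ k (1 / ((n : ℝ) + 1))) k := by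
    intro a b hab z hz l hl
    have h1 := hz l hl
    have h2 : (1 : ℝ) / ((b : ℝ) + 1) ≤ 1 / ((a : ℝ) + 1) := by
      have : (a : ℝ) ≤ b := by exact_mod_cast hab
      exact one_div_le_one_div_of_le (by positivity) (by linarith)
    unfold bump at h1 ⊢
    simp only [hl, if_false, if_true] at h1 ⊢
    linarith
  have hU : cell x ψ k = ⋃ n : ℕ, cell x (bump x ψ k (1 / ((n : ℝ) + 1))) k := by
    ext z
    rw [Set.mem_iUnion]
    constructor
    · intro hz
      have h1 : ∀ l, ∃ N : ℕ, ∀ n ≥ N, x l ≠ x k →
          ⟪z, x l⟫ - ψ l < ⟪z, x k⟫ - (ψ k + 1 / ((n : ℝ) + 1)) := by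
        intro l
        by_cases hl : x l = x k
        · exact ⟨0, fun n _ h => absurd hl h⟩
        · have h2 := hz l hl
          obtain ⟨N, hN⟩ := exists_nat_one_div_lt (sub_pos.2 h2)
          refine ⟨N, fun n hn _ => ?_⟩
          have h3 : (1 : ℝ) / ((n : ℝ) + 1) ≤ 1 / ((N : ℝ) + 1) := by
            have : (N : ℝ) ≤ n := by exact_mod_cast hn
            exact one_div_le_one_div_of_le (by positivity) (by linarith)
          linarith
      choose N hN using h1
      refine ⟨univ.sup N, fun l hl => ?_⟩
      have h2 := hN l (univ.sup N) (Finset.le_sup (mem_univ l)) hl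
      unfold bump
      simp only [hl, if_false, if_true]
      exact h2
    · rintro ⟨n, hn⟩ l hl
      have h1 := hn l hl
      unfold bump at h1
      simp only [hl, if_false, if_true] at h1
      have : (0 : ℝ) < 1 / ((n : ℝ) + 1) := by positivity
      linarith
  have h5 : α (cell x ψ k) ≤ ENNReal.ofReal M := by
    rw [hU, hmono.measure_iUnion]
    refine iSup_le fun n => ?_
    have := hstep (1 / ((n : ℝ) + 1)) (by positivity)
    rw [measureReal_def] at this
    exact (ENNReal.le_ofReal_iff_toReal_le (measure_ne_top _ _) hM).2 this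
  rw [measureReal_def]
  exact ENNReal.toReal_le_of_le_ofReal hM h5

theorem sd_exists {α : Measure (E d)} [IsFiniteMeasure α] (hα : α ≪ volume) {R : ℝ}
    (hR : ∀ᵐ z ∂α, ‖z‖ ≤ R) (x : ι → E d) (m : ι → ℝ) (hm : ∀ k, 0 < m k)
    (hsum : ∑ k, m k = α.real Set.univ) :
    ∃ ψ : ι → ℝ, (∀ k l, x k = x l → ψ k = ψ l) ∧ ∀ k, α.real (cell x ψ k) = mass x m k := by
  classical
  set A := α.real Set.univ with hA
  have hA0 : 0 ≤ A := measureReal_nonneg
  obtain ⟨L, hL0, hL⟩ : ∃ L : ℝ, 0 ≤ L ∧ ∀ k, ‖x k‖ ≤ L :=
    ⟨∑ k, ‖x k‖, Finset.sum_nonneg fun k _ => norm_nonneg _,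
      fun k => Finset.single_le_sum (f := fun k => ‖x k‖) (fun l _ => norm_nonneg _) (mem_univ k)⟩
  -- the functional
  set F : (ι → ℝ) → ℝ := fun ψ => ∫ z, Phi x ψ z ∂α + ∑ k, m k * ψ k with hF
  have hint : ∀ ψ, Integrable (Phi x ψ) α := fun ψ => integrable_Phi hR hL ψ
  have hFcont : Continuous F := by
    have hlip : LipschitzWith ⟨A + A, by positivity⟩ F := by
      refine LipschitzWith.of_dist_le_mul fun ψ ψ' => ?_
      rw [Real.dist_eq, dist_eq_norm]
      change |F ψ - F ψ'| ≤ (A + A) * ‖ψ - ψ'‖
      have h1 : F ψ - F ψ' = ∫ z, (Phi x ψ z - Phi x ψ' z) ∂α + ∑ k, m k * (ψ k - ψ' k) := by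
        simp only [hF]
        rw [integral_sub (hint ψ) (hint ψ')]
        simp only [mul_sub, Finset.sum_sub_distrib]
        ring
      rw [h1, add_mul]
      refine (abs_add_le _ _).trans (add_le_add ?_ ?_)
      · have := norm_integral_le_of_norm_le_const (μ := α)
          (f := fun z => Phi x ψ z - Phi x ψ' z) (C := ‖ψ - ψ'‖)
          (Filter.Eventually.of_forall fun z => by
            rw [Real.norm_eq_abs]; exact Phi_sub_le x ψ ψ' z)
        rw [Real.norm_eq_abs] at this
        rw [mul_comm A]; exact this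
      · refine (Finset.abs_sum_le_sum_abs _ _).trans ?_
        rw [← hsum, Finset.sum_mul]
        refine Finset.sum_le_sum fun k _ => ?_
        rw [abs_mul, abs_of_pos (hm k)]
        refine mul_le_mul_of_nonneg_left ?_ (hm k).le
        rw [← Real.norm_eq_abs, ← Pi.sub_apply]
        exact norm_le_pi_norm (ψ - ψ') k
    exact hlip.continuous
  have hFshift : ∀ (ψ : ι → ℝ) (c : ℝ), F (fun k => ψ k - c) = F ψ := by
    intro ψ c
    have h1 : ∀ z, Phi x (fun k => ψ k - c) z = Phi x ψ z + c := by
      intro z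
      refine le_antisymm (Phi_le fun k => ?_) ?_
      · have := le_Phi x ψ z k; linarith
      · have : Phi x ψ z ≤ Phi x (fun k => ψ k - c) z - c := Phi_le fun k => by
          have := le_Phi x (fun k => ψ k - c) z k
          linarith
        linarith
    simp only [hF, h1]
    rw [integral_add (hint ψ) (integrable_const c), integral_const, smul_eq_mul]
    simp only [mul_sub, Finset.sum_sub_distrib, ← Finset.sum_mul, hsum]
    rw [← hA]; ring
  -- coercivity
  have hcoer : ∀ (ψ : ι → ℝ) (k0 k : ι), (∀ l, ψ k0 ≤ ψ l) →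
      m k * (ψ k - ψ k0) ≤ F ψ + R * L * A := by
    intro ψ k0 k hk0
    have h1 : ∫ _, (-(R * L) - ψ k0) ∂α ≤ ∫ z, Phi x ψ z ∂α := by
      refine integral_mono_ae (integrable_const _) (hint ψ) ?_
      filter_upwards [hR] with z hz
      have h2 := le_Phi x ψ z k0
      have h3 : |⟪z, x k0⟫| ≤ R * L := (abs_real_inner_le_norm z (x k0)).trans
        (mul_le_mul hz (hL k0) (norm_nonneg _) ((norm_nonneg z).trans hz))
      have h4 := (abs_le.1 h3).1
      linarith
    rw [integral_const, smul_eq_mul, ← hA] at h1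
    have h2 : m k * (ψ k - ψ k0) ≤ ∑ l, m l * (ψ l - ψ k0) :=
      Finset.single_le_sum (f := fun l => m l * (ψ l - ψ k0))
        (fun l _ => mul_nonneg (hm l).le (sub_nonneg.2 (hk0 l))) (mem_univ k)
    simp only [mul_sub, Finset.sum_sub_distrib, ← Finset.sum_mul, hsum] at h2
    simp only [hF]
    nlinarith
  have hF0 : F 0 ≤ R * L * A := by
    have h1 : ∫ z, Phi x 0 z ∂α ≤ ∫ _, R * L ∂α := by
      refine integral_mono_ae (hint 0) (integrable_const _) ?_
      filter_upwards [hR] with z hz
      have := (abs_le.1 (Phi_abs_le hL (0 : ι → ℝ) hz)).2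
      simpa using this
    rw [integral_const, smul_eq_mul, ← hA] at h1
    simp only [hF, Pi.zero_apply, mul_zero, Finset.sum_const_zero, add_zero]
    linarith
  -- minimizer
  obtain ⟨kmin, _, hkmin⟩ := Finset.exists_min_image (univ : Finset ι) m univ_nonempty
  set M := 2 * (R * L * A) / m kmin with hM
  have hR0 : 0 ≤ R * L * A := by
    by_cases h : R < 0
    · have : ∀ᵐ z ∂α, False := by
        filter_upwards [hR] with z hz
        exact absurd (norm_nonneg z) (by linarith)
      have hzero : α = 0 := by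
        rw [Filter.eventually_false_iff_eq_bot] at this
        exact ae_eq_bot.1 this
      have : A = 0 := by rw [hA, hzero]; simp
      rw [this]; simp
    · push Not at h
      positivity
  have hM0 : 0 ≤ M := by have := hm kmin; positivity
  let C : Set (ι → ℝ) := {ψ | ∀ k l, x k = x l → ψ k = ψ l} ∩ Set.Icc 0 (fun _ => M)
  have hCc : IsCompact C := by
    refine isCompact_Icc.inter_left ?_
    have : {ψ : ι → ℝ | ∀ k l, x k = x l → ψ k = ψ l} =
        ⋂ k, ⋂ l, {ψ : ι → ℝ | x k = x l → ψ k = ψ l} := by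
      ext ψ; simp
    rw [this]
    refine isClosed_iInter fun k => isClosed_iInter fun l => ?_
    by_cases h : x k = x l
    · simp only [h, forall_const]
      exact isClosed_eq (continuous_apply k) (continuous_apply l)
    · simp [h]
  have hCne : C.Nonempty := ⟨0, by simp, by simp, fun _ => hM0⟩
  obtain ⟨ψ, hψC, hψmin⟩ := hCc.exists_isMinOn hCne hFcont.continuousOn
  have hglob : ∀ ψ' : ι → ℝ, (∀ k l, x k = x l → ψ' k = ψ' l) → F ψ ≤ F ψ' := by
    intro ψ' hψ'
    have h0 : F ψ ≤ F 0 := hψmin (show (0 : ι → ℝ) ∈ C from ⟨by simp, by simp, fun _ => hM0⟩)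
    by_cases hbig : F 0 < F ψ'
    · linarith
    · push Not at hbig
      obtain ⟨k0, _, hk0⟩ := Finset.exists_min_image (univ : Finset ι) ψ' univ_nonempty
      have h1 : (fun k => ψ' k - ψ' k0) ∈ C := by
        refine ⟨fun k l hkl => by simp only [hψ' k l hkl], fun k => ?_, fun k => ?_⟩
        · simpa using hk0 k (mem_univ k)
        · have h2 := hcoer ψ' k0 k fun l => hk0 l (mem_univ l)
          have h3 : m kmin * (ψ' k - ψ' k0) ≤ m k * (ψ' k - ψ' k0) :=
            mul_le_mul_of_nonneg_right (hkmin k (mem_univ k)) (sub_nonneg.2 (hk0 k (mem_univ k)))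
          rw [hM, le_div_iff₀ (hm kmin)]
          simp only
          nlinarith
      have h2 := hψmin h1
      rw [Set.mem_ofPred_eq, hFshift] at h2
      exact h2
  have hψcl := hψC.1
  refine ⟨ψ, hψcl, cell_mass_eq_of_le hα x hm hsum hψcl fun k => ?_⟩
  -- optimality in the class of `k`
  have hstep : ∀ s : ℝ, 0 < s → α.real (cell x (bump x ψ k s) k) ≤ mass x m k := by
    intro s hs
    have h1 := hglob (bump x ψ k s) (bump_class hψcl k s)
    have h2 : F (bump x ψ k s) - F ψ =
        ∫ z, (Phi x (bump x ψ k s) z - Phi x ψ z) ∂α + s * mass x m k := by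
      simp only [hF]
      rw [integral_sub (hint _) (hint _)]
      have : ∑ l, m l * bump x ψ k s l = ∑ l, m l * ψ l + s * mass x m k := by
        unfold mass
        rw [Finset.mul_sum, Finset.sum_filter, ← Finset.sum_add_distrib]
        refine Finset.sum_congr rfl fun l _ => ?_
        unfold bump
        split_ifs <;> ring
      rw [this]; ring
    have h3 : ∫ z, (Phi x (bump x ψ k s) z - Phi x ψ z) ∂α ≤
        ∫ z, -(s * (cell x (bump x ψ k s) k).indicator (fun _ => (1 : ℝ)) z) ∂α := by
      refine integral_mono ((hint _).sub (hint _)) ?_ fun z => ?_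
      · refine (Integrable.const_mul ?_ _).neg
        exact (integrable_const (1 : ℝ)).indicator (measurableSet_cell x _ k)
      · simp only
        by_cases hz : z ∈ cell x (bump x ψ k s) k
        · rw [Set.indicator_of_mem hz, Phi_eq_of_mem_cell (bump_class hψcl k s) hz]
          have := le_Phi x ψ z k
          unfold bump
          simp only [if_true]
          linarith
        · rw [Set.indicator_of_notMem hz]
          have : Phi x (bump x ψ k s) z ≤ Phi x ψ z := Phi_le fun l => by
            have h4 := le_Phi x ψ z l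
            unfold bump
            split_ifs <;> linarith
          linarith
    rw [integral_neg, integral_const_mul, integral_indicator (measurableSet_cell x _ k),
      setIntegral_const, smul_eq_mul, mul_one] at h3
    have h4 : s * α.real (cell x (bump x ψ k s) k) ≤ s * mass x m k := by linarith
    exact le_of_mul_le_mul_left h4 hs
  exact cell_le_of_bump (mass_pos x hm k).le hstep

end Vale.Agent.P074
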