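import Mathlib
import Vale.Agent.P074.PLE
import Vale.Agent.P074.SD

/-! The key inequality for pairs of Laguerre tessellations, for P074. -/

set_option linter.unusedSectionVars false

open MeasureTheory Finset
open scoped RealInnerProductSpace

namespace Vale.Agent.P074

variable {d : ℕ}

/-- the Gaussian weight -/
noncomputable def wt (ε : ℝ) (z : E d) : ℝ := Real.exp (-(ε / 2 * ‖z‖ ^ 2))

lemma wt_pos (ε : ℝ) (z : E d) : 0 < wt ε z := Real.exp_pos _

lemma wt_le_one {ε : ℝ} (hε : 0 ≤ ε) (z : E d) : wt ε z ≤ 1 := by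
  unfold wt; rw [Real.exp_le_one_iff]; have := sq_nonneg ‖z‖; nlinarith [mul_nonneg hε this]

lemma continuous_wt (ε : ℝ) : Continuous (wt ε : E d → ℝ) := by unfold wt; fun_prop

lemma half_norm_sq (a b : E d) : ‖(1 / 2 : ℝ) • (a + b)‖ ^ 2 =
    (‖a‖ ^ 2 + ‖b‖ ^ 2) / 2 - ‖a - b‖ ^ 2 / 4 := by
  have h := parallelogram_law_with_norm ℝ a b
  rw [norm_smul, mul_pow]
  norm_num
  nlinarith

lemma pl_cell {K A B M : Set (E d)} (hKm : MeasurableSet K) (hKb : Bornology.IsBounded K)
    (hA : MeasurableSet A) (hB : MeasurableSet B) (hM : MeasurableSet M)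
    (hmid : ∀ a ∈ A ∩ K, ∀ b ∈ B ∩ K, (1 / 2 : ℝ) • (a + b) ∈ M ∩ K)
    {f : E d → ℝ} (hf : Continuous f) {Λ : ℝ}
    (hΛ : ∀ a ∈ K, ∀ b ∈ K, |f a - f b| ≤ Λ * ‖a - b‖) {ε : ℝ} (hε : 0 < ε) :
    (∫ z in A ∩ K, Real.exp (f z) * wt ε z) * (∫ z in B ∩ K, Real.exp (-f z) * wt ε z) ≤
      Real.exp (Λ ^ 2 / ε) * (∫ z in M ∩ K, wt ε z) ^ 2 := by
  have hfin : ∀ S : Set (E d), volume (S ∩ K) ≠ ⊤ := fun S =>
    ((measure_mono Set.inter_subset_right).trans_lt hKb.measure_lt_top).ne
  have hcont1 : Continuous fun z => Real.exp (f z) * wt ε z := (hf.rexp).mul (continuous_wt ε)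
  have hcont2 : Continuous fun z => Real.exp (-f z) * wt ε z := (hf.neg.rexp).mul (continuous_wt ε)
  have hcont3 : Continuous fun z : E d => Real.exp (Λ ^ 2 / (2 * ε)) * wt ε z :=
    continuous_const.mul (continuous_wt ε)
  have hint : ∀ (S : Set (E d)) (g : E d → ℝ), Continuous g → IntegrableOn g (S ∩ K) := by
    intro S g hg
    have h1 : IntegrableOn g (closure K) := hg.continuousOn.integrableOn_compact
      (Metric.isCompact_of_isClosed_isBounded isClosed_closure hKb.closure)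
    exact h1.mono_set (Set.inter_subset_right.trans subset_closure)
  -- apply Prékopa–Leindler
  have hpl := pl_E (d := d)
    ((A ∩ K).indicator fun z => ENNReal.ofReal (Real.exp (f z) * wt ε z))
    ((B ∩ K).indicator fun z => ENNReal.ofReal (Real.exp (-f z) * wt ε z))
    ((M ∩ K).indicator fun z => ENNReal.ofReal (Real.exp (Λ ^ 2 / (2 * ε)) * wt ε z))
    ((hcont1.measurable.ennreal_ofReal).indicator (hA.inter hKm))
    ((hcont2.measurable.ennreal_ofReal).indicator (hB.inter hKm))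
    ((hcont3.measurable.ennreal_ofReal).indicator (hM.inter hKm)) (by
      intro a b
      by_cases ha : a ∈ A ∩ K
      · by_cases hb : b ∈ B ∩ K
        · rw [Set.indicator_of_mem ha, Set.indicator_of_mem hb,
            Set.indicator_of_mem (hmid a ha b hb),
            ← ENNReal.ofReal_mul (mul_nonneg (Real.exp_pos _).le (wt_pos _ _).le),
            ← ENNReal.ofReal_pow (mul_nonneg (Real.exp_pos _).le (wt_pos _ _).le)]
          refine ENNReal.ofReal_le_ofReal ?_
          unfold wt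
          rw [← Real.exp_add, ← Real.exp_add, ← Real.exp_add, ← Real.exp_add, ← Real.exp_nat_mul,
            Real.exp_le_exp, half_norm_sq]
          have h1 := (abs_le.1 (hΛ a ha.2 b hb.2)).2
          have h2 : Λ * ‖a - b‖ ≤ Λ ^ 2 / ε + ε / 4 * ‖a - b‖ ^ 2 := by
            have h3 : 0 ≤ (Λ - ε / 2 * ‖a - b‖) ^ 2 / ε := by positivity
            have h4 : (Λ - ε / 2 * ‖a - b‖) ^ 2 / ε =
                Λ ^ 2 / ε + ε / 4 * ‖a - b‖ ^ 2 - Λ * ‖a - b‖ := by field_simp; ring
            linarith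
          have h5 : Λ ^ 2 / (2 * ε) = Λ ^ 2 / ε / 2 := by field_simp
          rw [h5]
          push_cast
          nlinarith
        · rw [Set.indicator_of_notMem hb, mul_zero]; exact zero_le
      · rw [Set.indicator_of_notMem ha, zero_mul]; exact zero_le)
  rw [lintegral_indicator (hA.inter hKm), lintegral_indicator (hB.inter hKm),
    lintegral_indicator (hM.inter hKm),
    ← ofReal_integral_eq_lintegral_ofReal (hint A _ hcont1)
      (Filter.Eventually.of_forall fun z => mul_nonneg (Real.exp_pos _).le (wt_pos _ _).le),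
    ← ofReal_integral_eq_lintegral_ofReal (hint B _ hcont2)
      (Filter.Eventually.of_forall fun z => mul_nonneg (Real.exp_pos _).le (wt_pos _ _).le),
    ← ofReal_integral_eq_lintegral_ofReal (hint M _ hcont3)
      (Filter.Eventually.of_forall fun z => mul_nonneg (Real.exp_pos _).le (wt_pos _ _).le),
    ← ENNReal.ofReal_mul (integral_nonneg fun z => mul_nonneg (Real.exp_pos _).le (wt_pos _ _).le),
    ← ENNReal.ofReal_pow (integral_nonneg fun z =>
      mul_nonneg (Real.exp_pos _).le (wt_pos _ _).le)] at hpl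
  have h1 := (ENNReal.ofReal_le_ofReal_iff (by positivity)).1 hpl
  refine h1.trans (le_of_eq ?_)
  rw [integral_const_mul, mul_pow, ← Real.exp_nat_mul]
  congr 2
  field_simp
  push_cast
  ring

/-- lower bound for exponential integrals (Jensen) -/
lemma exp_avg_le {S : Set (E d)} {f : E d → ℝ} {ε : ℝ} {p I : ℝ}
    (hf : IntegrableOn (fun z => f z * wt ε z) S) (hw : IntegrableOn (wt ε) S)
    (hfe : IntegrableOn (fun z => Real.exp (f z) * wt ε z) S)
    (hp : ∫ z in S, wt ε z = p) (hp0 : 0 < p) (hI : ∫ z in S, f z * wt ε z = I) :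
    p * Real.exp (I / p) ≤ ∫ z in S, Real.exp (f z) * wt ε z := by
  have h1 : ∀ z, (Real.exp (I / p) * (1 - I / p)) * wt ε z + Real.exp (I / p) * (f z * wt ε z) ≤
      Real.exp (f z) * wt ε z := by
    intro z
    have h2 := Real.add_one_le_exp (f z - I / p)
    have h3 : Real.exp (f z) = Real.exp (I / p) * Real.exp (f z - I / p) := by
      rw [← Real.exp_add]; congr 1; ring
    rw [h3]
    have h4 := mul_le_mul_of_nonneg_left h2
      (mul_pos (Real.exp_pos (I / p)) (wt_pos ε z)).le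
    nlinarith
  have h5 : ∫ z in S, ((Real.exp (I / p) * (1 - I / p)) * wt ε z +
      Real.exp (I / p) * (f z * wt ε z)) ≤ ∫ z in S, Real.exp (f z) * wt ε z :=
    integral_mono ((hw.const_mul (Real.exp (I / p) * (1 - I / p))).add
      (hf.const_mul (Real.exp (I / p)))) hfe h1
  rw [integral_add (hw.const_mul _) (hf.const_mul _), integral_const_mul, integral_const_mul,
    hp, hI] at h5
  refine le_trans (le_of_eq ?_) h5
  field_simp
  ring

/-- the inequality on a single cell -/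
lemma cell_ineq {K A B M : Set (E d)} (hKm : MeasurableSet K) (hKb : Bornology.IsBounded K)
    (hA : MeasurableSet A) (hB : MeasurableSet B) (hM : MeasurableSet M)
    (hmid : ∀ a ∈ A ∩ K, ∀ b ∈ B ∩ K, (1 / 2 : ℝ) • (a + b) ∈ M ∩ K)
    {f : E d → ℝ} (hf : Continuous f) {Λ : ℝ}
    (hΛ : ∀ a ∈ K, ∀ b ∈ K, |f a - f b| ≤ Λ * ‖a - b‖) {ε : ℝ} (hε : 0 < ε)
    {p q : ℝ} (hp : ∫ z in A ∩ K, wt ε z = p) (hq : ∫ z in B ∩ K, wt ε z = q)
    (hp0 : 0 < p) (hq0 : 0 < q) :
    Real.sqrt (p * q) * (1 + ((∫ z in A ∩ K, f z * wt ε z) / p -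
      (∫ z in B ∩ K, f z * wt ε z) / q) / 2 - Λ ^ 2 / (2 * ε)) ≤ ∫ z in M ∩ K, wt ε z := by
  have hint : ∀ (S : Set (E d)) (g : E d → ℝ), Continuous g → IntegrableOn g (S ∩ K) := by
    intro S g hg
    have h1 : IntegrableOn g (closure K) := hg.continuousOn.integrableOn_compact
      (Metric.isCompact_of_isClosed_isBounded isClosed_closure hKb.closure)
    exact h1.mono_set (Set.inter_subset_right.trans subset_closure)
  have hpl := pl_cell hKm hKb hA hB hM hmid hf hΛ hε
  set a := (∫ z in A ∩ K, f z * wt ε z) / p with ha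
  set b := (∫ z in B ∩ K, f z * wt ε z) / q with hb
  have h1 : p * Real.exp a ≤ ∫ z in A ∩ K, Real.exp (f z) * wt ε z :=
    exp_avg_le (hint A _ (hf.mul (continuous_wt ε))) (hint A _ (continuous_wt ε))
      (hint A _ (hf.rexp.mul (continuous_wt ε))) hp hp0 rfl
  have h2 : q * Real.exp (-b) ≤ ∫ z in B ∩ K, Real.exp (-f z) * wt ε z := by
    have := exp_avg_le (f := fun z => -f z) (I := -∫ z in B ∩ K, f z * wt ε z)
      (hint B _ (hf.neg.mul (continuous_wt ε))) (hint B _ (continuous_wt ε))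
      (hint B _ (hf.neg.rexp.mul (continuous_wt ε))) hq hq0
      (by rw [← integral_neg]; congr 1; ext z; ring)
    rwa [neg_div] at this
  have h3 : (p * Real.exp a) * (q * Real.exp (-b)) ≤
      Real.exp (Λ ^ 2 / ε) * (∫ z in M ∩ K, wt ε z) ^ 2 :=
    (mul_le_mul h1 h2 (by positivity) ((by positivity : (0:ℝ) ≤ p * Real.exp a).trans h1)).trans hpl
  set r := ∫ z in M ∩ K, wt ε z with hr
  have hr0 : 0 ≤ r := integral_nonneg fun z => (wt_pos ε z).le
  -- take square roots
  have h4 : (Real.sqrt (p * q) * Real.exp ((a - b) / 2 - Λ ^ 2 / (2 * ε))) ^ 2 ≤ r ^ 2 := by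
    rw [mul_pow, Real.sq_sqrt (by positivity), ← Real.exp_nat_mul]
    have h5 : Real.exp (((2 : ℕ) : ℝ) * ((a - b) / 2 - Λ ^ 2 / (2 * ε))) =
        Real.exp a * Real.exp (-b) * Real.exp (-(Λ ^ 2 / ε)) := by
      rw [← Real.exp_add, ← Real.exp_add]
      congr 1
      push_cast
      field_simp
      ring
    rw [h5]
    have h6 : p * q * (Real.exp a * Real.exp (-b) * Real.exp (-(Λ ^ 2 / ε))) =
        ((p * Real.exp a) * (q * Real.exp (-b))) * Real.exp (-(Λ ^ 2 / ε)) := by ring
    rw [h6]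
    refine (mul_le_mul_of_nonneg_right h3 (Real.exp_pos _).le).trans (le_of_eq ?_)
    rw [mul_comm (Real.exp (Λ ^ 2 / ε)), mul_assoc, ← Real.exp_add]
    simp
  have h7 := abs_le_of_sq_le_sq h4 hr0
  have h8 := (abs_le.1 (abs_le_of_sq_le_sq h4 hr0)).2
  refine le_trans ?_ h8
  refine mul_le_mul_of_nonneg_left ?_ (Real.sqrt_nonneg _)
  have := Real.add_one_le_exp ((a - b) / 2 - Λ ^ 2 / (2 * ε))
  linarith

end Vale.Agent.P074
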