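import Mathlib
import Vale.Agent.P074.KeyA

/-! Stability of barycenters of Laguerre cells under perturbation of the source, for P074. -/

set_option linter.unusedSectionVars false

open MeasureTheory Finset
open scoped RealInnerProductSpace

namespace Vale.Agent.P074

variable {d : ℕ} {ι : Type*} [Fintype ι] [Nonempty ι]

lemma sum_share_integral {K : Set (E d)} (hK : MeasurableSet K) (x : ι → E d) {m : ι → ℝ}
    (hm : ∀ k, 0 < m k) {ψ : ι → ℝ} (hψ : ∀ k l, x k = x l → ψ k = ψ l) {F : E d → ℝ}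
    (hF : IntegrableOn F K) :
    ∑ k, share x m k * ∫ z in cell x ψ k ∩ K, F z = ∫ z in K, F z := by
  have h1 : ∀ k, ∫ z in cell x ψ k ∩ K, F z = ∫ z in K, (cell x ψ k).indicator F z := by
    intro k
    rw [integral_indicator (measurableSet_cell x ψ k), Measure.restrict_restrict
      (measurableSet_cell x ψ k)]
  simp only [h1]
  simp only [← integral_const_mul]
  rw [← integral_finsetSum]
  · refine integral_congr_ae ?_
    filter_upwards [ae_restrict_of_ae (s := K) (ae_exists_cell x ψ)] with z hz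
    have h2 := sum_share_indicator x hm hψ hz
    have h3 : ∀ k, share x m k * (cell x ψ k).indicator F z =
        (share x m k * (cell x ψ k).indicator (fun _ => (1 : ℝ)) z) * F z := by
      intro k
      by_cases hk : z ∈ cell x ψ k
      · rw [Set.indicator_of_mem hk, Set.indicator_of_mem hk]; ring
      · rw [Set.indicator_of_notMem hk, Set.indicator_of_notMem hk]; ring
    simp only [h3]
    rw [← Finset.sum_mul, h2, one_mul]
  · intro k _
    exact (hF.indicator (measurableSet_cell x ψ k)).const_mul _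

/-- the summed inequality -/
lemma cells_ineq {K : Set (E d)} (hKc : IsCompact K) (hKx : Convex ℝ K) (x : ι → E d) {m : ι → ℝ}
    (hm : ∀ k, 0 < m k) {ψ₀ ψ₁ : ι → ℝ} (hψ₀ : ∀ k l, x k = x l → ψ₀ k = ψ₀ l)
    (hψ₁ : ∀ k l, x k = x l → ψ₁ k = ψ₁ l) {ε : ℝ} (hε : 0 < ε)
    {p q : ι → ℝ} (hp : ∀ k, ∫ z in cell x ψ₀ k ∩ K, wt ε z = p k)
    (hq : ∀ k, ∫ z in cell x ψ₁ k ∩ K, wt ε z = q k)
    (hp0 : ∀ k, 0 < p k) (hq0 : ∀ k, 0 < q k)
    {f : ι → E d → ℝ} (hf : ∀ k, Continuous (f k)) {Λ : ι → ℝ}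
    (hΛ : ∀ k, ∀ a ∈ K, ∀ b ∈ K, |f k a - f k b| ≤ Λ k * ‖a - b‖) :
    ∑ k, share x m k * (Real.sqrt (p k * q k) * ((∫ z in cell x ψ₀ k ∩ K, f k z * wt ε z) / p k -
      (∫ z in cell x ψ₁ k ∩ K, f k z * wt ε z) / q k - Λ k ^ 2 / ε)) ≤
    ∑ k, share x m k * (Real.sqrt (p k) - Real.sqrt (q k)) ^ 2 := by
  have hwint : IntegrableOn (wt ε) K := (continuous_wt ε).continuousOn.integrableOn_compact hKc
  set ψm : ι → ℝ := fun l => (ψ₀ l + ψ₁ l) / 2 with hψm
  have hψmc : ∀ k l, x k = x l → ψm k = ψm l := fun k l h => by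
    simp only [hψm, hψ₀ k l h, hψ₁ k l h]
  have hZ0 := sum_share_integral hKc.measurableSet x hm hψ₀ hwint
  have hZ1 := sum_share_integral hKc.measurableSet x hm hψ₁ hwint
  have hZm := sum_share_integral hKc.measurableSet x hm hψmc hwint
  simp only [hp] at hZ0
  simp only [hq] at hZ1
  set Z := ∫ z in K, wt ε z with hZ
  have h1 : ∀ k, Real.sqrt (p k * q k) * (1 + ((∫ z in cell x ψ₀ k ∩ K, f k z * wt ε z) / p k -
      (∫ z in cell x ψ₁ k ∩ K, f k z * wt ε z) / q k) / 2 - Λ k ^ 2 / (2 * ε)) ≤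
      ∫ z in cell x ψm k ∩ K, wt ε z := by
    intro k
    refine cell_ineq hKc.measurableSet hKc.isBounded (measurableSet_cell x ψ₀ k)
      (measurableSet_cell x ψ₁ k) (measurableSet_cell x ψm k) ?_ (hf k) (hΛ k) hε (hp k) (hq k)
      (hp0 k) (hq0 k)
    intro a ha b hb
    refine ⟨midpoint_mem_cell ha.1 hb.1, ?_⟩
    have := hKx ha.2 hb.2 (by norm_num : (0:ℝ) ≤ 1 / 2) (by norm_num : (0:ℝ) ≤ 1 / 2) (by norm_num)
    rwa [← smul_add] at this
  have h2 : ∑ k, share x m k * (Real.sqrt (p k * q k) *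
      (1 + ((∫ z in cell x ψ₀ k ∩ K, f k z * wt ε z) / p k -
      (∫ z in cell x ψ₁ k ∩ K, f k z * wt ε z) / q k) / 2 - Λ k ^ 2 / (2 * ε))) ≤ Z := by
    rw [← hZm]
    exact Finset.sum_le_sum fun k _ => mul_le_mul_of_nonneg_left (h1 k) (share_nonneg x hm k).le
  have h3 : ∑ k, share x m k * (Real.sqrt (p k) - Real.sqrt (q k)) ^ 2 =
      2 * Z - 2 * ∑ k, share x m k * Real.sqrt (p k * q k) := by
    have h4 : ∀ k, share x m k * (Real.sqrt (p k) - Real.sqrt (q k)) ^ 2 =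
        share x m k * p k + share x m k * q k - 2 * (share x m k * Real.sqrt (p k * q k)) := by
      intro k
      rw [sub_sq, Real.sq_sqrt (hp0 k).le, Real.sq_sqrt (hq0 k).le, Real.sqrt_mul (hp0 k).le]
      ring
    rw [Finset.sum_congr rfl fun k _ => h4 k, Finset.sum_sub_distrib, Finset.sum_add_distrib,
      hZ0, hZ1, ← Finset.mul_sum]
    ring
  rw [h3]
  have h5 : ∀ k, share x m k * (Real.sqrt (p k * q k) *
      (1 + ((∫ z in cell x ψ₀ k ∩ K, f k z * wt ε z) / p k -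
      (∫ z in cell x ψ₁ k ∩ K, f k z * wt ε z) / q k) / 2 - Λ k ^ 2 / (2 * ε))) =
      share x m k * Real.sqrt (p k * q k) + (share x m k * (Real.sqrt (p k * q k) *
      ((∫ z in cell x ψ₀ k ∩ K, f k z * wt ε z) / p k -
      (∫ z in cell x ψ₁ k ∩ K, f k z * wt ε z) / q k - Λ k ^ 2 / ε))) / 2 := by
    intro k
    field_simp
    ring
  rw [Finset.sum_congr rfl fun k _ => h5 k, Finset.sum_add_distrib, ← Finset.sum_div] at h2
  linarith

end Vale.Agent.P074
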