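import Mathlib
import Vale.Agent.P074.KeyB

/-! Quantitative stability of barycenters of Laguerre cells, for P074. -/

set_option linter.unusedSectionVars false

open MeasureTheory Finset
open scoped RealInnerProductSpace

namespace Vale.Agent.P074

variable {d : ℕ} {ι : Type*} [Fintype ι] [Nonempty ι]

/-- the reciprocal of the weight -/
noncomputable def hw (ε : ℝ) (z : E d) : ℝ := Real.exp (ε / 2 * ‖z‖ ^ 2)

lemma hw_mul_wt (ε : ℝ) (z : E d) : hw ε z * wt ε z = 1 := by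
  unfold hw wt; rw [← Real.exp_add]; simp

lemma continuous_hw (ε : ℝ) : Continuous (hw ε : E d → ℝ) := by unfold hw; fun_prop

lemma exp_small {s : ℝ} (hs : s ≤ 1 / 32) : Real.exp s ≤ 2 := by
  have h1 : Real.exp s ≤ Real.exp (1 / 32) := Real.exp_le_exp.2 hs
  have h2 := Real.add_one_le_exp (-(1 / 32 : ℝ))
  rw [Real.exp_neg] at h2
  have h3 := Real.exp_pos (1 / 32 : ℝ)
  have h4 : (Real.exp (1 / 32)) * (-(1 / 32) + 1) ≤ 1 := by
    have := mul_le_mul_of_nonneg_left h2 h3.le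
    rwa [mul_inv_cancel₀ h3.ne'] at this
  linarith

variable {R ε : ℝ}

lemma norm_sq_le {z : E d} (hR : 0 < R) (hz : ‖z‖ ≤ R) (hε : ε = 1 / (16 * R ^ 2)) :
    ε / 2 * ‖z‖ ^ 2 ≤ 1 / 32 := by
  have h1 : ‖z‖ ^ 2 ≤ R ^ 2 := pow_le_pow_left₀ (norm_nonneg z) hz 2
  rw [hε]
  have h2 : (1 / (16 * R ^ 2)) / 2 * ‖z‖ ^ 2 = ‖z‖ ^ 2 / (32 * R ^ 2) := by field_simp; ring
  rw [h2, div_le_div_iff₀ (by positivity) (by norm_num)]
  linarith

lemma hw_le {z : E d} (hR : 0 < R) (hz : ‖z‖ ≤ R) (hε : ε = 1 / (16 * R ^ 2)) : hw ε z ≤ 2 :=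
  exp_small (norm_sq_le hR hz hε)

lemma wt_ge {z : E d} (hR : 0 < R) (hz : ‖z‖ ≤ R) (hε : ε = 1 / (16 * R ^ 2)) : 1 / 2 ≤ wt ε z := by
  have h1 := hw_mul_wt ε z
  have h2 := hw_le hR hz hε
  have h3 := wt_pos ε z
  nlinarith

lemma hw_lip {a b : E d} (hR : 0 < R) (ha : ‖a‖ ≤ R) (hb : ‖b‖ ≤ R) (hε : ε = 1 / (16 * R ^ 2)) :
    |hw ε a - hw ε b| ≤ 2 * ε * R * ‖a - b‖ := by
  have hε0 : 0 < ε := by rw [hε]; positivity
  have key : ∀ a b : E d, ‖a‖ ≤ R → ‖b‖ ≤ R → hw ε a - hw ε b ≤ 2 * ε * R * ‖a - b‖ := by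
    intro a b ha hb
    have h1 := Real.add_one_le_exp (ε / 2 * ‖b‖ ^ 2 - ε / 2 * ‖a‖ ^ 2)
    have h2 : hw ε b = hw ε a * Real.exp (ε / 2 * ‖b‖ ^ 2 - ε / 2 * ‖a‖ ^ 2) := by
      unfold hw; rw [← Real.exp_add]; congr 1; ring
    have h3 : 0 < hw ε a := Real.exp_pos _
    have h4 := hw_le hR ha hε
    have h5 : hw ε a - hw ε b ≤ hw ε a * (ε / 2 * ‖a‖ ^ 2 - ε / 2 * ‖b‖ ^ 2) := by
      rw [h2]; nlinarith
    have h6 : ‖a‖ ^ 2 - ‖b‖ ^ 2 ≤ 2 * R * ‖a - b‖ := by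
      have h7 : ‖a‖ - ‖b‖ ≤ ‖a - b‖ := norm_sub_norm_le a b
      have h8 : ‖a‖ ^ 2 - ‖b‖ ^ 2 = (‖a‖ + ‖b‖) * (‖a‖ - ‖b‖) := by ring
      rw [h8]
      have h9 : 0 ≤ ‖a‖ + ‖b‖ := by positivity
      calc (‖a‖ + ‖b‖) * (‖a‖ - ‖b‖) ≤ (‖a‖ + ‖b‖) * ‖a - b‖ := mul_le_mul_of_nonneg_left h7 h9
        _ ≤ 2 * R * ‖a - b‖ := mul_le_mul_of_nonneg_right (by linarith) (norm_nonneg _)
    have h10 : ε / 2 * ‖a‖ ^ 2 - ε / 2 * ‖b‖ ^ 2 ≤ ε / 2 * (2 * R * ‖a - b‖) := by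
      rw [← mul_sub]; exact mul_le_mul_of_nonneg_left h6 (by positivity)
    have h11 : hw ε a * (ε / 2 * ‖a‖ ^ 2 - ε / 2 * ‖b‖ ^ 2) ≤
        hw ε a * (ε / 2 * (2 * R * ‖a - b‖)) := mul_le_mul_of_nonneg_left h10 h3.le
    have h12 : hw ε a * (ε / 2 * (2 * R * ‖a - b‖)) ≤ 2 * (ε / 2 * (2 * R * ‖a - b‖)) :=
      mul_le_mul_of_nonneg_right h4 (by positivity)
    linarith
  rw [abs_le]
  constructor
  · have := key b a hb ha
    rw [norm_sub_rev] at this; linarith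
  · exact key a b ha hb

lemma gw_lip {a b v : E d} (hR : 0 < R) (ha : ‖a‖ ≤ R) (hb : ‖b‖ ≤ R)
    (hε : ε = 1 / (16 * R ^ 2)) :
    |⟪a, v⟫ * hw ε a - ⟪b, v⟫ * hw ε b| ≤ 3 * ‖v‖ * ‖a - b‖ := by
  have hε0 : 0 < ε := by rw [hε]; positivity
  have h1 : ⟪a, v⟫ * hw ε a - ⟪b, v⟫ * hw ε b =
      ⟪a - b, v⟫ * hw ε a + ⟪b, v⟫ * (hw ε a - hw ε b) := by
    rw [inner_sub_left]; ring
  rw [h1]
  refine (abs_add_le _ _).trans ?_
  rw [abs_mul, abs_mul]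
  have h2 : |⟪a - b, v⟫| ≤ ‖a - b‖ * ‖v‖ := abs_real_inner_le_norm _ _
  have h3 : |⟪b, v⟫| ≤ R * ‖v‖ := (abs_real_inner_le_norm _ _).trans
    (mul_le_mul_of_nonneg_right hb (norm_nonneg _))
  have h4 : |hw ε a| ≤ 2 := by
    rw [abs_of_pos (show 0 < hw ε a from Real.exp_pos _)]; exact hw_le hR ha hε
  have h5 := hw_lip hR ha hb hε
  have h6 : |⟪a - b, v⟫| * |hw ε a| ≤ ‖a - b‖ * ‖v‖ * 2 :=
    mul_le_mul h2 h4 (abs_nonneg _) (by positivity)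
  have h7 : |⟪b, v⟫| * |hw ε a - hw ε b| ≤ R * ‖v‖ * (2 * ε * R * ‖a - b‖) :=
    mul_le_mul h3 h5 (abs_nonneg _) (by positivity)
  have h8 : R * ‖v‖ * (2 * ε * R * ‖a - b‖) = (2 * ε * R ^ 2) * (‖v‖ * ‖a - b‖) := by ring
  have h9 : 2 * ε * R ^ 2 = 1 / 8 := by rw [hε]; field_simp; norm_num
  rw [h8, h9] at h7
  nlinarith [mul_nonneg (norm_nonneg v) (norm_nonneg (a - b))]

/-- elementary inequality used for the mass differences -/
lemma sqrt_diff_le {p q M : ℝ} (hp : 0 < p) (hq : 0 < q) (hM : 0 < M) (hpM : p ≤ M)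
    (hqM : q ≤ 2 * M) : (Real.sqrt p - Real.sqrt q) ^ 2 ≤
      Real.sqrt (p * q) * (M / p - M / q) ^ 2 / 2 := by
  have hsp := Real.sqrt_pos.2 hp
  have hsq := Real.sqrt_pos.2 hq
  set a := Real.sqrt p with ha
  set b := Real.sqrt q with hb
  have ha2 : a ^ 2 = p := Real.sq_sqrt hp.le
  have hb2 : b ^ 2 = q := Real.sq_sqrt hq.le
  rw [Real.sqrt_mul hp.le, ← ha, ← hb, ← ha2, ← hb2]
  have h1 : M / a ^ 2 - M / b ^ 2 = M * (b - a) * (b + a) / (a ^ 2 * b ^ 2) := by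
    field_simp; ring
  rw [h1]
  have h2 : a * b * (M * (b - a) * (b + a) / (a ^ 2 * b ^ 2)) ^ 2 / 2 =
      (b - a) ^ 2 * (M ^ 2 * (b + a) ^ 2 / (2 * (a ^ 3 * b ^ 3))) := by
    field_simp
  rw [h2]
  have h3 : 1 ≤ M ^ 2 * (b + a) ^ 2 / (2 * (a ^ 3 * b ^ 3)) := by
    rw [le_div_iff₀ (by positivity), one_mul]
    have h4 : a ^ 2 * b ^ 2 ≤ 2 * M ^ 2 := by
      rw [ha2, hb2]; nlinarith
    have h5 : 4 * (a * b) ≤ (b + a) ^ 2 := by nlinarith [sq_nonneg (b - a)]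
    have h6 : 2 * (a ^ 3 * b ^ 3) = (a ^ 2 * b ^ 2) * (2 * (a * b)) := by ring
    rw [h6]
    calc (a ^ 2 * b ^ 2) * (2 * (a * b)) ≤ (2 * M ^ 2) * (2 * (a * b)) :=
          mul_le_mul_of_nonneg_right h4 (by positivity)
      _ = M ^ 2 * (4 * (a * b)) := by ring
      _ ≤ M ^ 2 * (b + a) ^ 2 := mul_le_mul_of_nonneg_left h5 (by positivity)
  calc (a - b) ^ 2 = (b - a) ^ 2 * 1 := by ring
    _ ≤ _ := mul_le_mul_of_nonneg_left h3 (sq_nonneg _)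

lemma tau_le {p q M N J W t s : ℝ} (hq : 0 < q) (hN : 0 < N) (hW : 0 ≤ W) (hpM : p ≤ M)
    (hMN : M ≤ 3 / 2 * N) (hNq : N / 2 ≤ q) (hCS : J ^ 2 ≤ N * W) (hs : s ^ 2 = p * q) :
    s * (t * J / q) ^ 2 ≤ 4 * t ^ 2 * W := by
  have h2 : s ≤ 2 * q := by
    have h3 : p ≤ 4 * q := by linarith
    have h4 : s ^ 2 ≤ (2 * q) ^ 2 := by rw [hs]; nlinarith
    exact le_of_sq_le_sq h4 (by linarith)
  have h5 : (t * J / q) ^ 2 ≤ 2 * t ^ 2 * W / q := by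
    rw [div_pow, mul_pow, div_le_div_iff₀ (by positivity) hq]
    have h6 : t ^ 2 * J ^ 2 ≤ t ^ 2 * (N * W) := mul_le_mul_of_nonneg_left hCS (sq_nonneg t)
    have h7 : N * W ≤ 2 * q * W := mul_le_mul_of_nonneg_right (by linarith) hW
    calc t ^ 2 * J ^ 2 * q ≤ t ^ 2 * (2 * q * W) * q := by
          refine mul_le_mul_of_nonneg_right (h6.trans ?_) hq.le
          exact mul_le_mul_of_nonneg_left h7 (sq_nonneg t)
      _ = 2 * t ^ 2 * W * q ^ 2 := by ring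
  calc s * (t * J / q) ^ 2 ≤ (2 * q) * (2 * t ^ 2 * W / q) :=
        mul_le_mul h2 h5 (sq_nonneg _) (by linarith)
    _ = 4 * t ^ 2 * W := by field_simp; ring

lemma S_le {θ s X τ W : ι → ℝ} {S t u2 : ℝ} (hθ : ∀ k, 0 < θ k) (hs0 : ∀ k, 0 < s k)
    (hfirst : ∑ k, θ k * (s k * (X k * (X k + τ k) - X k ^ 2 / 4)) ≤ S)
    (hSX : S ≤ ∑ k, θ k * (s k * X k ^ 2 / 2)) (hsτ : ∀ k, s k * τ k ^ 2 ≤ 4 * t ^ 2 * W k)
    (hWsum : ∑ k, θ k * W k = u2) : S ≤ 32 * t ^ 2 * u2 := by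
  obtain ⟨Q, hQ⟩ : ∃ Q : ℝ, ∑ k, θ k * (s k * X k ^ 2) = Q := ⟨_, rfl⟩
  obtain ⟨P, hP⟩ : ∃ P : ℝ, ∑ k, θ k * (s k * τ k ^ 2) = P := ⟨_, rfl⟩
  have hPu : P ≤ 4 * t ^ 2 * u2 := by
    rw [← hP, ← hWsum, Finset.mul_sum]
    refine Finset.sum_le_sum fun k _ => ?_
    have := mul_le_mul_of_nonneg_left (hsτ k) (hθ k).le
    linarith
  have hSQ : S ≤ Q / 2 := by
    refine hSX.trans (le_of_eq ?_)
    rw [← hQ, Finset.sum_div]
    exact Finset.sum_congr rfl fun k _ => by ring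
  have hQP : 3 / 4 * Q - Q / 8 - 2 * P ≤ S := by
    refine le_trans ?_ hfirst
    rw [← hQ, ← hP, Finset.mul_sum, Finset.sum_div, Finset.mul_sum, ← Finset.sum_sub_distrib,
      ← Finset.sum_sub_distrib]
    refine Finset.sum_le_sum fun k _ => ?_
    have h2 : 0 ≤ θ k * (s k * (X k / 2 + 2 * τ k) ^ 2) :=
      mul_nonneg (hθ k).le (mul_nonneg (hs0 k).le (sq_nonneg _))
    nlinarith
  linarith

lemma cross_le {P Q A B M R V lam : ℝ} (hP : 0 < P) (hQ : 0 < Q) (hR : 0 < R) (hV : 0 ≤ V)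
    (hlam : 0 < lam) (hA : |A| ≤ 2 * R * V) (hB : |B| ≤ 2 * R * V) (hPM : P ^ 2 ≤ M)
    (hQM : Q ^ 2 ≤ 2 * M) :
    (Q - P) * (Q * B + P * A) ≤ (P - Q) ^ 2 / lam + 6 * lam * R ^ 2 * M * V ^ 2 := by
  have h6 : |Q * B + P * A| ≤ (Q + P) * (2 * R * V) := by
    refine (abs_add_le _ _).trans ?_
    rw [abs_mul, abs_mul, abs_of_pos hQ, abs_of_pos hP, add_mul]
    exact add_le_add (mul_le_mul_of_nonneg_left hB hQ.le)
      (mul_le_mul_of_nonneg_left hA hP.le)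
  have h7 : (Q * B + P * A) ^ 2 ≤ 24 * R ^ 2 * V ^ 2 * M := by
    rw [← sq_abs]
    refine (pow_le_pow_left₀ (abs_nonneg _) h6 2).trans ?_
    have h8 : (Q + P) ^ 2 ≤ 6 * M := by nlinarith [sq_nonneg (Q - P)]
    have h10 : 0 ≤ R ^ 2 * V ^ 2 := by positivity
    calc ((Q + P) * (2 * R * V)) ^ 2 = (Q + P) ^ 2 * (4 * (R ^ 2 * V ^ 2)) := by ring
      _ ≤ (6 * M) * (4 * (R ^ 2 * V ^ 2)) := mul_le_mul_of_nonneg_right h8 (by positivity)
      _ = 24 * R ^ 2 * V ^ 2 * M := by ring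
  have h12 : 0 ≤ ((Q - P) - lam / 2 * (Q * B + P * A)) ^ 2 / lam := by positivity
  have h13 : ((Q - P) - lam / 2 * (Q * B + P * A)) ^ 2 / lam =
      (P - Q) ^ 2 / lam + lam * (Q * B + P * A) ^ 2 / 4 - (Q - P) * (Q * B + P * A) := by
    field_simp; ring
  have h14 : lam * (Q * B + P * A) ^ 2 / 4 ≤ lam * (24 * R ^ 2 * V ^ 2 * M) / 4 := by
    have := mul_le_mul_of_nonneg_left h7 hlam.le
    linarith
  have h15 : lam * (24 * R ^ 2 * V ^ 2 * M) / 4 = 6 * lam * R ^ 2 * M * V ^ 2 := by ring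
  linarith

lemma alg_key {a b c t p q M N s W R V lam : ℝ} (hp : 0 < p) (hq : 0 < q) (hlam : 0 < lam)
    (hR : 0 < R) (hV : 0 ≤ V) (hpM : p ≤ M) (hqN : q ≤ N) (hNM : N ≤ 2 * M) (hMp : M / 2 ≤ p)
    (hNq : N / 2 ≤ q) (hs : Real.sqrt (p * q) = s) (haR : |a| ≤ R * V * M)
    (hbR : |b| ≤ R * V * N) (hcR : t * c ≤ t ^ 2 * W / (2 * lam) + lam * R ^ 2 * V ^ 2 / 2 * N) :
    b + t * c - a ≤ s * (b / q - a / p) - 144 * lam * R ^ 2 * V ^ 2 * s +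
      (Real.sqrt p - Real.sqrt q) ^ 2 / lam + t ^ 2 * W / (2 * lam) +
      295 * lam * R ^ 2 * (M * V ^ 2) := by
  have hsp := Real.sqrt_pos.2 hp
  have hsq' := Real.sqrt_pos.2 hq
  have hsp2 := Real.sq_sqrt hp.le
  have hsq2 := Real.sq_sqrt hq.le
  have hM0 : 0 < M := by linarith
  have hspq : s = Real.sqrt p * Real.sqrt q := by rw [← hs]; exact Real.sqrt_mul hp.le _
  obtain ⟨P', hP'⟩ : ∃ P', Real.sqrt p = P' := ⟨_, rfl⟩
  obtain ⟨Q', hQ'⟩ : ∃ Q', Real.sqrt q = Q' := ⟨_, rfl⟩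
  rw [hP'] at hsp hsp2 hspq ⊢
  rw [hQ'] at hsq' hsq2 hspq ⊢
  obtain ⟨A', hA'⟩ : ∃ A', a / p = A' := ⟨_, rfl⟩
  obtain ⟨B', hB'⟩ : ∃ B', b / q = B' := ⟨_, rfl⟩
  rw [hA', hB']
  have haA : a = P' ^ 2 * A' := by rw [hsp2, ← hA']; field_simp
  have hbB : b = Q' ^ 2 * B' := by rw [hsq2, ← hB']; field_simp
  have hA'R : |A'| ≤ 2 * R * V := by
    rw [← hA', abs_div, abs_of_pos hp, div_le_iff₀ hp]
    refine haR.trans ?_
    calc R * V * M ≤ R * V * (2 * p) := mul_le_mul_of_nonneg_left (by linarith) (by positivity)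
      _ = 2 * R * V * p := by ring
  have hB'R : |B'| ≤ 2 * R * V := by
    rw [← hB', abs_div, abs_of_pos hq, div_le_iff₀ hq]
    refine hbR.trans ?_
    calc R * V * N ≤ R * V * (2 * q) := mul_le_mul_of_nonneg_left (by linarith) (by positivity)
      _ = 2 * R * V * q := by ring
  have h4 : b - a = s * (B' - A') + (Q' - P') * (Q' * B' + P' * A') := by
    rw [hspq, haA, hbB]; ring
  have h5 := cross_le hsp hsq' hR hV hlam hA'R hB'R (by rw [hsp2]; exact hpM)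
    (by rw [hsq2]; linarith : Q' ^ 2 ≤ 2 * M)
  have h15 : lam * R ^ 2 * V ^ 2 / 2 * N ≤ lam * R ^ 2 * V ^ 2 * M := by
    have h16 : 0 ≤ lam * R ^ 2 * V ^ 2 := by positivity
    calc lam * R ^ 2 * V ^ 2 / 2 * N = lam * R ^ 2 * V ^ 2 * (N / 2) := by ring
      _ ≤ _ := mul_le_mul_of_nonneg_left (by linarith) h16
  have h17 : s ≤ 2 * M := by
    have h18 : s ^ 2 ≤ (2 * M) ^ 2 := by
      have : s ^ 2 = p * q := by rw [← hs]; exact Real.sq_sqrt (mul_pos hp hq).le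
      rw [this]
      have h19 : p * q ≤ M * (2 * M) := mul_le_mul hpM (by linarith) hq.le hM0.le
      nlinarith
    exact le_of_sq_le_sq h18 (by linarith)
  have h21 : 144 * lam * R ^ 2 * V ^ 2 * s ≤ 288 * lam * R ^ 2 * V ^ 2 * M := by
    have h22 : 0 ≤ 144 * lam * R ^ 2 * V ^ 2 := by positivity
    calc 144 * lam * R ^ 2 * V ^ 2 * s ≤ 144 * lam * R ^ 2 * V ^ 2 * (2 * M) :=
          mul_le_mul_of_nonneg_left h17 h22
      _ = _ := by ring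
  have h23 : b + t * c - a = (b - a) + t * c := by ring
  have h24 : 288 * lam * R ^ 2 * V ^ 2 * M + 6 * lam * R ^ 2 * M * V ^ 2 +
      lam * R ^ 2 * V ^ 2 * M = 295 * lam * R ^ 2 * (M * V ^ 2) := by ring
  rw [h23, h4]
  linarith

/-- integrals over a piece of a tessellation -/
structure PieceData (K A : Set (E d)) (U : E d → ℝ) (R ε t M : ℝ) (v : E d) (q N J W b c : ℝ) :
    Prop where
  hq : ∫ z in A ∩ K, wt ε z = q
  hN : ∫ z in A ∩ K, (1 : ℝ) = N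
  hJ : ∫ z in A ∩ K, U z = J
  hW : ∫ z in A ∩ K, U z ^ 2 = W
  hb : ∫ z in A ∩ K, ⟪z, v⟫ = b
  hc : ∫ z in A ∩ K, ⟪z, v⟫ * U z = c
  hqN : q ≤ N
  hNq : N / 2 ≤ q
  hW0 : 0 ≤ W
  hCS : J ^ 2 ≤ N * W
  hJN : |t * J| ≤ N / 2
  hbR : |b| ≤ R * ‖v‖ * N
  hcR : ∀ lam : ℝ, 0 < lam → t * c ≤ t ^ 2 * W / (2 * lam) + lam * R ^ 2 * ‖v‖ ^ 2 / 2 * N
  hone : ∫ z in A ∩ K, (1 + t * U z) = N + t * J
  hlin : ∫ z in A ∩ K, ⟪z, v⟫ * (1 + t * U z) = b + t * c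

lemma integrableOn_cont {K : Set (E d)} (hKc : IsCompact K) (S : Set (E d)) {g : E d → ℝ}
    (hg : Continuous g) : IntegrableOn g (S ∩ K) :=
  (hg.continuousOn.integrableOn_compact hKc).mono_set Set.inter_subset_right

lemma integrableOn_mulU {K : Set (E d)} (hKc : IsCompact K) {U : E d → ℝ} (hU : Measurable U)
    {B : ℝ} (hUB : ∀ z, |U z| ≤ B) (S : Set (E d)) {g : E d → ℝ} (hg : Continuous g) :
    IntegrableOn (fun z => g z * U z) (S ∩ K) := by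
  have h2 : Integrable (fun z => U z * g z) (volume.restrict K) :=
    (hg.continuousOn.integrableOn_compact hKc).bdd_mul (c := B) hU.aestronglyMeasurable
      (Filter.Eventually.of_forall fun z => by rw [Real.norm_eq_abs]; exact hUB z)
  have h3 : IntegrableOn (fun z => g z * U z) K :=
    h2.congr (Filter.Eventually.of_forall fun z => by simp only [mul_comm])
  exact h3.mono_set Set.inter_subset_right

lemma integrableOn_U {K : Set (E d)} (hKc : IsCompact K) {U : E d → ℝ} (hU : Measurable U)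
    {B : ℝ} (hUB : ∀ z, |U z| ≤ B) (S : Set (E d)) : IntegrableOn U (S ∩ K) := by
  simpa using integrableOn_mulU hKc hU hUB S (g := fun _ => 1) continuous_const

lemma integrableOn_U2 {K : Set (E d)} (hKc : IsCompact K) {U : E d → ℝ} (hU : Measurable U)
    {B : ℝ} (hUB : ∀ z, |U z| ≤ B) : IntegrableOn (fun z => U z ^ 2) K := by
  refine Measure.integrableOn_of_bounded (M := B ^ 2) hKc.measure_lt_top.ne
    (hU.pow_const 2).aestronglyMeasurable (Filter.Eventually.of_forall fun z => ?_)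
  rw [Real.norm_eq_abs, abs_of_nonneg (sq_nonneg _), ← sq_abs]
  exact pow_le_pow_left₀ (abs_nonneg _) (hUB z) 2

lemma exists_pieceData {K : Set (E d)} (hKc : IsCompact K) (hR : 0 < R) (hKR : ∀ z ∈ K, ‖z‖ ≤ R)
    {U : E d → ℝ} (hU : Measurable U) {t B : ℝ} (ht : 0 ≤ t) (hUB : ∀ z, |U z| ≤ B)
    (htB : t * B ≤ 1 / 2) (hε : ε = 1 / (16 * R ^ 2)) {A : Set (E d)} (hA : MeasurableSet A)
    (v : E d) (M : ℝ) : ∃ q N J W b c : ℝ, PieceData K A U R ε t M v q N J W b c := by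
  have hε0 : 0 < ε := by rw [hε]; positivity
  have hmA : MeasurableSet (A ∩ K) := hA.inter hKc.measurableSet
  have h1i : IntegrableOn (fun _ : E d => (1 : ℝ)) (A ∩ K) := integrableOn_cont hKc A continuous_const
  have hwi : IntegrableOn (wt ε) (A ∩ K) := integrableOn_cont hKc A (continuous_wt ε)
  have hvi : IntegrableOn (fun z : E d => ⟪z, v⟫) (A ∩ K) :=
    integrableOn_cont hKc A (by fun_prop)
  have hUi := integrableOn_U hKc hU hUB A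
  have hU2i : IntegrableOn (fun z => U z ^ 2) (A ∩ K) :=
    (integrableOn_U2 hKc hU hUB).mono_set Set.inter_subset_right
  have hvUi : IntegrableOn (fun z : E d => ⟪z, v⟫ * U z) (A ∩ K) :=
    integrableOn_mulU hKc hU hUB A (by fun_prop)
  obtain ⟨q, hq⟩ : ∃ q, ∫ z in A ∩ K, wt ε z = q := ⟨_, rfl⟩
  obtain ⟨N, hN⟩ : ∃ N, ∫ z in A ∩ K, (1 : ℝ) = N := ⟨_, rfl⟩
  obtain ⟨J, hJ⟩ : ∃ J, ∫ z in A ∩ K, U z = J := ⟨_, rfl⟩
  obtain ⟨W, hW⟩ : ∃ W, ∫ z in A ∩ K, U z ^ 2 = W := ⟨_, rfl⟩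
  obtain ⟨b, hb⟩ : ∃ b, ∫ z in A ∩ K, ⟪z, v⟫ = b := ⟨_, rfl⟩
  obtain ⟨c, hc⟩ : ∃ c, ∫ z in A ∩ K, ⟪z, v⟫ * U z = c := ⟨_, rfl⟩
  have hN0 : 0 ≤ N := by rw [← hN]; exact integral_nonneg fun _ => zero_le_one
  have hW0 : 0 ≤ W := by rw [← hW]; exact integral_nonneg fun z => sq_nonneg _
  refine ⟨q, N, J, W, b, c, ⟨hq, hN, hJ, hW, hb, hc, ?_, ?_, hW0, ?_, ?_, ?_, ?_, ?_, ?_⟩⟩
  · rw [← hq, ← hN]
    exact integral_mono hwi h1i fun z => wt_le_one hε0.le z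
  · have h2 : ∫ z in A ∩ K, (1 / 2 : ℝ) * 1 ≤ ∫ z in A ∩ K, wt ε z :=
      setIntegral_mono_on (h1i.const_mul _) hwi hmA
        fun z hz => by rw [mul_one]; exact wt_ge hR (hKR z hz.2) hε
    rw [integral_const_mul, hN, hq] at h2
    linarith
  · have h2 : 0 ≤ ∫ z in A ∩ K, (N * U z - J) ^ 2 := integral_nonneg fun z => sq_nonneg _
    have h3 : ∀ z, (N * U z - J) ^ 2 = N ^ 2 * U z ^ 2 + (-(2 * N * J) * U z + J ^ 2 * 1) :=
      fun z => by ring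
    simp only [h3] at h2
    have h4 : ∫ z in A ∩ K, (N ^ 2 * U z ^ 2 + (-(2 * N * J) * U z + J ^ 2 * 1)) =
        N ^ 2 * W + (-(2 * N * J) * J + J ^ 2 * N) := by
      have e1 : IntegrableOn (fun z => N ^ 2 * U z ^ 2) (A ∩ K) := hU2i.const_mul _
      have e2 : IntegrableOn (fun z => -(2 * N * J) * U z) (A ∩ K) := hUi.const_mul _
      have e3 : IntegrableOn (fun _ : E d => J ^ 2 * (1 : ℝ)) (A ∩ K) := h1i.const_mul _
      have e4 : IntegrableOn (fun z => -(2 * N * J) * U z + J ^ 2 * 1) (A ∩ K) := e2.add e3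
      rw [integral_add e1 e4, integral_add e2 e3, integral_const_mul, integral_const_mul,
        integral_const_mul, hW, hJ, hN]
    rw [h4] at h2
    rcases hN0.eq_or_lt with h0 | h0
    · -- then `J = 0`
      have h5 : |J| ≤ B * N := by
        rw [← hJ, ← hN, ← integral_const_mul]
        exact (abs_integral_le_integral_abs).trans
          (integral_mono hUi.abs (h1i.const_mul B) fun z => by simpa using hUB z)
      rw [← h0, mul_zero] at h5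
      have : J = 0 := abs_eq_zero.1 (le_antisymm h5 (abs_nonneg _))
      rw [this, ← h0]; simp
    · have h5 : 0 ≤ N * (N * W - J ^ 2) := by nlinarith
      have := nonneg_of_mul_nonneg_right h5 h0
      linarith
  · have h5 : |J| ≤ B * N := by
      rw [← hJ, ← hN, ← integral_const_mul]
      exact (abs_integral_le_integral_abs).trans
        (integral_mono hUi.abs (h1i.const_mul B) fun z => by simpa using hUB z)
    rw [abs_mul, abs_of_nonneg ht]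
    calc t * |J| ≤ t * (B * N) := mul_le_mul_of_nonneg_left h5 ht
      _ = (t * B) * N := by ring
      _ ≤ 1 / 2 * N := mul_le_mul_of_nonneg_right htB hN0
      _ = N / 2 := by ring
  · rw [← hb, ← hN, ← integral_const_mul]
    refine (abs_integral_le_integral_abs).trans ?_
    refine setIntegral_mono_on hvi.abs (h1i.const_mul _) hmA fun z hz => ?_
    rw [mul_one]
    exact (abs_real_inner_le_norm _ _).trans
      (mul_le_mul_of_nonneg_right (hKR z hz.2) (norm_nonneg _))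
  · intro lam hlam
    have e1 : t * c = ∫ z in A ∩ K, t * (⟪z, v⟫ * U z) := by rw [integral_const_mul, hc]
    have e2 : t ^ 2 * W / (2 * lam) = ∫ z in A ∩ K, t ^ 2 / (2 * lam) * U z ^ 2 := by
      rw [integral_const_mul, hW]; ring
    have e3 : lam * R ^ 2 * ‖v‖ ^ 2 / 2 * N =
        ∫ z in A ∩ K, lam * R ^ 2 * ‖v‖ ^ 2 / 2 * (1 : ℝ) := by rw [integral_const_mul, hN]
    rw [e1, e2, e3, ← integral_add (hU2i.const_mul _) (h1i.const_mul _)]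
    refine setIntegral_mono_on (hvUi.const_mul t)
      ((hU2i.const_mul _).add (h1i.const_mul _)) hmA fun z hz => ?_
    have h4 : 0 ≤ (t * U z - lam * ⟪z, v⟫) ^ 2 / (2 * lam) := by positivity
    have h5 : (t * U z - lam * ⟪z, v⟫) ^ 2 / (2 * lam) =
        t ^ 2 / (2 * lam) * U z ^ 2 + lam * ⟪z, v⟫ ^ 2 / 2 - t * (⟪z, v⟫ * U z) := by
      field_simp; ring
    have h6 : ⟪z, v⟫ ^ 2 ≤ (R * ‖v‖) ^ 2 := by
      rw [← sq_abs]
      exact pow_le_pow_left₀ (abs_nonneg _) ((abs_real_inner_le_norm _ _).trans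
        (mul_le_mul_of_nonneg_right (hKR z hz.2) (norm_nonneg _))) 2
    have h7 : lam * ⟪z, v⟫ ^ 2 / 2 ≤ lam * R ^ 2 * ‖v‖ ^ 2 / 2 * 1 := by
      have := mul_le_mul_of_nonneg_left h6 hlam.le
      have e : lam * R ^ 2 * ‖v‖ ^ 2 / 2 * 1 = lam * (R * ‖v‖) ^ 2 / 2 := by ring
      rw [e]; linarith
    linarith
  · rw [integral_add h1i (hUi.const_mul t), integral_const_mul, hN, hJ]
  · have h3 : ∀ z : E d, ⟪z, v⟫ * (1 + t * U z) = ⟪z, v⟫ + t * (⟪z, v⟫ * U z) := fun z => by ring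
    simp only [h3]
    rw [integral_add hvi (hvUi.const_mul t), integral_const_mul, hb, hc]

end Vale.Agent.P074
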