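import Mathlib
import Vale.Agent.P074.KeyC

/-! Quantitative stability of barycenters of Laguerre cells: the final bound, for P074. -/

set_option linter.unusedSectionVars false

open MeasureTheory Finset
open scoped RealInnerProductSpace

namespace Vale.Agent.P074

variable {d : ℕ} {ι : Type*} [Fintype ι] [Nonempty ι] {R : ℝ}

theorem bary_bound {K : Set (E d)} (hKc : IsCompact K) (hKx : Convex ℝ K) (hR : 0 < R)
    (hKR : ∀ z ∈ K, ‖z‖ ≤ R) (x : ι → E d) {m : ι → ℝ} (hm : ∀ k, 0 < m k) {ψ₀ ψ₁ : ι → ℝ}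
    (hψ₀ : ∀ k l, x k = x l → ψ₀ k = ψ₀ l) (hψ₁ : ∀ k l, x k = x l → ψ₁ k = ψ₁ l)
    {U : E d → ℝ} (hU : Measurable U) {t B : ℝ} (ht : 0 ≤ t) (hUB : ∀ z, |U z| ≤ B)
    (htB : t * B ≤ 1 / 2) (h0 : ∀ k, ∫ z in cell x ψ₀ k ∩ K, (1 : ℝ) = mass x m k)
    (h1 : ∀ k, ∫ z in cell x ψ₁ k ∩ K, (1 + t * U z) = mass x m k) (v : ι → E d) {lam : ℝ}
    (hlam : 0 < lam) :
    ∑ k, share x m k * ((∫ z in cell x ψ₁ k ∩ K, ⟪z, v k⟫ * (1 + t * U z)) -
      ∫ z in cell x ψ₀ k ∩ K, ⟪z, v k⟫) ≤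
    65 * t ^ 2 * (∫ z in K, U z ^ 2) / lam + 295 * lam * R ^ 2 * ∑ k, m k * ‖v k‖ ^ 2 := by
  obtain ⟨ε, hε⟩ : ∃ ε : ℝ, ε = 1 / (16 * R ^ 2) := ⟨_, rfl⟩
  have hε0 : 0 < ε := by rw [hε]; positivity
  have hexA := fun k => exists_pieceData hKc hR hKR (U := fun _ => 0) measurable_const
    (t := 0) (B := 0) le_rfl (by simp) (by norm_num) hε (measurableSet_cell x ψ₀ k) (v k) 0
  have hexB := fun k => exists_pieceData hKc hR hKR hU ht hUB htB hε
    (measurableSet_cell x ψ₁ k) (v k) 0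
  choose p NA JA WA a cA hA using hexA
  choose q N J W b c hB using hexB
  obtain ⟨M, hM⟩ : ∃ M : ι → ℝ, ∀ k, mass x m k = M k := ⟨_, fun k => rfl⟩
  have hM0 : ∀ k, 0 < M k := fun k => by rw [← hM]; exact mass_pos x hm k
  have hNA : ∀ k, NA k = M k := fun k => by rw [← (hA k).hN, h0, hM]
  have hMN : ∀ k, M k = N k + t * J k := fun k => by rw [← hM, ← h1, (hB k).hone]
  have hNM : ∀ k, N k ≤ 2 * M k := fun k => by
    have := (abs_le.1 (hB k).hJN).1; rw [hMN k]; linarith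
  have hMN' : ∀ k, M k ≤ 3 / 2 * N k := fun k => by
    have := (abs_le.1 (hB k).hJN).2; rw [hMN k]; linarith
  have hN0 : ∀ k, 0 < N k := fun k => by have := hM0 k; have := hMN' k; linarith
  have hpM : ∀ k, p k ≤ M k := fun k => by rw [← hNA]; exact (hA k).hqN
  have hMp : ∀ k, M k / 2 ≤ p k := fun k => by rw [← hNA]; exact (hA k).hNq
  have hp0 : ∀ k, 0 < p k := fun k => by have := hM0 k; have := hMp k; linarith
  have hq0 : ∀ k, 0 < q k := fun k => by have := hN0 k; have := (hB k).hNq; linarith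
  have hθ := share_nonneg x hm
  have hWsum : ∑ k, share x m k * W k = ∫ z in K, U z ^ 2 := by
    rw [← sum_share_integral hKc.measurableSet x hm hψ₁ (integrableOn_U2 hKc hU hUB)]
    exact Finset.sum_congr rfl fun k _ => by rw [(hB k).hW]
  have hθM : ∀ k, share x m k * M k = m k := fun k => by rw [← hM]; exact share_mul_mass x hm k
  obtain ⟨S, hS⟩ : ∃ S : ℝ, ∑ k, share x m k * (Real.sqrt (p k) - Real.sqrt (q k)) ^ 2 = S :=
    ⟨_, rfl⟩
  obtain ⟨s, hs⟩ : ∃ s : ι → ℝ, ∀ k, Real.sqrt (p k * q k) = s k := ⟨_, fun k => rfl⟩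
  have hs0 : ∀ k, 0 < s k := fun k => by
    rw [← hs]; exact Real.sqrt_pos.2 (mul_pos (hp0 k) (hq0 k))
  have hsq : ∀ k, s k ^ 2 = p k * q k := fun k => by
    rw [← hs]; exact Real.sq_sqrt (mul_pos (hp0 k) (hq0 k)).le
  obtain ⟨X, hX⟩ : ∃ X : ι → ℝ, ∀ k, M k / p k - M k / q k = X k := ⟨_, fun k => rfl⟩
  obtain ⟨τ, hτ⟩ : ∃ τ : ι → ℝ, ∀ k, t * J k / q k = τ k := ⟨_, fun k => rfl⟩
  have hpint : ∀ k, ∫ z in cell x ψ₀ k ∩ K, wt ε z = p k := fun k => (hA k).hq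
  have hqint : ∀ k, ∫ z in cell x ψ₁ k ∩ K, wt ε z = q k := fun k => (hB k).hq
  -- first application: `f = X h`
  have hfirst : ∑ k, share x m k * (s k * (X k * (X k + τ k) - X k ^ 2 / 4)) ≤ S := by
    have h2 := cells_ineq hKc hKx x hm hψ₀ hψ₁ hε0 hpint hqint hp0 hq0
      (f := fun k z => X k * hw ε z) (fun k => continuous_const.mul (continuous_hw ε))
      (Λ := fun k => |X k| * (2 * ε * R)) (fun k a ha b hb => by
        rw [← mul_sub, abs_mul, mul_assoc]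
        exact mul_le_mul_of_nonneg_left (hw_lip hR (hKR a ha) (hKR b hb) hε) (abs_nonneg _))
    rw [hS] at h2
    refine le_trans (Finset.sum_le_sum fun k _ => ?_) h2
    refine mul_le_mul_of_nonneg_left ?_ (hθ k).le
    rw [hs]
    refine mul_le_mul_of_nonneg_left ?_ (hs0 k).le
    have h3 : ∀ z : E d, X k * hw ε z * wt ε z = X k * 1 := fun z => by
      rw [mul_assoc, hw_mul_wt]
    simp only [h3]
    rw [integral_const_mul, integral_const_mul, h0, hM, (hB k).hN]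
    have h4 : (|X k| * (2 * ε * R)) ^ 2 / ε = X k ^ 2 / 4 := by
      rw [mul_pow, sq_abs]
      have : (2 * ε * R) ^ 2 / ε = 1 / 4 := by
        rw [hε]; field_simp; norm_num
      rw [mul_div_assoc, this]; ring
    rw [h4]
    have h5 : X k * M k / p k - X k * N k / q k = X k * (X k + τ k) := by
      rw [← hτ]
      have h6 : N k = M k - t * J k := by rw [hMN k]; ring
      have h7 : X k * M k / p k - X k * N k / q k =
        X k * ((M k / p k - M k / q k) + t * J k / q k) := by rw [h6]; ring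
      rw [h7, hX]
    rw [h5]
  have hSX : S ≤ ∑ k, share x m k * (s k * X k ^ 2 / 2) := by
    rw [← hS]
    refine Finset.sum_le_sum fun k _ => mul_le_mul_of_nonneg_left ?_ (hθ k).le
    have := sqrt_diff_le (hp0 k) (hq0 k) (hM0 k) (hpM k) ((hB k).hqN.trans (hNM k))
    rwa [hs, hX] at this
  have hsτ : ∀ k, s k * τ k ^ 2 ≤ 4 * t ^ 2 * W k := fun k => by
    rw [← hτ]
    exact tau_le (hq0 k) (hN0 k) (hB k).hW0 (hpM k) (hMN' k) (hB k).hNq (hB k).hCS (hsq k)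
  have hS32 := S_le hθ hs0 hfirst hSX hsτ hWsum
  -- second application: `f = - lam g`
  have hsecond : ∑ k, share x m k * (s k * (lam * (b k / q k - a k / p k) -
      144 * lam ^ 2 * R ^ 2 * ‖v k‖ ^ 2)) ≤ S := by
    have h2 := cells_ineq hKc hKx x hm hψ₀ hψ₁ hε0 hpint hqint hp0 hq0
      (f := fun k z => -lam * (⟪z, v k⟫ * hw ε z))
      (fun k => continuous_const.mul ((by fun_prop : Continuous fun z : E d => ⟪z, v k⟫).mul
        (continuous_hw ε)))
      (Λ := fun k => lam * (3 * ‖v k‖)) (fun k a ha b hb => by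
        rw [← mul_sub, abs_mul, abs_neg, abs_of_pos hlam, mul_assoc]
        exact mul_le_mul_of_nonneg_left (gw_lip hR (hKR a ha) (hKR b hb) hε) hlam.le)
    rw [hS] at h2
    refine le_trans (Finset.sum_le_sum fun k _ => ?_) h2
    refine mul_le_mul_of_nonneg_left ?_ (hθ k).le
    rw [hs]
    refine mul_le_mul_of_nonneg_left ?_ (hs0 k).le
    have h3 : ∀ z : E d, -lam * (⟪z, v k⟫ * hw ε z) * wt ε z = -lam * ⟪z, v k⟫ := fun z => by
      rw [mul_assoc, mul_assoc, hw_mul_wt, mul_one]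
    simp only [h3]
    rw [integral_const_mul, integral_const_mul, (hA k).hb, (hB k).hb]
    have h4 : (lam * (3 * ‖v k‖)) ^ 2 / ε = 144 * lam ^ 2 * R ^ 2 * ‖v k‖ ^ 2 := by
      rw [hε]; field_simp; ring
    rw [h4]
    refine le_of_eq ?_
    ring
  -- assemble
  have hterm : ∀ k, share x m k * ((∫ z in cell x ψ₁ k ∩ K, ⟪z, v k⟫ * (1 + t * U z)) -
      ∫ z in cell x ψ₀ k ∩ K, ⟪z, v k⟫) ≤
      share x m k * (s k * (lam * (b k / q k - a k / p k) -
        144 * lam ^ 2 * R ^ 2 * ‖v k‖ ^ 2)) / lam +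
      share x m k * (Real.sqrt (p k) - Real.sqrt (q k)) ^ 2 / lam +
      t ^ 2 / (2 * lam) * (share x m k * W k) + 295 * lam * R ^ 2 * (m k * ‖v k‖ ^ 2) := by
    intro k
    rw [(hB k).hlin, (hA k).hb, ← hθM k]
    have haR : |a k| ≤ R * ‖v k‖ * M k := by rw [← hNA]; exact (hA k).hbR
    have key := alg_key (hp0 k) (hq0 k) hlam hR (norm_nonneg (v k)) (hpM k) (hB k).hqN (hNM k)
      (hMp k) (hB k).hNq (hs k) haR (hB k).hbR ((hB k).hcR lam hlam)
    refine (mul_le_mul_of_nonneg_left key (hθ k).le).trans (le_of_eq ?_)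
    field_simp
  have hu0 : 0 ≤ ∫ z in K, U z ^ 2 := integral_nonneg fun z => sq_nonneg _
  obtain ⟨u2, hu2⟩ : ∃ u2 : ℝ, ∫ z in K, U z ^ 2 = u2 := ⟨_, rfl⟩
  rw [hu2] at hWsum hS32 hu0 ⊢
  refine (Finset.sum_le_sum fun k _ => hterm k).trans ?_
  rw [Finset.sum_add_distrib, Finset.sum_add_distrib, Finset.sum_add_distrib,
    ← Finset.sum_div, ← Finset.sum_div, hS, ← Finset.mul_sum, ← Finset.mul_sum, hWsum]
  have h2 := div_le_div_of_nonneg_right hsecond hlam.le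
  have h3 := div_le_div_of_nonneg_right hS32 hlam.le
  have h4 : t ^ 2 / (2 * lam) * u2 = (1 / 2) * (t ^ 2 * u2 / lam) := by field_simp
  have h5 : 32 * t ^ 2 * u2 / lam = 32 * (t ^ 2 * u2 / lam) := by ring
  have h6 : 65 * t ^ 2 * u2 / lam = 65 * (t ^ 2 * u2 / lam) := by ring
  have h7 : 0 ≤ t ^ 2 * u2 / lam := by positivity
  rw [h5] at h3
  rw [h4, h6]
  linarith

end Vale.Agent.P074
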