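import Mathlib
import Vale.Agent.P074.KeyD

/-! Telescoping along the linear interpolation of the sites, for P074. -/

set_option linter.unusedSectionVars false

open MeasureTheory Finset
open scoped RealInnerProductSpace

namespace Vale.Agent.P074

variable {d : ℕ} {ι : Type*} [Fintype ι] [Nonempty ι] {R : ℝ}

/-- `ψ` solves the semi-discrete problem with sites `x`, masses `m` and source `(1 + t U) 1_K` -/
structure SDSol (K : Set (E d)) (U : E d → ℝ) (t : ℝ) (x : ι → E d) (m : ι → ℝ) (ψ : ι → ℝ) :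
    Prop where
  cls : ∀ k l, x k = x l → ψ k = ψ l
  eq : ∀ k, ∫ z in cell x ψ k ∩ K, (1 + t * U z) = mass x m k

/-- the dual value -/
noncomputable def val (K : Set (E d)) (U : E d → ℝ) (t : ℝ) (x : ι → E d) (m : ι → ℝ)
    (ψ : ι → ℝ) : ℝ :=
  (∫ z in K, Phi x ψ z * (1 + t * U z)) + ∑ k, m k * ψ k

/-- standing assumptions -/
structure Setup (K : Set (E d)) (U : E d → ℝ) (t B : ℝ) (m : ι → ℝ) : Prop where
  hKc : IsCompact K
  hU : Measurable U
  hUB : ∀ z, |U z| ≤ B
  ht : 0 ≤ t
  htB : t * B ≤ 1 / 2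
  hm : ∀ k, 0 < m k
  hU0 : ∫ z in K, U z = 0
  hsum : ∑ k, m k = volume.real K

namespace Setup

variable {K : Set (E d)} {U : E d → ℝ} {t B : ℝ} {m : ι → ℝ}

lemma nonneg (h : Setup K U t B m) (z : E d) : 0 ≤ 1 + t * U z := by
  have h1 := (abs_le.1 (h.hUB z)).1
  have h2 : t * (-B) ≤ t * U z := mul_le_mul_of_nonneg_left h1 h.ht
  have := h.htB
  linarith

lemma integrable (h : Setup K U t B m) (S : Set (E d)) {g : E d → ℝ} (hg : Continuous g) :
    IntegrableOn (fun z => g z * (1 + t * U z)) (S ∩ K) := by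
  have h1 : IntegrableOn (fun z => g z + t * (g z * U z)) (S ∩ K) :=
    (integrableOn_cont h.hKc S hg).add ((integrableOn_mulU h.hKc h.hU h.hUB S hg).const_mul t)
  exact h1.congr (Filter.Eventually.of_forall fun z => by simp only; ring)

lemma integrable' (h : Setup K U t B m) {g : E d → ℝ} (hg : Continuous g) :
    IntegrableOn (fun z => g z * (1 + t * U z)) K := by
  have := h.integrable Set.univ hg
  rwa [Set.univ_inter] at this

lemma integrable_one (h : Setup K U t B m) (S : Set (E d)) :
    IntegrableOn (fun z => 1 + t * U z) (S ∩ K) := by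
  have := h.integrable S (g := fun _ => 1) continuous_const
  simpa using this

/-- existence of solutions -/
theorem exists_sdsol (h : Setup K U t B m) (x : ι → E d) : ∃ ψ, SDSol K U t x m ψ := by
  have hi : IntegrableOn (fun z => 1 + t * U z) K := by
    have := h.integrable_one Set.univ; rwa [Set.univ_inter] at this
  set α : Measure (E d) := (volume.restrict K).withDensity
    (fun z => ENNReal.ofReal (1 + t * U z)) with hα
  have hreal : ∀ A : Set (E d), MeasurableSet A → α.real A = ∫ z in A ∩ K, (1 + t * U z) := by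
    intro A hA
    rw [measureReal_def, hα, withDensity_apply _ hA, Measure.restrict_restrict hA,
      ← ofReal_integral_eq_lintegral_ofReal (h.integrable_one A)
        (Filter.Eventually.of_forall fun z => h.nonneg z),
      ENNReal.toReal_ofReal (integral_nonneg fun z => h.nonneg z)]
  have hfin : IsFiniteMeasure α := by
    rw [hα]
    exact isFiniteMeasure_withDensity_ofReal hi.2
  obtain ⟨R, hR⟩ := h.hKc.isBounded.exists_norm_le
  have hαv : α ≪ volume := (withDensity_absolutelyContinuous _ _).trans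
    Measure.absolutelyContinuous_restrict
  have hRae : ∀ᵐ z ∂α, ‖z‖ ≤ R := by
    have h1 : ∀ᵐ z ∂(volume.restrict K), ‖z‖ ≤ R :=
      (ae_restrict_mem h.hKc.measurableSet).mono fun z hz => hR z hz
    exact (withDensity_absolutelyContinuous _ _).ae_le h1
  have hsum : ∑ k, m k = α.real Set.univ := by
    have e1 : IntegrableOn (fun _ : E d => (1 : ℝ)) K := by
      have := integrableOn_cont h.hKc Set.univ (g := fun _ : E d => (1 : ℝ)) continuous_const
      rwa [Set.univ_inter] at this
    have e2 : IntegrableOn U K := by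
      have := integrableOn_U h.hKc h.hU h.hUB Set.univ
      rwa [Set.univ_inter] at this
    rw [hreal _ MeasurableSet.univ, Set.univ_inter, integral_add e1 (e2.const_mul t),
      integral_const_mul, h.hU0, h.hsum]
    simp
  obtain ⟨ψ, hψ, hm⟩ := sd_exists hαv hRae x m h.hm hsum
  exact ⟨ψ, hψ, fun k => by rw [← hreal _ (measurableSet_cell x ψ k)]; exact hm k⟩

/-- duality: feasibility of other potentials -/
lemma le_val (h : Setup K U t B m) {x : ι → E d} {ψ : ι → ℝ} (hψ : SDSol K U t x m ψ)
    (x' : ι → E d) (ψ' : ι → ℝ) :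
    ∑ k, share x m k * (∫ z in cell x ψ k ∩ K, ⟪z, x' k⟫ * (1 + t * U z)) ≤
      val K U t x' m ψ' := by
  unfold val
  rw [← sum_share_integral h.hKc.measurableSet x h.hm hψ.cls (h.integrable' (continuous_Phi x' ψ')),
    ← Finset.sum_add_distrib]
  refine Finset.sum_le_sum fun k _ => ?_
  have h1 : ∫ z in cell x ψ k ∩ K, (⟪z, x' k⟫ * (1 + t * U z) + -ψ' k * (1 + t * U z)) ≤
      ∫ z in cell x ψ k ∩ K, Phi x' ψ' z * (1 + t * U z) := by
    refine integral_mono ((h.integrable _ (by fun_prop)).add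
      ((h.integrable_one _).const_mul _)) (h.integrable _ (continuous_Phi x' ψ')) fun z => ?_
    have h2 := mul_le_mul_of_nonneg_right (le_Phi x' ψ' z k) (h.nonneg z)
    simp only
    linarith
  rw [integral_add (h.integrable _ (by fun_prop)) ((h.integrable_one _).const_mul _),
    integral_const_mul, hψ.eq] at h1
  have h3 := mul_le_mul_of_nonneg_left h1 (share_nonneg x h.hm k).le
  have h4 : share x m k * (-ψ' k * mass x m k) = -(m k * ψ' k) := by
    rw [← share_mul_mass x h.hm k]; ring
  rw [mul_add, h4] at h3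
  linarith

/-- duality: no gap for solutions -/
lemma val_eq (h : Setup K U t B m) {x : ι → E d} {ψ : ι → ℝ} (hψ : SDSol K U t x m ψ) :
    val K U t x m ψ =
      ∑ k, share x m k * (∫ z in cell x ψ k ∩ K, ⟪z, x k⟫ * (1 + t * U z)) := by
  unfold val
  rw [← sum_share_integral h.hKc.measurableSet x h.hm hψ.cls (h.integrable' (continuous_Phi x ψ)),
    ← Finset.sum_add_distrib]
  refine Finset.sum_congr rfl fun k _ => ?_
  have h1 : ∫ z in cell x ψ k ∩ K, Phi x ψ z * (1 + t * U z) =
      ∫ z in cell x ψ k ∩ K, (⟪z, x k⟫ * (1 + t * U z) + -ψ k * (1 + t * U z)) := by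
    refine setIntegral_congr_fun ((measurableSet_cell x ψ k).inter h.hKc.measurableSet)
      fun z hz => ?_
    rw [Phi_eq_of_mem_cell hψ.cls hz.1]
    ring
  rw [h1, integral_add (h.integrable _ (by fun_prop)) ((h.integrable_one _).const_mul _),
    integral_const_mul, hψ.eq, mul_add]
  have h4 : share x m k * (-ψ k * mass x m k) = -(m k * ψ k) := by
    rw [← share_mul_mass x h.hm k]; ring
  rw [h4]
  ring

lemma val_min (h : Setup K U t B m) {x : ι → E d} {ψ : ι → ℝ} (hψ : SDSol K U t x m ψ)
    (ψ' : ι → ℝ) : val K U t x m ψ ≤ val K U t x m ψ' := by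
  rw [h.val_eq hψ]; exact h.le_val hψ x ψ'

lemma val_unique (h : Setup K U t B m) {x : ι → E d} {ψ ψ' : ι → ℝ} (hψ : SDSol K U t x m ψ)
    (hψ' : SDSol K U t x m ψ') : val K U t x m ψ = val K U t x m ψ' :=
  le_antisymm (h.val_min hψ ψ') (h.val_min hψ' ψ)

/-- the displacement functional -/
lemma val_step (h : Setup K U t B m) {x : ι → E d} {ψ : ι → ℝ} (hψ : SDSol K U t x m ψ)
    (v : ι → E d) (s : ℝ) {x' : ι → E d} (hx' : ∀ k, x' k = x k + s • v k) (ψ' : ι → ℝ) :
    val K U t x m ψ + s * ∑ k, share x m k *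
      (∫ z in cell x ψ k ∩ K, ⟪z, v k⟫ * (1 + t * U z)) ≤ val K U t x' m ψ' := by
  rw [h.val_eq hψ, Finset.mul_sum, ← Finset.sum_add_distrib]
  refine le_trans (le_of_eq (Finset.sum_congr rfl fun k _ => ?_)) (h.le_val hψ x' ψ')
  have h1 : ∀ z : E d, ⟪z, x' k⟫ * (1 + t * U z) =
      ⟪z, x k⟫ * (1 + t * U z) + s * (⟪z, v k⟫ * (1 + t * U z)) := by
    intro z
    rw [hx', inner_add_right, inner_smul_right]
    ring
  simp only [h1]
  rw [integral_add (h.integrable _ (by fun_prop)) ((h.integrable _ (by fun_prop)).const_mul _),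
    integral_const_mul]
  ring

lemma disp_bound (h : Setup K U t B m) (hKR : ∀ z ∈ K, ‖z‖ ≤ R) {x : ι → E d}
    {ψ : ι → ℝ} (hψ : SDSol K U t x m ψ) (v : ι → E d) :
    |∑ k, share x m k * (∫ z in cell x ψ k ∩ K, ⟪z, v k⟫ * (1 + t * U z))| ≤
      ∑ k, R * (m k * ‖v k‖) := by
  refine (Finset.abs_sum_le_sum_abs _ _).trans (Finset.sum_le_sum fun k _ => ?_)
  rw [abs_mul, abs_of_pos (share_nonneg x h.hm k)]
  have h1 : |∫ z in cell x ψ k ∩ K, ⟪z, v k⟫ * (1 + t * U z)| ≤ R * ‖v k‖ * mass x m k := by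
    rw [← hψ.eq, ← integral_const_mul]
    refine (abs_integral_le_integral_abs).trans ?_
    refine setIntegral_mono_on (h.integrable _ (by fun_prop)).abs
      ((h.integrable_one _).const_mul _)
      ((measurableSet_cell x ψ k).inter h.hKc.measurableSet) fun z hz => ?_
    rw [abs_mul, abs_of_nonneg (h.nonneg z)]
    exact mul_le_mul_of_nonneg_right ((abs_real_inner_le_norm _ _).trans
      (mul_le_mul_of_nonneg_right (hKR z hz.2) (norm_nonneg _))) (h.nonneg z)
  calc share x m k * |∫ z in cell x ψ k ∩ K, ⟪z, v k⟫ * (1 + t * U z)| ≤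
        share x m k * (R * ‖v k‖ * mass x m k) :=
        mul_le_mul_of_nonneg_left h1 (share_nonneg x h.hm k).le
    _ = R * ((share x m k * mass x m k) * ‖v k‖) := by ring
    _ = R * (m k * ‖v k‖) := by rw [share_mul_mass x h.hm k]

end Setup

/-- **Telescoping**: the mixed difference of the values is controlled by the perturbation. -/
theorem mixed_diff_le {K : Set (E d)} {U : E d → ℝ} {t B : ℝ} {m : ι → ℝ}
    (h : Setup K U t B m) (h0 : Setup K U 0 B m) (hKx : Convex ℝ K) (hR : 0 < R)
    (hKR : ∀ z ∈ K, ‖z‖ ≤ R) {y z : ι → E d} {ψy ψy' ψz ψz' : ι → ℝ}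
    (hy : SDSol K U 0 y m ψy) (hy' : SDSol K U t y m ψy') (hz : SDSol K U 0 z m ψz)
    (hz' : SDSol K U t z m ψz') {lam : ℝ} (hlam : 0 < lam) :
    (val K U t z m ψz' - val K U t y m ψy') - (val K U 0 z m ψz - val K U 0 y m ψy) ≤
      65 * t ^ 2 * (∫ z in K, U z ^ 2) / lam +
        295 * lam * R ^ 2 * ∑ k, m k * ‖z k - y k‖ ^ 2 := by
  set v : ι → E d := fun k => z k - y k with hv
  set G := 65 * t ^ 2 * (∫ z in K, U z ^ 2) / lam +
        295 * lam * R ^ 2 * ∑ k, m k * ‖z k - y k‖ ^ 2 with hG
  set C := ∑ k, R * (m k * ‖v k‖) with hC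
  -- for every number of steps
  have key : ∀ n : ℕ, (val K U t z m ψz' - val K U t y m ψy') -
      (val K U 0 z m ψz - val K U 0 y m ψy) ≤ G + 2 * C / ((n : ℝ) + 1) := by
    intro n
    set N : ℝ := (n : ℝ) + 1 with hN
    have hNpos : 0 < N := by positivity
    -- the intermediate sites
    set xs : ℕ → ι → E d := fun j k => y k + ((j : ℝ) / N) • v k with hxs
    choose ψt hψt using fun j => h.exists_sdsol (xs j)
    choose ψ0 hψ0 using fun j => h0.exists_sdsol (xs j)
    set bt : ℕ → ℝ := fun j => ∑ k, share (xs j) m k *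
      (∫ z in cell (xs j) (ψt j) k ∩ K, ⟪z, v k⟫ * (1 + t * U z)) with hbt
    set b0 : ℕ → ℝ := fun j => ∑ k, share (xs j) m k *
      (∫ z in cell (xs j) (ψ0 j) k ∩ K, ⟪z, v k⟫ * (1 + 0 * U z)) with hb0
    have hstep_t : ∀ j, val K U t (xs (j + 1)) m (ψt (j + 1)) - val K U t (xs j) m (ψt j) ≤
        1 / N * bt (j + 1) := by
      intro j
      have h1 := h.val_step (hψt (j + 1)) v (-(1 / N)) (x' := xs j) (fun k => by
        simp only [hxs]
        push_cast
        rw [add_assoc, ← add_smul]
        congr 2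
        ring) (ψt j)
      simp only [hbt]
      linarith
    have hstep_0 : ∀ j, 1 / N * b0 j ≤
        val K U 0 (xs (j + 1)) m (ψ0 (j + 1)) - val K U 0 (xs j) m (ψ0 j) := by
      intro j
      have h1 := h0.val_step (hψ0 j) v (1 / N) (x' := xs (j + 1)) (fun k => by
        simp only [hxs]
        push_cast
        rw [add_assoc, ← add_smul]
        congr 2
        ring) (ψ0 (j + 1))
      simp only [hb0]
      linarith
    have hdiff : ∀ j, bt j - b0 j ≤ G := by
      intro j
      have h1 := bary_bound h.hKc hKx hR hKR (xs j) h.hm (hψ0 j).cls (hψt j).cls h.hU h.ht h.hUB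
        h.htB (fun k => by have := (hψ0 j).eq k; simpa using this) (hψt j).eq v hlam
      simp only [hbt, hb0, zero_mul, add_zero, mul_one, ← Finset.sum_sub_distrib, ← mul_sub]
      exact h1
    have hbt_bd : ∀ j, |bt j| ≤ C := fun j => h.disp_bound hKR (hψt j) v
    -- telescoping sums
    have htel_t : val K U t (xs (n + 1)) m (ψt (n + 1)) - val K U t (xs 0) m (ψt 0) ≤
        ∑ j ∈ range (n + 1), 1 / N * bt (j + 1) := by
      rw [← Finset.sum_range_sub (fun j => val K U t (xs j) m (ψt j))]
      exact Finset.sum_le_sum fun j _ => hstep_t j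
    have htel_0 : ∑ j ∈ range (n + 1), 1 / N * b0 j ≤
        val K U 0 (xs (n + 1)) m (ψ0 (n + 1)) - val K U 0 (xs 0) m (ψ0 0) := by
      rw [← Finset.sum_range_sub (fun j => val K U 0 (xs j) m (ψ0 j))]
      exact Finset.sum_le_sum fun j _ => hstep_0 j
    have hx0 : xs 0 = y := by
      ext1 k; simp [hxs]
    have hxn : xs (n + 1) = z := by
      ext1 k
      simp only [hxs, hv]
      have : (((n + 1 : ℕ) : ℝ)) / N = 1 := by
        rw [hN]; push_cast; exact div_self (by positivity)
      rw [this, one_smul]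
      abel
    have e1 : val K U t (xs 0) m (ψt 0) = val K U t y m ψy' := by
      have := hψt 0
      rw [hx0] at this ⊢
      exact h.val_unique this hy'
    have e2 : val K U 0 (xs 0) m (ψ0 0) = val K U 0 y m ψy := by
      have := hψ0 0
      rw [hx0] at this ⊢
      exact h0.val_unique this hy
    have e3 : val K U t (xs (n + 1)) m (ψt (n + 1)) = val K U t z m ψz' := by
      have := hψt (n + 1)
      rw [hxn] at this ⊢
      exact h.val_unique this hz'
    have e4 : val K U 0 (xs (n + 1)) m (ψ0 (n + 1)) = val K U 0 z m ψz := by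
      have := hψ0 (n + 1)
      rw [hxn] at this ⊢
      exact h0.val_unique this hz
    rw [e1, e3] at htel_t
    rw [e2, e4] at htel_0
    have hshift : ∑ j ∈ range (n + 1), 1 / N * bt (j + 1) =
        ∑ j ∈ range (n + 1), 1 / N * bt j + 1 / N * (bt (n + 1) - bt 0) := by
      have h2 := Finset.sum_range_sub (fun j => 1 / N * bt j) (n + 1)
      rw [Finset.sum_sub_distrib] at h2
      linarith
    have hsumdiff : ∑ j ∈ range (n + 1), 1 / N * bt j - ∑ j ∈ range (n + 1), 1 / N * b0 j ≤ G := by
      rw [← Finset.sum_sub_distrib]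
      have h3 : ∀ j ∈ range (n + 1), 1 / N * bt j - 1 / N * b0 j ≤ 1 / N * G := by
        intro j _
        rw [← mul_sub]
        exact mul_le_mul_of_nonneg_left (hdiff j) (by positivity)
      refine (Finset.sum_le_sum h3).trans (le_of_eq ?_)
      rw [Finset.sum_const, Finset.card_range, nsmul_eq_mul]
      push_cast
      rw [← hN]
      field_simp
    have hend : 1 / N * (bt (n + 1) - bt 0) ≤ 2 * C / N := by
      have h4 := (abs_le.1 (hbt_bd (n + 1))).2
      have h5 := (abs_le.1 (hbt_bd 0)).1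
      have h6 : 1 / N * (bt (n + 1) - bt 0) ≤ 1 / N * (2 * C) :=
        mul_le_mul_of_nonneg_left (by linarith) (by positivity)
      refine h6.trans (le_of_eq (by ring))
    linarith
  -- let the number of steps tend to infinity
  refine le_of_forall_pos_le_add fun η hη => ?_
  have hC0 : 0 ≤ C := Finset.sum_nonneg fun k _ =>
    mul_nonneg hR.le (mul_nonneg (h.hm k).le (norm_nonneg _))
  obtain ⟨n, hn⟩ := exists_nat_gt (2 * C / η)
  have h1 := key n
  have h2 : 2 * C / ((n : ℝ) + 1) ≤ η := by
    rw [div_le_iff₀ (by positivity)]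
    rw [div_lt_iff₀ hη] at hn
    nlinarith
  linarith

end Vale.Agent.P074
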