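import Mathlib
import Vale.Agent.P074.Tele

/-! Uniqueness of the weights and the limit of vanishing perturbation, for P074. -/

set_option linter.unusedSectionVars false

open MeasureTheory Finset
open scoped RealInnerProductSpace Topology

namespace Vale.Agent.P074

variable {d : ℕ} {ι : Type*} [Fintype ι] [Nonempty ι] {R : ℝ}

/-- nonnegative continuous functions with zero integral over a convex body vanish on it -/
lemma eq_zero_of_integral {K : Set (E d)} (hKc : IsCompact K) (hKx : Convex ℝ K)
    (hKi : (interior K).Nonempty) {f : E d → ℝ} (hf : Continuous f) (h0 : ∀ z, 0 ≤ f z)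
    (hint : ∫ z in K, f z = 0) : ∀ z ∈ K, f z = 0 := by
  have hfi : IntegrableOn f K := hf.continuousOn.integrableOn_compact hKc
  have h1 : f =ᵐ[volume.restrict K] 0 :=
    (integral_eq_zero_iff_of_nonneg (fun z => h0 z) hfi).1 hint
  have h2 : f =ᵐ[volume.restrict (interior K)] 0 :=
    (ae_restrict_of_ae_restrict_of_subset interior_subset h1)
  have h3 : Set.EqOn f 0 (interior K) :=
    Measure.eqOn_open_of_ae_eq h2 isOpen_interior hf.continuousOn continuousOn_const
  have h4 : Set.EqOn f 0 (closure (interior K)) :=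
    h3.closure hf continuous_const
  intro z hz
  apply h4
  rw [hKx.closure_interior_eq_closure_of_nonempty_interior hKi]
  exact subset_closure hz

/-- the weights are unique up to an additive constant -/
theorem sd_unique {K : Set (E d)} {U : E d → ℝ} {B : ℝ} {m : ι → ℝ} (h : Setup K U 0 B m)
    (hKx : Convex ℝ K) (hKi : (interior K).Nonempty) {x : ι → E d} {ψ ψ' : ι → ℝ}
    (hψ : SDSol K U 0 x m ψ) (hψ' : SDSol K U 0 x m ψ') :
    ∃ c : ℝ, ∀ z ∈ K, Phi x ψ' z = Phi x ψ z + c := by
  classical
  set ψm : ι → ℝ := fun k => (ψ k + ψ' k) / 2 with hψm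
  -- the midpoint potential
  have hmid : ∀ z, Phi x ψm z ≤ (Phi x ψ z + Phi x ψ' z) / 2 := by
    intro z
    refine Phi_le fun k => ?_
    have h1 := le_Phi x ψ z k
    have h2 := le_Phi x ψ' z k
    simp only [hψm]
    linarith
  have hval := h.val_min hψ ψm
  have hval' := h.val_unique hψ hψ'
  have hcont : Continuous fun z => (Phi x ψ z + Phi x ψ' z) / 2 - Phi x ψm z :=
    (((continuous_Phi x ψ).add (continuous_Phi x ψ')).div_const 2).sub (continuous_Phi x ψm)
  have hi : ∀ ψ : ι → ℝ, IntegrableOn (Phi x ψ) K := fun ψ =>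
    (continuous_Phi x ψ).continuousOn.integrableOn_compact h.hKc
  have hzero : ∫ z in K, ((Phi x ψ z + Phi x ψ' z) / 2 - Phi x ψm z) = 0 := by
    refine le_antisymm ?_ (integral_nonneg fun z => sub_nonneg.2 (hmid z))
    have e1 : IntegrableOn (fun z => (Phi x ψ z + Phi x ψ' z) / 2) K :=
      ((hi ψ).add (hi ψ')).div_const 2
    rw [integral_sub e1 (hi ψm), integral_div, integral_add (hi ψ) (hi ψ')]
    unfold val at hval hval'
    simp only [zero_mul, add_zero, mul_one] at hval hval'
    have h3 : ∑ k, m k * ψm k = (∑ k, m k * ψ k + ∑ k, m k * ψ' k) / 2 := by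
      rw [← Finset.sum_add_distrib, Finset.sum_div]
      exact Finset.sum_congr rfl fun k _ => by simp only [hψm]; ring
    rw [h3] at hval
    linarith
  have heq := eq_zero_of_integral h.hKc hKx hKi hcont (fun z => sub_nonneg.2 (hmid z)) hzero
  -- the difference takes finitely many values
  have hvals : Set.MapsTo (fun z => Phi x ψ' z - Phi x ψ z) K
      (Set.range fun k => ψ k - ψ' k) := by
    intro z hz
    obtain ⟨k, hk⟩ := exists_Phi_eq x ψm z
    refine ⟨k, ?_⟩
    have h1 := le_Phi x ψ z k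
    have h2 := le_Phi x ψ' z k
    have h3 := heq z hz
    simp only [hψm] at hk
    simp only
    linarith
  have hfinite : (Set.range fun k => ψ k - ψ' k).Finite := Set.finite_range _
  have hKp : IsPreconnected K := hKx.isPreconnected
  obtain ⟨c, _, hc⟩ := hKp.eqOn_const_of_mapsTo hfinite.isDiscrete
    (((continuous_Phi x ψ').sub (continuous_Phi x ψ)).continuousOn) hvals (Set.range_nonempty _)
  refine ⟨c, fun z hz => ?_⟩
  have h9 : Phi x ψ' z - Phi x ψ z = c := hc hz
  linarith

/-- the linear bound at positive perturbation size -/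
lemma lin_bound {K : Set (E d)} {U : E d → ℝ} {t B : ℝ} {m : ι → ℝ}
    (h : Setup K U t B m) (h0 : Setup K U 0 B m) (ht : 0 < t) (hKx : Convex ℝ K) (hR : 0 < R)
    (hKR : ∀ z ∈ K, ‖z‖ ≤ R) {y z : ι → E d} {ψy ψz' : ι → ℝ}
    (hy : SDSol K U 0 y m ψy) (hz' : SDSol K U t z m ψz') {lam : ℝ} (hlam : 0 < lam) :
    ∫ p in K, (Phi z ψz' p - Phi y ψy p) * U p ≤
      65 * (∫ z in K, U z ^ 2) / lam + 295 * lam * R ^ 2 * ∑ k, m k * ‖z k - y k‖ ^ 2 := by
  obtain ⟨ψy', hy'⟩ := h.exists_sdsol y
  obtain ⟨ψz, hz⟩ := h0.exists_sdsol z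
  have hmain := mixed_diff_le h h0 hKx hR hKR hy hy' hz hz' (mul_pos ht hlam)
  have h1 := h0.val_min hz ψz'
  have h2 := h.val_min hy' ψy
  have hiU : ∀ (x : ι → E d) (ψ : ι → ℝ), IntegrableOn (fun p => Phi x ψ p * U p) K := by
    intro x ψ
    have := integrableOn_mulU h.hKc h.hU h.hUB Set.univ (continuous_Phi x ψ)
    rwa [Set.univ_inter] at this
  have hi : ∀ (x : ι → E d) (ψ : ι → ℝ), IntegrableOn (Phi x ψ) K := fun x ψ =>
    (continuous_Phi x ψ).continuousOn.integrableOn_compact h.hKc
  have hval : ∀ (x : ι → E d) (ψ : ι → ℝ), val K U t x m ψ = val K U 0 x m ψ +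
      t * ∫ p in K, Phi x ψ p * U p := by
    intro x ψ
    unfold val
    have e1 : ∀ p, Phi x ψ p * (1 + t * U p) = Phi x ψ p + t * (Phi x ψ p * U p) := fun p => by
      ring
    simp only [e1, zero_mul, add_zero, mul_one]
    rw [integral_add (hi x ψ) ((hiU x ψ).const_mul t), integral_const_mul]
    ring
  have h3 := hval z ψz'
  have h4 := hval y ψy
  have h5 : ∫ p in K, (Phi z ψz' p - Phi y ψy p) * U p =
      (∫ p in K, Phi z ψz' p * U p) - ∫ p in K, Phi y ψy p * U p := by
    rw [← integral_sub (hiU _ _) (hiU _ _)]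
    congr 1; ext p; ring
  have h6 : t * ∫ p in K, (Phi z ψz' p - Phi y ψy p) * U p ≤
      65 * t ^ 2 * (∫ z in K, U z ^ 2) / (t * lam) +
        295 * (t * lam) * R ^ 2 * ∑ k, m k * ‖z k - y k‖ ^ 2 := by
    rw [h5, mul_sub]
    linarith
  have h7 : 65 * t ^ 2 * (∫ z in K, U z ^ 2) / (t * lam) +
        295 * (t * lam) * R ^ 2 * ∑ k, m k * ‖z k - y k‖ ^ 2 =
      t * (65 * (∫ z in K, U z ^ 2) / lam +
        295 * lam * R ^ 2 * ∑ k, m k * ‖z k - y k‖ ^ 2) := by
    field_simp
  rw [h7] at h6
  exact le_of_mul_le_mul_left h6 ht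

lemma Phi_shift (x : ι → E d) (ψ : ι → ℝ) (c : ℝ) (z : E d) :
    Phi x (fun k => ψ k - c) z = Phi x ψ z + c := by
  refine le_antisymm (Phi_le fun k => ?_) ?_
  · have := le_Phi x ψ z k; linarith
  · have : Phi x ψ z ≤ Phi x (fun k => ψ k - c) z - c := Phi_le fun k => by
      have := le_Phi x (fun k => ψ k - c) z k
      linarith
    linarith

lemma cell_shift (x : ι → E d) (ψ : ι → ℝ) (c : ℝ) (k : ι) :
    cell x (fun k => ψ k - c) k = cell x ψ k := by
  ext z
  simp only [cell, Set.mem_ofPred_eq]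
  refine forall_congr' fun l => ?_
  refine imp_congr_right fun _ => ?_
  constructor <;> intro h <;> linarith

/-- weights of solutions are bounded up to normalization -/
lemma sdsol_bounded {K : Set (E d)} {U : E d → ℝ} {t B : ℝ} {m : ι → ℝ} (h : Setup K U t B m)
    (hKR : ∀ z ∈ K, ‖z‖ ≤ R) {x : ι → E d} {L : ℝ} (hL : ∀ k, ‖x k‖ ≤ L) {ψ : ι → ℝ}
    (hψ : SDSol K U t x m ψ) (k l : ι) : ψ k - ψ l ≤ 2 * R * L := by
  have hne : (cell x ψ k ∩ K).Nonempty := by
    by_contra hne
    rw [Set.not_nonempty_iff_eq_empty] at hne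
    have h1 := hψ.eq k
    rw [hne] at h1
    simp only [Measure.restrict_empty, integral_zero_measure] at h1
    exact (mass_pos x h.hm k).ne h1
  obtain ⟨z, hz, hzK⟩ := hne
  have hR0 : 0 ≤ R := (norm_nonneg z).trans (hKR z hzK)
  have hL0 : 0 ≤ L := (norm_nonneg _).trans (hL k)
  by_cases hkl : x l = x k
  · rw [hψ.cls k l hkl.symm]
    simp only [sub_self]
    positivity
  · have h1 := hz l hkl
    have h2 : |⟪z, x k⟫| ≤ R * L := (abs_real_inner_le_norm _ _).trans
      (mul_le_mul (hKR z hzK) (hL k) (norm_nonneg _) hR0)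
    have h3 : |⟪z, x l⟫| ≤ R * L := (abs_real_inner_le_norm _ _).trans
      (mul_le_mul (hKR z hzK) (hL l) (norm_nonneg _) hR0)
    have h4 := (abs_le.1 h2).2
    have h5 := (abs_le.1 h3).1
    linarith

/-- the potentials converge as the perturbation tends to zero -/
theorem limit_potential {K : Set (E d)} {U : E d → ℝ} {t₀ B : ℝ} {m : ι → ℝ}
    (ht₀ : 0 < t₀) (h : ∀ t, 0 ≤ t → t ≤ t₀ → Setup K U t B m) (hKx : Convex ℝ K)
    (hKi : (interior K).Nonempty) (x : ι → E d) {ψ : ι → ℝ} (hψ : SDSol K U 0 x m ψ) {c : ℝ}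
    (hc : ∀ t, 0 < t → t ≤ t₀ → ∀ ψ', SDSol K U t x m ψ' → ∫ z in K, Phi x ψ' z * U z ≤ c) :
    ∫ z in K, Phi x ψ z * U z ≤ c := by
  classical
  have h0 := h 0 le_rfl ht₀.le
  obtain ⟨R, hR⟩ := h0.hKc.isBounded.exists_norm_le
  obtain ⟨L, hL0, hL⟩ : ∃ L : ℝ, 0 ≤ L ∧ ∀ k, ‖x k‖ ≤ L :=
    ⟨∑ k, ‖x k‖, Finset.sum_nonneg fun k _ => norm_nonneg _,
      fun k => Finset.single_le_sum (f := fun k => ‖x k‖) (fun l _ => norm_nonneg _) (mem_univ k)⟩
  -- a sequence of perturbation sizes
  set t : ℕ → ℝ := fun n => t₀ / ((n : ℝ) + 1) with ht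
  have htpos : ∀ n, 0 < t n := fun n => by simp only [ht]; positivity
  have htle : ∀ n, t n ≤ t₀ := fun n => by
    simp only [ht]
    exact div_le_self ht₀.le (by have : (0:ℝ) ≤ n := Nat.cast_nonneg n; linarith)
  have htlim : Filter.Tendsto t Filter.atTop (𝓝 0) := by
    have := tendsto_one_div_add_atTop_nhds_zero_nat.const_mul t₀
    simp only [mul_zero] at this
    refine this.congr fun n => ?_
    simp only [ht]; ring
  choose ψs hψs using fun n => (h (t n) (htpos n).le (htle n)).exists_sdsol x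
  obtain ⟨k0⟩ := ‹Nonempty ι›
  -- normalize
  set χ : ℕ → ι → ℝ := fun n k => ψs n k - ψs n k0 with hχ
  have hχb : ∀ n, χ n ∈ Metric.closedBall (0 : ι → ℝ) (|2 * R * L|) := by
    intro n
    rw [mem_closedBall_zero_iff, pi_norm_le_iff_of_nonneg (abs_nonneg _)]
    intro k
    rw [Real.norm_eq_abs, abs_le]
    have h1 := sdsol_bounded (h (t n) (htpos n).le (htle n)) hR hL (hψs n) k k0
    have h2 := sdsol_bounded (h (t n) (htpos n).le (htle n)) hR hL (hψs n) k0 k
    have h3 := le_abs_self (2 * R * L)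
    simp only [hχ]
    constructor <;> linarith
  haveI : Nonempty ι := ⟨k0⟩
  obtain ⟨χi, _, φ, hφ, hlim⟩ :=
    (isCompact_closedBall (0 : ι → ℝ) (|2 * R * L|)).tendsto_subseq hχb
  have hlimk : ∀ k, Filter.Tendsto (fun n => χ (φ n) k) Filter.atTop (𝓝 (χi k)) := fun k =>
    (tendsto_pi_nhds.1 hlim k)
  -- the limit is a solution
  have hcls : ∀ k l, x k = x l → χi k = χi l := by
    intro k l hkl
    refine tendsto_nhds_unique (hlimk k) ((hlimk l).congr fun n => ?_)
    simp only [hχ, (hψs (φ n)).cls k l hkl]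
  have hmassn : ∀ n k, ∫ z in cell x (χ n) k ∩ K, (1 + t n * U z) = mass x m k := by
    intro n k
    simp only [hχ]
    rw [cell_shift]
    exact (hψs n).eq k
  haveI hfinK : IsFiniteMeasure (volume.restrict K) := ⟨by
    rw [Measure.restrict_apply_univ]; exact h0.hKc.measure_lt_top⟩
  have hB0 : 0 ≤ B := (abs_nonneg _).trans (h0.hUB 0)
  have hvolK : 0 ≤ volume.real K := measureReal_nonneg
  have hreal : ∀ (A : Set (E d)), MeasurableSet A → ∫ z in A ∩ K, (1 : ℝ) =
      (volume.restrict K).real A := by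
    intro A hA
    rw [setIntegral_const, smul_eq_mul, mul_one, measureReal_restrict_apply hA]
  have hsol : SDSol K U 0 x m χi := by
    refine ⟨hcls, fun k => ?_⟩
    have hsum : ∑ k, m k = (volume.restrict K).real Set.univ := by
      rw [h0.hsum, measureReal_restrict_apply MeasurableSet.univ, Set.univ_inter]
    have hle : ∀ k, (volume.restrict K).real (cell x χi k) ≤ mass x m k := by
      intro k
      refine cell_le_of_bump (mass_pos x h0.hm k).le fun s hs => ?_
      -- eventually the shrunken cell is inside the approximating cells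
      have hev : ∀ᶠ n in Filter.atTop, ∀ l, |χ (φ n) l - χi l| < s / 2 := by
        rw [Filter.eventually_all]
        intro l
        have := (Metric.tendsto_nhds.1 (hlimk l)) (s / 2) (by positivity)
        filter_upwards [this] with n hn
        rwa [Real.dist_eq] at hn
      have hbound : ∀ᶠ n in Filter.atTop, (volume.restrict K).real
          (cell x (bump x χi k s) k) ≤ mass x m k + t (φ n) * (B * volume.real K) := by
        filter_upwards [hev] with n hn
        have hsub : cell x (bump x χi k s) k ⊆ cell x (χ (φ n)) k := by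
          intro z hz l hl
          have h1 := hz l hl
          unfold bump at h1
          simp only [hl, if_false, if_true] at h1
          have h2 := (abs_lt.1 (hn l))
          have h3 := (abs_lt.1 (hn k))
          linarith [h2.1, h3.2]
        have h1 : (volume.restrict K).real (cell x (bump x χi k s) k) ≤
            (volume.restrict K).real (cell x (χ (φ n)) k) := measureReal_mono hsub
        refine h1.trans ?_
        rw [← hreal _ (measurableSet_cell x _ k), ← hmassn (φ n) k]
        have hi1 : IntegrableOn (fun _ : E d => (1 : ℝ)) (cell x (χ (φ n)) k ∩ K) :=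
          integrableOn_cont h0.hKc _ continuous_const
        have hiU := integrableOn_U h0.hKc h0.hU h0.hUB (cell x (χ (φ n)) k)
        rw [integral_add hi1 (hiU.const_mul _), integral_const_mul]
        have h2 : |∫ z in cell x (χ (φ n)) k ∩ K, U z| ≤ B * volume.real K := by
          have h3 := norm_setIntegral_le_of_norm_le_const (μ := volume)
            (s := cell x (χ (φ n)) k ∩ K) (f := U) (C := B)
            ((measure_mono Set.inter_subset_right).trans_lt h0.hKc.measure_lt_top)
            (fun z _ => by rw [Real.norm_eq_abs]; exact h0.hUB z)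
          rw [Real.norm_eq_abs] at h3
          refine h3.trans (mul_le_mul_of_nonneg_left ?_ hB0)
          exact measureReal_mono Set.inter_subset_right h0.hKc.measure_lt_top.ne
        have h4 := (abs_le.1 h2).1
        have h5 := mul_le_mul_of_nonneg_left h4 (htpos (φ n)).le
        linarith
      have hlim2 : Filter.Tendsto (fun n => mass x m k + t (φ n) * (B * volume.real K))
          Filter.atTop (𝓝 (mass x m k + 0 * (B * volume.real K))) :=
        tendsto_const_nhds.add ((htlim.comp hφ.tendsto_atTop).mul_const _)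
      rw [zero_mul, add_zero] at hlim2
      exact ge_of_tendsto hlim2 hbound
    have := cell_mass_eq_of_le Measure.absolutelyContinuous_restrict x h0.hm hsum hcls hle k
    simp only [zero_mul, add_zero]
    rw [hreal _ (measurableSet_cell x χi k)]
    exact this
  -- conclude
  obtain ⟨c', hc'⟩ := sd_unique h0 hKx hKi hsol hψ
  have hiU : ∀ (ψ : ι → ℝ), IntegrableOn (fun p => Phi x ψ p * U p) K := by
    intro ψ
    have := integrableOn_mulU h0.hKc h0.hU h0.hUB Set.univ (continuous_Phi x ψ)
    rwa [Set.univ_inter] at this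
  have hiU1 : IntegrableOn U K := by
    have := integrableOn_U h0.hKc h0.hU h0.hUB Set.univ
    rwa [Set.univ_inter] at this
  have hshift : ∀ (ψ : ι → ℝ) (a : ℝ), ∫ p in K, (Phi x ψ p + a) * U p =
      ∫ p in K, Phi x ψ p * U p := by
    intro ψ a
    have e1 : ∀ p, (Phi x ψ p + a) * U p = Phi x ψ p * U p + a * U p := fun p => by ring
    simp only [e1]
    rw [integral_add (hiU ψ) (hiU1.const_mul a), integral_const_mul, h0.hU0, mul_zero, add_zero]
  have e2 : ∫ z in K, Phi x ψ z * U z = ∫ z in K, Phi x χi z * U z := by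
    rw [← hshift χi c']
    refine setIntegral_congr_fun h0.hKc.measurableSet fun z hz => ?_
    rw [hc' z hz]
  rw [e2]
  have hle : ∀ n, ∫ z in K, Phi x (χ (φ n)) z * U z ≤ c := by
    intro n
    have h1 := hc (t (φ n)) (htpos _) (htle _) _ (hψs (φ n))
    have e3 : ∀ z, Phi x (χ (φ n)) z = Phi x (ψs (φ n)) z + ψs (φ n) k0 := fun z =>
      Phi_shift x _ _ z
    simp only [e3]
    rw [hshift]
    exact h1
  have hconv : Filter.Tendsto (fun n => ∫ z in K, Phi x (χ (φ n)) z * U z) Filter.atTop
      (𝓝 (∫ z in K, Phi x χi z * U z)) := by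
    rw [tendsto_iff_dist_tendsto_zero]
    have hz : Filter.Tendsto (fun n => ‖χ (φ n) - χi‖ * (B * volume.real K)) Filter.atTop
        (𝓝 0) := by
      have := (tendsto_iff_norm_sub_tendsto_zero.1 hlim).mul_const (B * volume.real K)
      simpa using this
    refine squeeze_zero (fun _ => dist_nonneg) (fun n => ?_) hz
    rw [Real.dist_eq, ← integral_sub (hiU _) (hiU _)]
    have h3 := norm_setIntegral_le_of_norm_le_const (μ := volume)
      (s := K) (f := fun z => Phi x (χ (φ n)) z * U z - Phi x χi z * U z)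
      (C := ‖χ (φ n) - χi‖ * B) h0.hKc.measure_lt_top
      (fun z _ => by
        rw [← sub_mul, Real.norm_eq_abs, abs_mul]
        exact mul_le_mul (Phi_sub_le x _ _ z) (h0.hUB z) (abs_nonneg _) (norm_nonneg _))
    rw [Real.norm_eq_abs, mul_assoc] at h3
    exact h3
  exact le_of_tendsto hconv (Filter.Eventually.of_forall hle)

end Vale.Agent.P074
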