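import Mathlib
import Vale.Agent.P074.Lim
import Vale.Agent.P074.DM

/-! Stability of optimal maps onto finitely supported measures, for P074. -/

set_option linter.unusedSectionVars false

open MeasureTheory Finset
open scoped RealInnerProductSpace Topology

namespace Vale.Agent.P074

variable {d : ℕ} {ι : Type*} [Fintype ι] [Nonempty ι] {R : ℝ}

/-- **Lipschitz stability of the potentials** in terms of the transport cost between the targets. -/
theorem pot_bound {K : Set (E d)} (hKc : IsCompact K) (hKx : Convex ℝ K)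
    (hKi : (interior K).Nonempty) (hR : 0 < R) (hKR : ∀ z ∈ K, ‖z‖ ≤ R) {m : ι → ℝ}
    (hm : ∀ k, 0 < m k) (hsum : ∑ k, m k = volume.real K) {y z : ι → E d} {ψy ψz : ι → ℝ}
    (hy : ∀ k l, y k = y l → ψy k = ψy l) (hz : ∀ k l, z k = z l → ψz k = ψz l)
    (hy' : ∀ k, ∫ p in cell y ψy k ∩ K, (1 : ℝ) = mass y m k)
    (hz' : ∀ k, ∫ p in cell z ψz k ∩ K, (1 : ℝ) = mass z m k) :
    ∃ c : ℝ, ∫ p in K, (Phi z ψz p - c - Phi y ψy p) ^ 2 ≤
      76700 * R ^ 2 * ∑ k, m k * ‖z k - y k‖ ^ 2 := by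
  have hvol : 0 < volume.real K := by
    rw [← hsum]; exact Finset.sum_pos (fun k _ => hm k) univ_nonempty
  have hcont : Continuous fun p => Phi z ψz p - Phi y ψy p :=
    (continuous_Phi z ψz).sub (continuous_Phi y ψy)
  set f : E d → ℝ := fun p => Phi z ψz p - Phi y ψy p with hf
  have hfi : IntegrableOn f K := hcont.continuousOn.integrableOn_compact hKc
  have h1i : IntegrableOn (fun _ : E d => (1 : ℝ)) K :=
    continuous_const.continuousOn.integrableOn_compact hKc
  set c := (∫ p in K, f p) / volume.real K with hc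
  set U : E d → ℝ := K.indicator fun p => f p - c with hU
  have hUm : Measurable U := (hcont.measurable.sub_const c).indicator hKc.measurableSet
  obtain ⟨B, hB0, hB⟩ : ∃ B : ℝ, 0 ≤ B ∧ ∀ p, |U p| ≤ B := by
    obtain ⟨B, hB⟩ := hKc.exists_bound_of_continuousOn
      ((hcont.sub continuous_const).continuousOn (s := K) : ContinuousOn (fun p => f p - c) K)
    refine ⟨max B 0, le_max_right _ _, fun p => ?_⟩
    by_cases hp : p ∈ K
    · rw [hU, Set.indicator_of_mem hp]
      exact (hB p hp).trans (le_max_left _ _)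
    · rw [hU, Set.indicator_of_notMem hp, abs_zero]; exact le_max_right _ _
  have hUK : ∀ p ∈ K, U p = f p - c := fun p hp => by rw [hU, Set.indicator_of_mem hp]
  have hU0 : ∫ p in K, U p = 0 := by
    rw [setIntegral_congr_fun hKc.measurableSet hUK, integral_sub hfi (by simpa using h1i.const_mul c),
      setIntegral_const, smul_eq_mul, hc]
    field_simp
    ring
  set t₀ : ℝ := 1 / (2 * (B + 1)) with ht₀
  have ht₀pos : 0 < t₀ := by positivity
  have hset : ∀ t, 0 ≤ t → t ≤ t₀ → Setup K U t B m := by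
    intro t ht htt
    refine ⟨hKc, hUm, hB, ht, ?_, hm, hU0, hsum⟩
    have h1 : t * B ≤ t₀ * (B + 1) := by
      have := mul_le_mul htt (by linarith : B ≤ B + 1) hB0 ht₀pos.le
      exact this
    have h2 : t₀ * (B + 1) = 1 / 2 := by rw [ht₀]; field_simp
    linarith
  have h0 := hset 0 le_rfl ht₀pos.le
  have hsy : SDSol K U 0 y m ψy := ⟨hy, fun k => by simpa using hy' k⟩
  have hsz : SDSol K U 0 z m ψz := ⟨hz, fun k => by simpa using hz' k⟩
  set V := ∑ k, m k * ‖z k - y k‖ ^ 2 with hV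
  have hiU : ∀ (x : ι → E d) (ψ : ι → ℝ), IntegrableOn (fun p => Phi x ψ p * U p) K := by
    intro x ψ
    have := integrableOn_mulU hKc hUm hB Set.univ (continuous_Phi x ψ)
    rwa [Set.univ_inter] at this
  have hiU1 : IntegrableOn U K := by
    have := integrableOn_U hKc hUm hB Set.univ
    rwa [Set.univ_inter] at this
  have hiU2 := integrableOn_U2 hKc hUm hB
  have hlim := limit_potential ht₀pos hset hKx hKi z hsz
    (c := 65 * (∫ p in K, U p ^ 2) / 130 + 295 * 130 * R ^ 2 * V + ∫ p in K, Phi y ψy p * U p)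
    (fun t ht htt ψ' hψ' => by
      have h1 := lin_bound (hset t ht.le htt) h0 ht hKx hR hKR hsy hψ' (lam := 130) (by norm_num)
      have h2 : ∫ p in K, (Phi z ψ' p - Phi y ψy p) * U p =
          (∫ p in K, Phi z ψ' p * U p) - ∫ p in K, Phi y ψy p * U p := by
        rw [← integral_sub (hiU _ _) (hiU _ _)]
        congr 1; ext p; ring
      rw [h2] at h1
      linarith)
  have h3 : (∫ p in K, Phi z ψz p * U p) - ∫ p in K, Phi y ψy p * U p = ∫ p in K, U p ^ 2 := by
    rw [← integral_sub (hiU _ _) (hiU _ _)]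
    have h4 : ∫ p in K, (Phi z ψz p * U p - Phi y ψy p * U p) = ∫ p in K, (U p ^ 2 + c * U p) := by
      refine setIntegral_congr_fun hKc.measurableSet fun p hp => ?_
      have e5 := hUK p hp
      have e6 : f p = Phi z ψz p - Phi y ψy p := rfl
      rw [e6] at e5
      change Phi z ψz p * U p - Phi y ψy p * U p = U p ^ 2 + c * U p
      rw [e5]
      ring
    rw [h4, integral_add hiU2 (hiU1.const_mul c), integral_const_mul, hU0]
    ring
  refine ⟨c, ?_⟩
  have h5 : ∫ p in K, (Phi z ψz p - c - Phi y ψy p) ^ 2 = ∫ p in K, U p ^ 2 := by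
    refine setIntegral_congr_fun hKc.measurableSet fun p hp => ?_
    have e5 := hUK p hp
    have e6 : f p = Phi z ψz p - Phi y ψy p := rfl
    rw [e6] at e5
    change (Phi z ψz p - c - Phi y ψy p) ^ 2 = U p ^ 2
    rw [e5]
    ring
  rw [h5]
  linarith

open Classical in
/-- the optimal map onto the finitely supported measure -/
noncomputable def dmap (x : ι → E d) (m : ι → ℝ) (ψ : ι → ℝ) (z : E d) : E d :=
  ∑ k, (share x m k * (cell x ψ k).indicator (fun _ => (1 : ℝ)) z) • x k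

lemma measurable_dmap (x : ι → E d) (m : ι → ℝ) (ψ : ι → ℝ) : Measurable (dmap x m ψ) := by
  unfold dmap
  refine Finset.measurable_sum _ fun k _ => ?_
  exact ((measurable_const.indicator (measurableSet_cell x ψ k)).const_mul _).smul_const _

lemma dmap_eq {x : ι → E d} {m : ι → ℝ} (hm : ∀ k, 0 < m k) {ψ : ι → ℝ}
    (hψ : ∀ k l, x k = x l → ψ k = ψ l) {z : E d} {k : ι} (hz : z ∈ cell x ψ k) :
    dmap x m ψ z = x k := by
  unfold dmap
  have h1 : ∀ l, (share x m l * (cell x ψ l).indicator (fun _ => (1 : ℝ)) z) • x l =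
      (share x m l * (cell x ψ l).indicator (fun _ => (1 : ℝ)) z) • x k := by
    intro l
    by_cases hl : z ∈ cell x ψ l
    · rw [eq_of_mem_cell hl hz]
    · rw [Set.indicator_of_notMem hl]; simp
  rw [Finset.sum_congr rfl fun l _ => h1 l, ← Finset.sum_smul,
    sum_share_indicator x hm hψ ⟨k, hz⟩, one_smul]

lemma norm_dmap_le {x : ι → E d} {m : ι → ℝ} (hm : ∀ k, 0 < m k) {ψ : ι → ℝ}
    (hψ : ∀ k l, x k = x l → ψ k = ψ l) {L : ℝ} (hL : ∀ k, ‖x k‖ ≤ L) (z : E d) :
    ‖dmap x m ψ z‖ ≤ L := by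
  by_cases h : ∃ k, z ∈ cell x ψ k
  · obtain ⟨k, hk⟩ := h
    rw [dmap_eq hm hψ hk]; exact hL k
  · push Not at h
    unfold dmap
    rw [Finset.sum_eq_zero fun k _ => by rw [Set.indicator_of_notMem (h k)]; simp, norm_zero]
    obtain ⟨k⟩ := ‹Nonempty ι›
    exact (norm_nonneg _).trans (hL k)

lemma dmap_subgradient {x : ι → E d} {m : ι → ℝ} (hm : ∀ k, 0 < m k) {ψ : ι → ℝ}
    (hψ : ∀ k l, x k = x l → ψ k = ψ l) :
    ∀ᵐ z : E d, ∀ z' : E d, Phi x ψ z + inner ℝ (dmap x m ψ z) (z' - z) ≤ Phi x ψ z' := by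
  filter_upwards [ae_exists_cell x ψ] with z hz z'
  obtain ⟨k, hk⟩ := hz
  rw [dmap_eq hm hψ hk, Phi_eq_of_mem_cell hψ hk]
  refine le_trans (le_of_eq ?_) (le_Phi x ψ z' k)
  rw [inner_sub_right, real_inner_comm z (x k), real_inner_comm z' (x k)]
  ring

lemma map_dmap {K : Set (E d)} (hKc : IsCompact K) {x : ι → E d} {m : ι → ℝ} (hm : ∀ k, 0 < m k)
    {ψ : ι → ℝ} (hψ : ∀ k l, x k = x l → ψ k = ψ l)
    (hψ' : ∀ k, ∫ p in cell x ψ k ∩ K, (1 : ℝ) = mass x m k) :
    (volume.restrict K).map (dmap x m ψ) =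
      ∑ k, ENNReal.ofReal (m k) • Measure.dirac (x k) := by
  classical
  ext A hA
  have hpre : MeasurableSet (dmap x m ψ ⁻¹' A) := measurable_dmap x m ψ hA
  rw [Measure.map_apply (measurable_dmap x m ψ) hA, Measure.restrict_apply hpre,
    Measure.finsetSum_apply]
  simp only [Measure.smul_apply, smul_eq_mul, Measure.dirac_apply' _ hA]
  -- pass to real numbers
  have hfin : volume (dmap x m ψ ⁻¹' A ∩ K) ≠ ⊤ :=
    ((measure_mono Set.inter_subset_right).trans_lt hKc.measure_lt_top).ne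
  have hF : IntegrableOn ((dmap x m ψ ⁻¹' A).indicator fun _ => (1 : ℝ)) K :=
    (continuous_const.continuousOn.integrableOn_compact hKc).indicator hpre
  have h1 : volume.real (dmap x m ψ ⁻¹' A ∩ K) =
      ∫ p in K, (dmap x m ψ ⁻¹' A).indicator (fun _ => (1 : ℝ)) p := by
    rw [integral_indicator hpre, Measure.restrict_restrict hpre, setIntegral_const, smul_eq_mul,
      mul_one]
  have h2 : volume.real (dmap x m ψ ⁻¹' A ∩ K) = ∑ k, m k * A.indicator (fun _ => (1 : ℝ)) (x k) := by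
    rw [h1, ← sum_share_integral hKc.measurableSet x hm hψ hF]
    refine Finset.sum_congr rfl fun k _ => ?_
    have h3 : ∫ p in cell x ψ k ∩ K, (dmap x m ψ ⁻¹' A).indicator (fun _ => (1 : ℝ)) p =
        ∫ p in cell x ψ k ∩ K, A.indicator (fun _ => (1 : ℝ)) (x k) * 1 := by
      refine setIntegral_congr_fun ((measurableSet_cell x ψ k).inter hKc.measurableSet)
        fun p hp => ?_
      have h4 := dmap_eq hm hψ hp.1
      simp only [mul_one]
      by_cases hk : x k ∈ A
      · rw [Set.indicator_of_mem hk, Set.indicator_of_mem (by rw [Set.mem_preimage, h4]; exact hk)]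
      · rw [Set.indicator_of_notMem hk,
          Set.indicator_of_notMem (by rw [Set.mem_preimage, h4]; exact hk)]
    rw [h3, integral_const_mul, hψ']
    have := share_mul_mass x hm k
    calc share x m k * (A.indicator (fun _ => (1 : ℝ)) (x k) * mass x m k) =
        (share x m k * mass x m k) * A.indicator (fun _ => (1 : ℝ)) (x k) := by ring
      _ = _ := by rw [this]
  rw [← ENNReal.ofReal_toReal hfin]
  change ENNReal.ofReal (volume.real (dmap x m ψ ⁻¹' A ∩ K)) = _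
  rw [h2, ENNReal.ofReal_sum_of_nonneg fun k _ => mul_nonneg (hm k).le
    (Set.indicator_nonneg (fun _ _ => zero_le_one) _)]
  refine Finset.sum_congr rfl fun k _ => ?_
  rw [ENNReal.ofReal_mul (hm k).le]
  congr 1
  by_cases hk : x k ∈ A
  · rw [Set.indicator_of_mem hk, Set.indicator_of_mem hk]; simp
  · rw [Set.indicator_of_notMem hk, Set.indicator_of_notMem hk]; simp

/-- a subgradient pair on `K` -/
structure IsPair (K : Set (E d)) (L : ℝ) (φ : E d → ℝ) (T : E d → E d) : Prop where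
  cont : Continuous φ
  meas : Measurable T
  bdd : ∀ x, ‖T x‖ ≤ L
  sub : ∀ᵐ x ∂(volume.restrict K), ∀ x' ∈ K, φ x + inner ℝ (T x) (x' - x) ≤ φ x'

/-- **Stability of optimal maps for finitely supported targets** with exponent `1/3`. -/
theorem discrete_stability {K : Set (E d)} (hKc : IsCompact K) (hKx : Convex ℝ K)
    (hKi : (interior K).Nonempty) {L : ℝ} (hL : 0 < L) :
    ∃ C : ℝ, 0 ≤ C ∧ ∀ (ι : Type) [Fintype ι] [Nonempty ι] (m : ι → ℝ) (y z : ι → E d),
      (∀ k, 0 < m k) → ∑ k, m k = volume.real K → (∀ k, ‖y k‖ ≤ L) → (∀ k, ‖z k‖ ≤ L) →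
      ∃ (φ₀ φ₁ : E d → ℝ) (T₀ T₁ : E d → E d), IsPair K L φ₀ T₀ ∧ IsPair K L φ₁ T₁ ∧
        (volume.restrict K).map T₀ = ∑ k, ENNReal.ofReal (m k) • Measure.dirac (y k) ∧
        (volume.restrict K).map T₁ = ∑ k, ENNReal.ofReal (m k) • Measure.dirac (z k) ∧
        ∫ x in K, ‖T₀ x - T₁ x‖ ^ 2 ≤ C * (∑ k, m k * ‖z k - y k‖ ^ 2) ^ (1 / 3 : ℝ) := by
  obtain ⟨R, hRpos, hR⟩ : ∃ R : ℝ, 0 < R ∧ ∀ z ∈ K, ‖z‖ ≤ R := by
    obtain ⟨R, hR⟩ := hKc.isBounded.exists_norm_le
    exact ⟨max R 1, by positivity, fun z hz => (hR z hz).trans (le_max_left _ _)⟩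
  obtain ⟨C1, h0, hC1, hh0, hDM⟩ := DM hKc hKx hKi hL
  have hvol : 0 < volume.real K := by
    have : 0 < volume (interior K) := isOpen_interior.measure_pos volume hKi
    have h2 : 0 < volume K := this.trans_le (measure_mono interior_subset)
    exact ENNReal.toReal_pos h2.ne' hKc.measure_lt_top.ne
  obtain ⟨W, hW⟩ : ∃ W : ℝ, W = volume.real K * (4 * L ^ 2) := ⟨_, rfl⟩
  have hWpos : 0 < W := by rw [hW]; positivity
  obtain ⟨C2, hC2⟩ : ∃ C2 : ℝ, C2 = 76700 * R ^ 2 := ⟨_, rfl⟩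
  have hC2pos : 0 < C2 := by rw [hC2]; positivity
  refine ⟨C1 * (C2 * W / h0 ^ 2 + h0) / W ^ (1 / 3 : ℝ), by positivity, ?_⟩
  intro ι _ _ m y z hm hsum hyL hzL
  have hs : Setup K (fun _ => 0) 0 0 m := ⟨hKc, measurable_const, by simp, le_rfl, by norm_num, hm,
    by simp, hsum⟩
  obtain ⟨ψy, hψy⟩ := hs.exists_sdsol y
  obtain ⟨ψz, hψz⟩ := hs.exists_sdsol z
  have hy' : ∀ k, ∫ p in cell y ψy k ∩ K, (1 : ℝ) = mass y m k := fun k => by
    simpa using hψy.eq k
  have hz' : ∀ k, ∫ p in cell z ψz k ∩ K, (1 : ℝ) = mass z m k := fun k => by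
    simpa using hψz.eq k
  obtain ⟨c, hc⟩ := pot_bound hKc hKx hKi hRpos hR hm hsum hψy.cls hψz.cls hy' hz'
  have hp0 : IsPair K L (Phi y ψy) (dmap y m ψy) := ⟨continuous_Phi y ψy, measurable_dmap y m ψy,
    norm_dmap_le hm hψy.cls hyL, ae_restrict_of_ae ((dmap_subgradient hm hψy.cls).mono
      fun x hx x' _ => hx x')⟩
  have hp1 : IsPair K L (fun p => Phi z ψz p - c) (dmap z m ψz) :=
    ⟨(continuous_Phi z ψz).sub continuous_const, measurable_dmap z m ψz,
    norm_dmap_le hm hψz.cls hzL, ae_restrict_of_ae ((dmap_subgradient hm hψz.cls).mono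
      fun x hx x' _ => by have := hx x'; linarith)⟩
  refine ⟨Phi y ψy, fun p => Phi z ψz p - c, dmap y m ψy, dmap z m ψz, hp0, hp1,
    map_dmap hKc hm hψy.cls hy', map_dmap hKc hm hψz.cls hz', ?_⟩
  obtain ⟨V, hV⟩ : ∃ V : ℝ, ∑ k, m k * ‖z k - y k‖ ^ 2 = V := ⟨_, rfl⟩
  rw [hV, ← hC2] at hc
  rw [hV]
  have hV0 : 0 ≤ V := by
    rw [← hV]; exact Finset.sum_nonneg fun k _ => mul_nonneg (hm k).le (sq_nonneg _)
  have hVW : V ≤ W := by
    rw [← hV, hW, ← hsum, Finset.sum_mul]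
    refine Finset.sum_le_sum fun k _ => mul_le_mul_of_nonneg_left ?_ (hm k).le
    have h1 : ‖z k - y k‖ ≤ 2 * L := (norm_sub_le _ _).trans (by linarith [hyL k, hzL k])
    calc ‖z k - y k‖ ^ 2 ≤ (2 * L) ^ 2 := pow_le_pow_left₀ (norm_nonneg _) h1 2
      _ = 4 * L ^ 2 := by ring
  have hest : ∀ h : ℝ, 0 < h → h ≤ h0 →
      ∫ x in K, ‖dmap y m ψy x - dmap z m ψz x‖ ^ 2 ≤ C1 * (C2 * V / h ^ 2 + h) := by
    intro h hh hh'
    refine (hDM _ _ _ _ hp0.cont hp1.cont hp0.meas hp1.meas hp0.bdd hp1.bdd hp0.sub hp1.sub h hh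
      hh').trans ?_
    refine mul_le_mul_of_nonneg_left ?_ hC1.le
    have h2 : ∫ x in K, (Phi y ψy x - (Phi z ψz x - c)) ^ 2 ≤ C2 * V := by
      refine le_trans (le_of_eq ?_) hc
      congr 1; ext p; ring
    have h3 := div_le_div_of_nonneg_right h2 (sq_nonneg h)
    linarith
  rcases hV0.eq_or_lt with hV0' | hVpos
  · -- zero cost
    rw [← hV0', Real.zero_rpow (by norm_num), mul_zero]
    refine le_of_forall_pos_le_add fun η hη => ?_
    have h4 := hest (min h0 (η / C1)) (lt_min hh0 (by positivity)) (min_le_left _ _)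
    rw [← hV0', mul_zero, zero_div, zero_add] at h4
    have h5 : C1 * min h0 (η / C1) ≤ η := by
      calc C1 * min h0 (η / C1) ≤ C1 * (η / C1) := mul_le_mul_of_nonneg_left (min_le_right _ _) hC1.le
        _ = η := by field_simp
    linarith
  · obtain ⟨τ, hτ⟩ : ∃ τ : ℝ, τ = (V / W) ^ (1 / 3 : ℝ) := ⟨_, rfl⟩
    have hτpos : 0 < τ := by rw [hτ]; positivity
    have hτ1 : τ ≤ 1 := by
      rw [hτ]; exact Real.rpow_le_one (by positivity) ((div_le_one hWpos).2 hVW) (by norm_num)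
    have hτ3 : τ ^ 3 = V / W := by
      rw [hτ, ← Real.rpow_natCast, ← Real.rpow_mul (by positivity)]
      norm_num
    have hVτ : V = τ ^ 3 * W := by rw [hτ3]; field_simp
    have h6 := hest (h0 * τ) (by positivity) (by nlinarith)
    refine h6.trans (le_of_eq ?_)
    have h7 : V ^ (1 / 3 : ℝ) = τ * W ^ (1 / 3 : ℝ) := by
      rw [hτ, ← Real.mul_rpow (by positivity) hWpos.le]
      congr 1; field_simp
    have hW3 : 0 < W ^ (1 / 3 : ℝ) := by positivity
    rw [h7, hVτ]
    field_simp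

end Vale.Agent.P074
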