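import Vale.Agent.P074.Defs
import Vale.Agent.P074.DM

open MeasureTheory Filter Topology

namespace Vale.Agent.P074

variable {d : ℕ}

/-- A compact set can be discretized by a measurable map with values in a finite subset. -/
theorem exists_quantizer {Y : Set (E d)} (hY : IsCompact Y) (hne : Y.Nonempty) {δ : ℝ}
    (hδ : 0 < δ) :
    ∃ (s : Finset (E d)) (Q : E d → E d), Measurable Q ∧ (∀ y, Q y ∈ s) ∧ (∀ y ∈ s, y ∈ Y) ∧
      ∀ y ∈ Y, ‖Q y - y‖ ≤ δ := by
  classical
  obtain ⟨t, htY, htfin, hcov⟩ := hY.finite_cover_balls hδ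
  have htne : t.Nonempty := by
    obtain ⟨y, hy⟩ := hne
    obtain ⟨x, hx, -⟩ := Set.mem_iUnion₂.mp (hcov hy)
    exact ⟨x, hx⟩
  obtain ⟨x0, hx0⟩ := htne
  set l : List (E d) := htfin.toFinset.toList with hl
  set e : ℕ → E d := fun k => l.getD k x0 with he
  have hrange : ∀ k, e k ∈ t := by
    intro k
    by_cases hk : k < l.length
    · have h1 : e k = l[k] := by simp [he, hk]
      have h2 : l[k] ∈ l := List.getElem_mem hk
      rw [h1]
      have h3 : l[k] ∈ htfin.toFinset := by
        rw [← Finset.mem_toList, ← hl]; exact h2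
      exact (htfin.mem_toFinset).mp h3
    · have h1 : e k = x0 := by
        simp only [he]
        exact List.getD_eq_default _ _ (not_lt.mp hk)
      rw [h1]; exact hx0
  refine ⟨htfin.toFinset, SimpleFunc.nearestPt e l.length, SimpleFunc.measurable _, ?_, ?_, ?_⟩
  · intro y
    rw [Set.Finite.mem_toFinset]
    simp only [SimpleFunc.nearestPt, SimpleFunc.map_apply]
    exact hrange _
  · intro y hy
    exact htY ((htfin.mem_toFinset).mp hy)
  · intro y hy
    obtain ⟨x, hx, hyx⟩ := Set.mem_iUnion₂.mp (hcov hy)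
    have hxl : x ∈ l := by
      rw [hl, Finset.mem_toList]; exact (htfin.mem_toFinset).mpr hx
    obtain ⟨k, hk, hkx⟩ := List.getElem_of_mem hxl
    have hek : e k = x := by
      simp only [he]
      rw [List.getD_eq_getElem _ _ hk, hkx]
    have h1 := SimpleFunc.edist_nearestPt_le e y (k := k) (N := l.length) hk.le
    rw [hek] at h1
    have h2 : dist (SimpleFunc.nearestPt e l.length y) y ≤ dist x y := by
      rw [edist_dist, edist_dist] at h1
      exact (ENNReal.ofReal_le_ofReal_iff dist_nonneg).mp h1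
    rw [← dist_eq_norm]
    refine h2.trans ?_
    rw [dist_comm]
    exact (Metric.mem_ball.mp hyx).le

/-- One direction of the comparison of an optimal map with an approximately optimal map. -/
lemma gap_dir {K : Set (E d)} (hK : IsCompact K) (hc : Convex ℝ K) {c : E d} {r : ℝ} (hr : 0 < r)
    (hball : Metric.closedBall c r ⊆ K) {L : ℝ} (hL : 0 < L)
    (φ g : E d → ℝ) (T S : E d → E d)
    (hT : Measurable T) (hS : Measurable S) (hbT : ∀ x, ‖T x‖ ≤ L)
    (hbS : ∀ᵐ x ∂(volume.restrict K), ‖S x‖ ≤ L)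
    (hg : IntegrableOn g K) (hg0 : ∀ x ∈ K, 0 ≤ g x)
    (hsT : ∀ᵐ x ∂(volume.restrict K), ∀ x' ∈ K, φ x + inner ℝ (T x) (x' - x) ≤ φ x')
    (hsS : ∀ x ∈ K, ∀ x' ∈ K, φ x + inner ℝ (S x) (x' - x) - g x ≤ φ x')
    (h : ℝ) (h0 : 0 < h) (h1 : 2 * h ≤ r) (e : E d) (he : ‖e‖ = 1) :
    ∫ x in K, (inner ℝ (S x) e - inner ℝ (T x) e) ^ 2 ≤
      2 * L / h * (∫ x in K, g x) + 16 * L ^ 2 * (volume.real K * (d * (h / r))) := by
  set v : E d := h • e with hv
  have hvn : ‖v‖ = h := by rw [hv, norm_smul, he, mul_one, Real.norm_of_nonneg h0.le]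
  have h2vn : ‖(2 : ℝ) • v‖ = 2 * h := by
    rw [norm_smul, hvn, Real.norm_of_nonneg (by norm_num)]
  set V : ℝ := volume.real K * (d * (h / r)) with hV
  have hV0 : 0 ≤ V := by positivity
  have hmK : MeasurableSet K := hK.isClosed.measurableSet
  have hKfin : volume K < ⊤ := hK.measure_lt_top
  have hms : ∀ w : E d, MeasurableSet {x | x + w ∈ K} := fun w =>
    (hK.isClosed.preimage (continuous_id.add continuous_const)).measurableSet
  set Kh : Set (E d) := {x | x + v ∈ K} ∩ {x | x + -v ∈ K} with hKh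
  set Kp : Set (E d) := {x | x + -((2 : ℝ) • v) ∈ K} with hKp
  set Km : Set (E d) := {x | x + (2 : ℝ) • v ∈ K} with hKm
  have hmKh : MeasurableSet Kh := (hms v).inter (hms (-v))
  have hmKp : MeasurableSet Kp := hms _
  have hmKm : MeasurableSet Km := hms _
  have hVp : volume.real (K \ Kp) ≤ 2 * V := by
    have := vol_shift hK hc hr hball (-((2 : ℝ) • v)) (by rw [norm_neg, h2vn]; exact h1)
    rw [norm_neg, h2vn] at this
    calc volume.real (K \ Kp) ≤ volume.real K * (d * (2 * h / r)) := this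
      _ = 2 * V := by rw [hV]; ring
  have hVm : volume.real (K \ Km) ≤ 2 * V := by
    have := vol_shift hK hc hr hball ((2 : ℝ) • v) (by rw [h2vn]; exact h1)
    rw [h2vn] at this
    calc volume.real (K \ Km) ≤ volume.real K * (d * (2 * h / r)) := this
      _ = 2 * V := by rw [hV]; ring
  have hVh : volume.real (K \ Kh) ≤ 2 * V := by
    have e1 := vol_shift hK hc hr hball v (by rw [hvn]; linarith)
    have e2 := vol_shift hK hc hr hball (-v) (by rw [norm_neg, hvn]; linarith)
    rw [hvn] at e1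
    rw [norm_neg, hvn] at e2
    have hsub : K \ Kh ⊆ (K \ {x | x + v ∈ K}) ∪ (K \ {x | x + -v ∈ K}) := by
      intro x hx
      rw [hKh] at hx
      by_cases hxv : x + v ∈ K
      · right
        refine ⟨hx.1, fun hx2 => hx.2 ⟨hxv, hx2⟩⟩
      · left
        exact ⟨hx.1, hxv⟩
    have hfin : volume ((K \ {x | x + v ∈ K}) ∪ (K \ {x | x + -v ∈ K})) ≠ ⊤ :=
      ne_top_of_le_ne_top hKfin.ne (measure_mono (Set.union_subset Set.sdiff_subset
        Set.sdiff_subset))
    calc volume.real (K \ Kh) ≤ volume.real ((K \ {x | x + v ∈ K}) ∪ (K \ {x | x + -v ∈ K})) :=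
          measureReal_mono hsub hfin
      _ ≤ volume.real (K \ {x | x + v ∈ K}) + volume.real (K \ {x | x + -v ∈ K}) :=
          measureReal_union_le _ _
      _ ≤ V + V := add_le_add e1 e2
      _ = 2 * V := by ring
  set a : E d → ℝ := fun x => inner ℝ (T x) e with ha
  set b : E d → ℝ := fun x => inner ℝ (S x) e with hb
  have hma : Measurable a := hT.inner measurable_const
  have hmb : Measurable b := hS.inner measurable_const
  have hba : ∀ x, |a x| ≤ L := fun x => by
    refine (abs_real_inner_le_norm _ _).trans ?_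
    rw [he, mul_one]; exact hbT x
  have hba' : ∀ x, ‖a x‖ ≤ L := hba
  have hbb : ∀ᵐ x ∂(volume.restrict K), |b x| ≤ L := by
    filter_upwards [hbS] with x hx
    refine (abs_real_inner_le_norm _ _).trans ?_
    rw [he, mul_one]; exact hx
  have haint : IntegrableOn a K :=
    IntegrableOn.of_bound hKfin hma.aestronglyMeasurable L (ae_of_all _ hba')
  have hsqb : ∀ᵐ x ∂(volume.restrict K), ‖(b x - a x) ^ 2‖ ≤ 4 * L ^ 2 := by
    filter_upwards [hbb] with x hx
    rw [Real.norm_eq_abs, abs_of_nonneg (sq_nonneg _)]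
    have := abs_le.mp (hba x)
    have := abs_le.mp hx
    nlinarith
  have hsqint : IntegrableOn (fun x => (b x - a x) ^ 2) K :=
    IntegrableOn.of_bound hKfin (by fun_prop) (4 * L ^ 2) hsqb
  -- pointwise inequality
  have htr : MeasurePreserving (fun x : E d => x + v) volume volume :=
    measurePreserving_add_right volume v
  have htr' : MeasurePreserving (fun x : E d => x + -v) volume volume :=
    measurePreserving_add_right volume (-v)
  have hsT' := hsT
  rw [ae_restrict_iff' hmK] at hsT'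
  have hsTp := htr.quasiMeasurePreserving.ae hsT'
  have hsTm := htr'.quasiMeasurePreserving.ae hsT'
  have hbb' := hbb
  rw [ae_restrict_iff' hmK] at hbb'
  have hpt : ∀ᵐ x ∂(volume.restrict (K ∩ Kh)), (b x - a x) ^ 2 ≤
      2 * L * (a (x + v) - a (x + -v)) + 2 * L / h * g x := by
    rw [ae_restrict_iff' (hmK.inter hmKh)]
    filter_upwards [hsT', hsTp, hsTm, hbb'] with x hx hxp hxm hxb hxK
    have hxin : x ∈ K := hxK.1
    have hxp1 : x + v ∈ K := hxK.2.1
    have hxm1 : x + -v ∈ K := hxK.2.2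
    have q1 := hx hxin (x + v) hxp1
    have q2 := hx hxin (x + -v) hxm1
    have q3 := hxp hxp1 x hxin
    have q4 := hxm hxm1 x hxin
    have q5 := hsS x hxin (x + v) hxp1
    have q6 := hsS x hxin (x + -v) hxm1
    rw [add_sub_cancel_left, hv, inner_smul_right, ← hv] at q1
    rw [add_sub_cancel_left, inner_neg_right, hv, inner_smul_right, ← hv] at q2
    rw [sub_add_cancel_left, inner_neg_right, hv, inner_smul_right, ← hv] at q3
    rw [sub_add_cancel_left, neg_neg, hv, inner_smul_right, ← hv] at q4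
    rw [add_sub_cancel_left, hv, inner_smul_right, ← hv] at q5
    rw [add_sub_cancel_left, inner_neg_right, hv, inner_smul_right, ← hv] at q6
    have r1 : h * a x ≤ h * a (x + v) := by simp only [ha]; linarith
    have r2 : h * a (x + -v) ≤ h * a x := by simp only [ha]; linarith
    have r3 : h * b x ≤ h * a (x + v) + g x := by simp only [ha, hb]; linarith
    have r4 : h * a (x + -v) - g x ≤ h * b x := by simp only [ha, hb]; linarith
    have s1 : a x ≤ a (x + v) := le_of_mul_le_mul_left r1 h0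
    have s2 : a (x + -v) ≤ a x := le_of_mul_le_mul_left r2 h0
    have s3 : b x ≤ a (x + v) + g x / h := by
      have : h * (a (x + v) + g x / h) = h * a (x + v) + g x := by field_simp
      exact le_of_mul_le_mul_left (by rw [this]; exact r3) h0
    have s4 : a (x + -v) - g x / h ≤ b x := by
      have : h * (a (x + -v) - g x / h) = h * a (x + -v) - g x := by field_simp
      exact le_of_mul_le_mul_left (by rw [this]; exact r4) h0
    have hab : |b x - a x| ≤ (a (x + v) - a (x + -v)) + g x / h := by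
      rw [abs_le]; constructor <;> linarith
    have hab2 : |b x - a x| ≤ 2 * L := by
      have t1 := abs_le.mp (hxb hxin)
      have t2 := abs_le.mp (hba x)
      rw [abs_le]; constructor <;> linarith
    have hfin : (b x - a x) ^ 2 ≤ 2 * L * ((a (x + v) - a (x + -v)) + g x / h) := by
      rw [← sq_abs, sq]
      exact mul_le_mul hab2 hab (abs_nonneg _) (by linarith)
    calc (b x - a x) ^ 2 ≤ 2 * L * ((a (x + v) - a (x + -v)) + g x / h) := hfin
      _ = _ := by ring
  have hemb : MeasurableEmbedding (fun x : E d => x + v) :=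
    (MeasurableEquiv.addRight v).measurableEmbedding
  have hemb' : MeasurableEmbedding (fun x : E d => x + -v) :=
    (MeasurableEquiv.addRight (-v)).measurableEmbedding
  have hpre : (fun x : E d => x + v) ⁻¹' (K ∩ Kp) = K ∩ Kh := by
    ext x
    simp only [hKp, hKh, Set.mem_preimage, Set.mem_inter_iff, Set.mem_ofPred_eq]
    have e1 : x + v + -((2 : ℝ) • v) = x + -v := by rw [two_smul]; abel
    rw [e1]
    constructor
    · rintro ⟨p1, p2⟩
      refine ⟨?_, p1, p2⟩
      have := hc p1 p2 (by norm_num : (0 : ℝ) ≤ 1 / 2) (by norm_num : (0 : ℝ) ≤ 1 / 2)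
        (by norm_num)
      have e2 : (1 / 2 : ℝ) • (x + v) + (1 / 2 : ℝ) • (x + -v) = x := by
        rw [← smul_add, show x + v + (x + -v) = (2 : ℝ) • x by rw [two_smul]; abel, smul_smul]
        norm_num
      rwa [e2] at this
    · rintro ⟨-, p1, p2⟩
      exact ⟨p1, p2⟩
  have hpre' : (fun x : E d => x + -v) ⁻¹' (K ∩ Km) = K ∩ Kh := by
    ext x
    simp only [hKm, hKh, Set.mem_preimage, Set.mem_inter_iff, Set.mem_ofPred_eq]
    have e1 : x + -v + (2 : ℝ) • v = x + v := by rw [two_smul]; abel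
    rw [e1]
    constructor
    · rintro ⟨p2, p1⟩
      refine ⟨?_, p1, p2⟩
      have := hc p1 p2 (by norm_num : (0 : ℝ) ≤ 1 / 2) (by norm_num : (0 : ℝ) ≤ 1 / 2)
        (by norm_num)
      have e2 : (1 / 2 : ℝ) • (x + v) + (1 / 2 : ℝ) • (x + -v) = x := by
        rw [← smul_add, show x + v + (x + -v) = (2 : ℝ) • x by rw [two_smul]; abel, smul_smul]
        norm_num
      rwa [e2] at this
    · rintro ⟨-, p1, p2⟩
      exact ⟨p2, p1⟩
  have hAp : ∫ x in K ∩ Kh, a (x + v) = ∫ x in K ∩ Kp, a x := by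
    rw [← hpre]
    exact htr.setIntegral_preimage_emb hemb a (K ∩ Kp)
  have hAm : ∫ x in K ∩ Kh, a (x + -v) = ∫ x in K ∩ Km, a x := by
    rw [← hpre']
    exact htr'.setIntegral_preimage_emb hemb' a (K ∩ Km)
  have hApint : IntegrableOn (fun x => a (x + v)) (K ∩ Kh) := by
    rw [← hpre]
    exact (htr.integrableOn_comp_preimage hemb).mpr (haint.mono_set Set.inter_subset_left)
  have hAmint : IntegrableOn (fun x => a (x + -v)) (K ∩ Kh) := by
    rw [← hpre']
    exact (htr'.integrableOn_comp_preimage hemb').mpr (haint.mono_set Set.inter_subset_left)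
  have hgint : IntegrableOn g (K ∩ Kh) := hg.mono_set Set.inter_subset_left
  have hI1 : ∫ x in K ∩ Kh, (b x - a x) ^ 2 ≤
      2 * L * ((∫ x in K ∩ Kp, a x) - ∫ x in K ∩ Km, a x) + 2 * L / h * ∫ x in K ∩ Kh, g x := by
    have hm := integral_mono_ae (hsqint.mono_set Set.inter_subset_left)
      (((hApint.sub hAmint).const_mul (2 * L)).add (hgint.const_mul (2 * L / h))) hpt
    refine hm.trans (le_of_eq ?_)
    have e1 : ∫ x in K ∩ Kh, (2 * L * (a (x + v) - a (x + -v)) + 2 * L / h * g x) =
        (∫ x in K ∩ Kh, 2 * L * (a (x + v) - a (x + -v))) +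
          ∫ x in K ∩ Kh, 2 * L / h * g x :=
      integral_add ((hApint.sub hAmint).const_mul (2 * L)) (hgint.const_mul (2 * L / h))
    have e2 : ∫ x in K ∩ Kh, (a (x + v) - a (x + -v)) =
        (∫ x in K ∩ Kh, a (x + v)) - ∫ x in K ∩ Kh, a (x + -v) :=
      integral_sub hApint hAmint
    rw [← hAp, ← hAm, ← e2, ← integral_const_mul, ← integral_const_mul]
    exact e1
  have hI2 : ∫ x in K \ Kh, (b x - a x) ^ 2 ≤ 4 * L ^ 2 * (2 * V) := by
    have hfin : volume (K \ Kh) < ⊤ := lt_of_le_of_lt (measure_mono Set.sdiff_subset) hKfin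
    have hae : ∀ᵐ x ∂(volume.restrict (K \ Kh)), ‖(b x - a x) ^ 2‖ ≤ 4 * L ^ 2 :=
      ae_restrict_of_ae_restrict_of_subset Set.sdiff_subset hsqb
    have := norm_setIntegral_le_of_norm_le_const_ae hfin hae
    refine (le_abs_self _).trans (this.trans ?_)
    gcongr
  have hI3 : (∫ x in K ∩ Kp, a x) - (∫ x in K ∩ Km, a x) ≤ 4 * L * V := by
    have i5 : (∫ x in K ∩ Kp, a x) + ∫ x in K \ Kp, a x = ∫ x in K, a x :=
      integral_inter_add_sdiff hmKp haint
    have i6 : (∫ x in K ∩ Km, a x) + ∫ x in K \ Km, a x = ∫ x in K, a x :=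
      integral_inter_add_sdiff hmKm haint
    have i7 : |∫ x in K \ Kp, a x| ≤ L * (2 * V) := by
      have hfin : volume (K \ Kp) < ⊤ := lt_of_le_of_lt (measure_mono Set.sdiff_subset) hKfin
      refine (norm_setIntegral_le_of_norm_le_const hfin (fun x _ => hba' x)).trans ?_
      gcongr
    have i8 : |∫ x in K \ Km, a x| ≤ L * (2 * V) := by
      have hfin : volume (K \ Km) < ⊤ := lt_of_le_of_lt (measure_mono Set.sdiff_subset) hKfin
      refine (norm_setIntegral_le_of_norm_le_const hfin (fun x _ => hba' x)).trans ?_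
      gcongr
    have j7 := abs_le.mp i7
    have j8 := abs_le.mp i8
    linarith
  have hI4 : ∫ x in K ∩ Kh, g x ≤ ∫ x in K, g x := by
    refine setIntegral_mono_set hg ?_ (Set.inter_subset_left.eventuallyLE)
    rw [Filter.EventuallyLE, ae_restrict_iff' hmK]
    exact ae_of_all _ fun x hx => hg0 x hx
  have hsplit : (∫ x in K ∩ Kh, (b x - a x) ^ 2) + ∫ x in K \ Kh, (b x - a x) ^ 2 =
      ∫ x in K, (b x - a x) ^ 2 := integral_inter_add_sdiff hmKh hsqint
  have k1 := mul_le_mul_of_nonneg_left hI3 (by linarith : (0 : ℝ) ≤ 2 * L)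
  have k2 := mul_le_mul_of_nonneg_left hI4 (by positivity : (0 : ℝ) ≤ 2 * L / h)
  rw [← hsplit]
  have e3 : 2 * L * (4 * L * V) = 8 * L ^ 2 * V := by ring
  have e4 : 4 * L ^ 2 * (2 * V) = 8 * L ^ 2 * V := by ring
  rw [e3] at k1
  rw [e4] at hI2
  linarith

/-- The support-type transform of `φ` on `K`. -/
noncomputable def gapConj (K : Set (E d)) (φ : E d → ℝ) (v : E d) : ℝ :=
  sSup ((fun x => inner ℝ x v - φ x) '' K)

lemma gapConj_bdd {K : Set (E d)} (hK : IsCompact K) {φ : E d → ℝ} (hφ : Continuous φ) (v : E d) :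
    BddAbove ((fun x => inner ℝ x v - φ x) '' K) := by
  have hcont : Continuous fun x : E d => inner ℝ x v - φ x := by fun_prop
  exact (hK.image hcont).bddAbove

lemma le_gapConj {K : Set (E d)} (hK : IsCompact K) {φ : E d → ℝ} (hφ : Continuous φ) (v : E d)
    {x : E d} (hx : x ∈ K) : inner ℝ x v - φ x ≤ gapConj K φ v :=
  le_csSup (gapConj_bdd hK hφ v) ⟨x, hx, rfl⟩

lemma gapConj_lip {K : Set (E d)} (hK : IsCompact K) (hne : K.Nonempty) {φ : E d → ℝ}
    (hφ : Continuous φ) {R : ℝ} (hR : ∀ x ∈ K, ‖x‖ ≤ R) (v w : E d) :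
    gapConj K φ v ≤ gapConj K φ w + R * ‖v - w‖ := by
  refine csSup_le (hne.image _) ?_
  rintro _ ⟨x, hx, rfl⟩
  have h1 := le_gapConj hK hφ w hx
  have h2 : inner ℝ x v = inner ℝ x w + inner ℝ x (v - w) := by
    rw [← inner_add_right]; congr 1; abel
  have h3 : inner ℝ x (v - w) ≤ R * ‖v - w‖ := by
    refine (real_inner_le_norm _ _).trans ?_
    exact mul_le_mul_of_nonneg_right (hR x hx) (norm_nonneg _)
  simp only
  linarith

lemma gapConj_abs {K : Set (E d)} (hK : IsCompact K) (hne : K.Nonempty) {φ : E d → ℝ}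
    (hφ : Continuous φ) {R : ℝ} (hR : ∀ x ∈ K, ‖x‖ ≤ R) (v w : E d) :
    |gapConj K φ v - gapConj K φ w| ≤ R * ‖v - w‖ := by
  rw [abs_le]
  have h1 := gapConj_lip hK hne hφ hR v w
  have h2 := gapConj_lip hK hne hφ hR w v
  rw [norm_sub_rev] at h2
  constructor <;> linarith

lemma gapConj_cont {K : Set (E d)} (hK : IsCompact K) (hne : K.Nonempty) {φ : E d → ℝ}
    (hφ : Continuous φ) : Continuous (gapConj K φ) := by
  obtain ⟨R, hR⟩ := hK.isBounded.exists_norm_le
  obtain ⟨x0, hx0⟩ := hne
  have hR0 : 0 ≤ R := (norm_nonneg x0).trans (hR x0 hx0)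
  have hl : LipschitzWith ⟨R, hR0⟩ (gapConj K φ) := by
    refine LipschitzWith.of_dist_le_mul fun v w => ?_
    rw [Real.dist_eq, dist_eq_norm]
    exact gapConj_abs hK ⟨x0, hx0⟩ hφ hR v w
  exact hl.continuous

/-- An approximately optimal map is close to the optimal map. -/
theorem pair_gap {K : Set (E d)} (hK : IsCompact K) (hc : Convex ℝ K)
    (hi : (interior K).Nonempty) {L : ℝ} (hL : 0 < L) :
    ∃ C h0 : ℝ, 0 < C ∧ 0 < h0 ∧ ∀ (φ : E d → ℝ) (T S Q : E d → E d) (δ : ℝ),
      Continuous φ → Measurable T → Measurable S → Measurable Q → 0 ≤ δ →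
      (∀ x, ‖T x‖ ≤ L) → (∀ᵐ x ∂(volume.restrict K), ‖S x‖ ≤ L) →
      (∀ᵐ x ∂(volume.restrict K), ∀ x' ∈ K, φ x + inner ℝ (T x) (x' - x) ≤ φ x') →
      (∀ᵐ x ∂(volume.restrict K), ‖Q (S x) - S x‖ ≤ δ) →
      (volume.restrict K).map T = (volume.restrict K).map (fun x => Q (S x)) →
      ∀ h, 0 < h → h ≤ h0 →
        ∫ x in K, ‖S x - T x‖ ^ 2 ≤
          C * (((∫ x in K, inner ℝ x (T x)) - (∫ x in K, inner ℝ x (S x)) + C * δ) / h + h) := by
  obtain ⟨c, hcint⟩ := hi
  obtain ⟨r0, hr0, hb⟩ := Metric.isOpen_iff.mp isOpen_interior c hcint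
  have hr : 0 < r0 / 2 := by positivity
  have hball : Metric.closedBall c (r0 / 2) ⊆ K :=
    (Metric.closedBall_subset_ball (by linarith)).trans (hb.trans interior_subset)
  set r := r0 / 2 with hrdef
  have hcK : c ∈ K := hball (Metric.mem_closedBall_self hr.le)
  have hKne : K.Nonempty := ⟨c, hcK⟩
  obtain ⟨R, hR⟩ := hK.isBounded.exists_norm_le
  have hR0 : 0 ≤ R := (norm_nonneg c).trans (hR c hcK)
  have hmK : MeasurableSet K := hK.isClosed.measurableSet
  have hKfin : volume K < ⊤ := hK.measure_lt_top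
  set M : ℝ := volume.real K with hM
  have hM0 : 0 ≤ M := measureReal_nonneg
  refine ⟨R * M + 2 * L * d + 16 * L ^ 2 * (M * (d * (d / r))) + 1, r / 2, by positivity,
    by positivity, ?_⟩
  intro φ T S Q δ hφ hT hS hQ hδ hbT hbS hsT hQS hpush h hh hhr
  set C : ℝ := R * M + 2 * L * d + 16 * L ^ 2 * (M * (d * (d / r))) + 1 with hC
  have hψc : Continuous (gapConj K φ) := gapConj_cont hK hKne hφ
  have hψm : Measurable (gapConj K φ) := hψc.measurable
  -- integrability facts
  have hφint : IntegrableOn φ K := hφ.continuousOn.integrableOn_compact hK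
  have hψbound : ∀ v, |gapConj K φ v| ≤ |gapConj K φ 0| + R * ‖v‖ := by
    intro v
    have := gapConj_abs hK hKne hφ hR v 0
    rw [sub_zero] at this
    have h2 : |gapConj K φ v| ≤ |gapConj K φ v - gapConj K φ 0| + |gapConj K φ 0| := by
      have := abs_add_le (gapConj K φ v - gapConj K φ 0) (gapConj K φ 0)
      rwa [sub_add_cancel] at this
    linarith
  have hψS : IntegrableOn (fun x => gapConj K φ (S x)) K := by
    refine IntegrableOn.of_bound hKfin (hψm.comp hS).aestronglyMeasurable
      (|gapConj K φ 0| + R * L) ?_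
    filter_upwards [hbS] with x hx
    rw [Real.norm_eq_abs]
    refine (hψbound _).trans ?_
    gcongr
  have hψT : IntegrableOn (fun x => gapConj K φ (T x)) K := by
    refine IntegrableOn.of_bound hKfin (hψm.comp hT).aestronglyMeasurable
      (|gapConj K φ 0| + R * L) (ae_of_all _ fun x => ?_)
    rw [Real.norm_eq_abs]
    refine (hψbound _).trans ?_
    gcongr
    exact hbT x
  have hψQ : IntegrableOn (fun x => gapConj K φ (Q (S x))) K := by
    refine IntegrableOn.of_bound hKfin (hψm.comp (hQ.comp hS)).aestronglyMeasurable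
      (|gapConj K φ 0| + R * (L + δ)) ?_
    filter_upwards [hbS, hQS] with x hx hx2
    rw [Real.norm_eq_abs]
    refine (hψbound _).trans ?_
    have : ‖Q (S x)‖ ≤ L + δ := by
      have h3 : ‖Q (S x)‖ ≤ ‖S x‖ + ‖Q (S x) - S x‖ := by
        have := norm_add_le (S x) (Q (S x) - S x)
        rwa [add_sub_cancel] at this
      linarith
    gcongr
  have hinS : IntegrableOn (fun x => inner ℝ x (S x)) K := by
    refine IntegrableOn.of_bound hKfin ?_ (R * L) ?_
    · exact (measurable_id.inner hS).aestronglyMeasurable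
    · filter_upwards [hbS, ae_restrict_mem hmK] with x hx hxK
      rw [Real.norm_eq_abs]
      refine (abs_real_inner_le_norm _ _).trans ?_
      exact mul_le_mul (hR x hxK) hx (norm_nonneg _) hR0
  have hinT : IntegrableOn (fun x => inner ℝ x (T x)) K := by
    refine IntegrableOn.of_bound hKfin ?_ (R * L) ?_
    · exact (measurable_id.inner hT).aestronglyMeasurable
    · filter_upwards [ae_restrict_mem hmK] with x hxK
      rw [Real.norm_eq_abs]
      refine (abs_real_inner_le_norm _ _).trans ?_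
      exact mul_le_mul (hR x hxK) (hbT x) (norm_nonneg _) hR0
  -- the gap function
  set g : E d → ℝ := fun x => φ x + gapConj K φ (S x) - inner ℝ x (S x) with hg
  have hgint : IntegrableOn g K := (hφint.add hψS).sub hinS
  have hg0 : ∀ x ∈ K, 0 ≤ g x := by
    intro x hx
    have := le_gapConj hK hφ (S x) hx
    simp only [hg]
    linarith
  have hsS : ∀ x ∈ K, ∀ x' ∈ K, φ x + inner ℝ (S x) (x' - x) - g x ≤ φ x' := by
    intro x _ x' hx'
    have h1 := le_gapConj hK hφ (S x) hx'
    have h2 : inner ℝ (S x) (x' - x) = inner ℝ x' (S x) - inner ℝ x (S x) := by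
      rw [inner_sub_right, real_inner_comm x' (S x), real_inner_comm x (S x)]
    rw [h2]
    simp only [hg]
    linarith
  -- equality for the optimal map
  have hTeq : ∀ᵐ x ∂(volume.restrict K), φ x + gapConj K φ (T x) = inner ℝ x (T x) := by
    filter_upwards [hsT, ae_restrict_mem hmK] with x hx hxK
    apply le_antisymm
    · have : gapConj K φ (T x) ≤ inner ℝ x (T x) - φ x := by
        refine csSup_le (hKne.image _) ?_
        rintro _ ⟨x', hx', rfl⟩
        have h1 := hx x' hx'
        have h2 : inner ℝ (T x) (x' - x) = inner ℝ x' (T x) - inner ℝ x (T x) := by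
          rw [inner_sub_right, real_inner_comm x' (T x), real_inner_comm x (T x)]
        rw [h2] at h1
        simp only
        linarith
      linarith
    · have := le_gapConj hK hφ (T x) hxK
      linarith
  have hIT : (∫ x in K, φ x) + ∫ x in K, gapConj K φ (T x) = ∫ x in K, inner ℝ x (T x) := by
    rw [← integral_add hφint hψT]
    exact integral_congr_ae hTeq
  have hmapeq : ∫ x in K, gapConj K φ (T x) = ∫ x in K, gapConj K φ (Q (S x)) := by
    have e1 : ∫ y, gapConj K φ y ∂((volume.restrict K).map T) = ∫ x in K, gapConj K φ (T x) :=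
      integral_map hT.aemeasurable hψm.aestronglyMeasurable
    have e2 : ∫ y, gapConj K φ y ∂((volume.restrict K).map (fun x => Q (S x))) =
        ∫ x in K, gapConj K φ (Q (S x)) :=
      integral_map (hQ.comp hS).aemeasurable hψm.aestronglyMeasurable
    rw [← e1, ← e2, hpush]
  have hQle : ∫ x in K, gapConj K φ (S x) ≤ (∫ x in K, gapConj K φ (Q (S x))) + R * δ * M := by
    have hcst : ∫ x in K, (R * δ : ℝ) = R * δ * M := by
      rw [setIntegral_const, smul_eq_mul, mul_comm]
    rw [← hcst, ← integral_add hψQ (integrableOn_const hKfin.ne)]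
    refine integral_mono_ae hψS (hψQ.add (integrableOn_const hKfin.ne)) ?_
    filter_upwards [hQS] with x hx
    have h1 := gapConj_lip hK hKne hφ hR (S x) (Q (S x))
    rw [norm_sub_rev] at h1
    have h2 : R * ‖Q (S x) - S x‖ ≤ R * δ := mul_le_mul_of_nonneg_left hx hR0
    linarith
  set IT := ∫ x in K, inner ℝ x (T x) with hITdef
  set IS := ∫ x in K, inner ℝ x (S x) with hISdef
  have hgI : ∫ x in K, g x = (∫ x in K, φ x) + (∫ x in K, gapConj K φ (S x)) - IS := by
    have e1 : ∫ x in K, g x = (∫ x in K, (φ x + gapConj K φ (S x))) - IS :=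
      integral_sub (hφint.add hψS) hinS
    rw [e1, integral_add hφint hψS]
  have hgle : ∫ x in K, g x ≤ IT - IS + R * M * δ := by
    rw [hgI]
    linarith
  have hgnn : 0 ≤ ∫ x in K, g x := by
    apply setIntegral_nonneg hmK hg0
  -- sum over directions
  have hdir := fun i : Fin d => gap_dir hK hc hr hball hL φ g T S hT hS hbT hbS hgint hg0 hsT hsS
    h hh (by linarith) (EuclideanSpace.single i (1 : ℝ)) (by simp)
  have hsum : ∀ x, ‖S x - T x‖ ^ 2 = ∑ i : Fin d,
      (inner ℝ (S x) (EuclideanSpace.single i (1 : ℝ)) -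
        inner ℝ (T x) (EuclideanSpace.single i (1 : ℝ))) ^ 2 := by
    intro x
    rw [EuclideanSpace.norm_sq_eq]
    refine Finset.sum_congr rfl fun i _ => ?_
    simp [EuclideanSpace.inner_single_right]
  have hint : ∀ i : Fin d, IntegrableOn (fun x =>
      (inner ℝ (S x) (EuclideanSpace.single i (1 : ℝ)) -
        inner ℝ (T x) (EuclideanSpace.single i (1 : ℝ))) ^ 2) K := by
    intro i
    refine IntegrableOn.of_bound hKfin ?_ (4 * L ^ 2) ?_
    · have h1 : Measurable fun x => inner ℝ (S x) (EuclideanSpace.single i (1 : ℝ)) :=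
        hS.inner measurable_const
      have h2 : Measurable fun x => inner ℝ (T x) (EuclideanSpace.single i (1 : ℝ)) :=
        hT.inner measurable_const
      exact ((h1.sub h2).pow_const 2).aestronglyMeasurable
    · filter_upwards [hbS] with x hx
      rw [Real.norm_eq_abs, abs_of_nonneg (sq_nonneg _)]
      have e0 : |inner ℝ (S x) (EuclideanSpace.single i (1 : ℝ))| ≤ L := by
        refine (abs_real_inner_le_norm _ _).trans ?_
        simpa using hx
      have e1 : |inner ℝ (T x) (EuclideanSpace.single i (1 : ℝ))| ≤ L := by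
        refine (abs_real_inner_le_norm _ _).trans ?_
        simpa using hbT x
      have := abs_le.mp e0
      have := abs_le.mp e1
      nlinarith
  have h1 : ∫ x in K, ‖S x - T x‖ ^ 2 = ∑ i : Fin d, ∫ x in K,
      (inner ℝ (S x) (EuclideanSpace.single i (1 : ℝ)) -
        inner ℝ (T x) (EuclideanSpace.single i (1 : ℝ))) ^ 2 := by
    rw [← integral_finsetSum _ (fun i _ => hint i)]
    exact integral_congr_ae (ae_of_all _ hsum)
  set G := ∫ x in K, g x with hG
  have h2 : ∫ x in K, ‖S x - T x‖ ^ 2 ≤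
      d * (2 * L / h * G + 16 * L ^ 2 * (M * (d * (h / r)))) := by
    rw [h1]
    refine (Finset.sum_le_sum fun i _ => hdir i).trans ?_
    rw [Finset.sum_const, Finset.card_univ, Fintype.card_fin, nsmul_eq_mul]
  refine h2.trans ?_
  have hCpos : 0 ≤ C := by rw [hC]; positivity
  have hRM : 0 ≤ R * M := mul_nonneg hR0 hM0
  have hA : 0 ≤ 16 * L ^ 2 * (M * (d * (d / r))) := by positivity
  have hB : 0 ≤ 2 * L * d := by positivity
  have hC1 : 2 * L * d ≤ C := by rw [hC]; linarith
  have hC2 : 16 * L ^ 2 * (M * (d * (d / r))) ≤ C := by rw [hC]; linarith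
  have hC3 : R * M ≤ C := by rw [hC]; linarith
  have hGle : G ≤ IT - IS + C * δ := by
    have := mul_le_mul_of_nonneg_right hC3 hδ
    linarith
  have e1 : (d : ℝ) * (2 * L / h * G + 16 * L ^ 2 * (M * (d * (h / r)))) =
      2 * L * d * (G / h) + 16 * L ^ 2 * (M * (d * (d / r))) * h := by
    field_simp
  rw [e1, mul_add]
  have hGh : 0 ≤ G / h := by positivity
  have s1 : 2 * L * d * (G / h) ≤ C * ((IT - IS + C * δ) / h) := by
    calc 2 * L * d * (G / h) ≤ C * (G / h) := mul_le_mul_of_nonneg_right hC1 hGh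
      _ ≤ C * ((IT - IS + C * δ) / h) := by
          apply mul_le_mul_of_nonneg_left _ hCpos
          exact div_le_div_of_nonneg_right hGle hh.le
  have s2 : 16 * L ^ 2 * (M * (d * (d / r))) * h ≤ C * h := mul_le_mul_of_nonneg_right hC2 hh.le
  exact add_le_add s1 s2

end Vale.Agent.P074
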