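import Mathlib
import Vale.Agent.P074.Disc
import Vale.Agent.P074.Gap

/-! Discretization of couplings, for P074. -/

set_option linter.unusedSectionVars false

open MeasureTheory Finset
open scoped RealInnerProductSpace Topology

namespace Vale.Agent.P074

variable {d : ℕ}

/-- measures of preimages under a map with finite range -/
lemma measure_preimage_finite {Ω β : Type} [MeasurableSpace Ω] [MeasurableSpace β]
    [MeasurableSingletonClass β] (π : Measure Ω) {s : Finset β} {F : Ω → β} (hF : Measurable F)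
    (hs : ∀ p, F p ∈ s) (A : Set β) (hA : MeasurableSet A) :
    π (F ⁻¹' A) = ∑ a ∈ s, π (F ⁻¹' {a}) * A.indicator (fun _ => (1 : ENNReal)) a := by
  classical
  have h1 : F ⁻¹' A = ⋃ a ∈ s, (F ⁻¹' {a} ∩ F ⁻¹' A) := by
    ext p
    simp only [Set.mem_preimage, Set.mem_iUnion, Set.mem_inter_iff, Set.mem_singleton_iff,
      exists_prop]
    constructor
    · intro h; exact ⟨F p, hs p, rfl, h⟩
    · rintro ⟨a, _, _, h⟩; exact h
  rw [h1, measure_biUnion_finset]
  · refine Finset.sum_congr rfl fun a _ => ?_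
    by_cases ha : a ∈ A
    · rw [Set.indicator_of_mem ha, mul_one]
      congr 1
      ext p
      simp only [Set.mem_inter_iff, Set.mem_preimage, Set.mem_singleton_iff, and_iff_left_iff_imp]
      rintro rfl; exact ha
    · rw [Set.indicator_of_notMem ha, mul_zero]
      have : F ⁻¹' {a} ∩ F ⁻¹' A = ∅ := by
        ext p
        simp only [Set.mem_inter_iff, Set.mem_preimage, Set.mem_singleton_iff,
          Set.mem_empty_iff_false, iff_false, not_and]
        rintro rfl; exact ha
      rw [this, measure_empty]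
  · intro a _ b _ hab
    refine Set.disjoint_left.2 ?_
    rintro p ⟨h1, _⟩ ⟨h2, _⟩
    exact hab (h1.symm.trans h2)
  · intro a _
    exact (hF (measurableSet_singleton a)).inter (hF hA)

lemma integral_comp_finite {Ω β : Type} [MeasurableSpace Ω] [MeasurableSpace β]
    [MeasurableSingletonClass β] (π : Measure Ω) [IsFiniteMeasure π] {s : Finset β} {F : Ω → β}
    (hF : Measurable F) (hs : ∀ p, F p ∈ s) (g : β → ℝ) :
    ∫ p, g (F p) ∂π = ∑ a ∈ s, π.real (F ⁻¹' {a}) * g a := by
  classical
  have h1 : ∀ p, g (F p) = ∑ a ∈ s, (F ⁻¹' {a}).indicator (fun _ => g a) p := by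
    intro p
    rw [Finset.sum_eq_single (F p)]
    · rw [Set.indicator_of_mem]; simp
    · intro b _ hb
      rw [Set.indicator_of_notMem]
      simp only [Set.mem_preimage, Set.mem_singleton_iff]
      exact fun h => hb h.symm
    · intro h; exact absurd (hs p) h
  simp only [h1]
  rw [integral_finsetSum]
  · refine Finset.sum_congr rfl fun a _ => ?_
    rw [integral_indicator (hF (measurableSet_singleton a)), setIntegral_const, smul_eq_mul]
  · intro a _
    exact (integrable_const _).indicator (hF (measurableSet_singleton a))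

/-- **Stability for quantized couplings.** -/
theorem quantized_stability {K : Set (E d)} (hKc : IsCompact K) (hKx : Convex ℝ K)
    (hKi : (interior K).Nonempty) {L : ℝ} (hL : 0 < L) :
    ∃ C : ℝ, 0 ≤ C ∧ ∀ (π : Measure (E d × E d)) (s : Finset (E d)) (Q Q' : E d → E d),
      IsProbabilityMeasure π → Measurable Q → Measurable Q' → (∀ y, Q y ∈ s) →
      (∀ y, Q' y ∈ s) → (∀ y ∈ s, ‖y‖ ≤ L) →
      ∃ (φ₀ φ₁ : E d → ℝ) (T₀ T₁ : E d → E d), IsPair K L φ₀ T₀ ∧ IsPair K L φ₁ T₁ ∧
        (volume.restrict K).map T₀ = volume K • (π.map fun p => Q p.1) ∧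
        (volume.restrict K).map T₁ = volume K • (π.map fun p => Q' p.2) ∧
        ∫ x in K, ‖T₀ x - T₁ x‖ ^ 2 ≤ C * (∫ p, ‖Q' p.2 - Q p.1‖ ^ 2 ∂π) ^ (1 / 3 : ℝ) := by
  classical
  obtain ⟨C, hC, hst⟩ := discrete_stability hKc hKx hKi hL
  have hvol : 0 < volume.real K := by
    have : 0 < volume (interior K) := isOpen_interior.measure_pos volume hKi
    have h2 : 0 < volume K := this.trans_le (measure_mono interior_subset)
    exact ENNReal.toReal_pos h2.ne' hKc.measure_lt_top.ne
  have hKtop : volume K ≠ ⊤ := hKc.measure_lt_top.ne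
  refine ⟨C * (volume.real K) ^ (1 / 3 : ℝ), by positivity, ?_⟩
  intro π s Q Q' hπ hQ hQ' hs hs' hsL
  set F : E d × E d → E d × E d := fun p => (Q p.1, Q' p.2) with hF
  have hFm : Measurable F := (hQ.comp measurable_fst).prodMk (hQ'.comp measurable_snd)
  have hFs : ∀ p, F p ∈ s ×ˢ s := fun p => Finset.mem_product.2 ⟨hs _, hs' _⟩
  set S : Finset (E d × E d) := (s ×ˢ s).filter fun a => 0 < π.real (F ⁻¹' {a}) with hS
  -- sums over `S`
  have hsumS : ∀ g : E d × E d → ℝ, ∑ a : S, volume.real K * π.real (F ⁻¹' {a.1}) * g a.1 =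
      volume.real K * ∫ p, g (F p) ∂π := by
    intro g
    rw [integral_comp_finite π hFm hFs g, Finset.mul_sum,
      Finset.sum_coe_sort S (fun a => volume.real K * π.real (F ⁻¹' {a}) * g a), hS,
      Finset.sum_filter]
    refine Finset.sum_congr rfl fun a _ => ?_
    split_ifs with h
    · ring
    · have : π.real (F ⁻¹' {a}) = 0 := le_antisymm (not_lt.1 h) measureReal_nonneg
      rw [this]; ring
  have hsum : ∑ a : S, volume.real K * π.real (F ⁻¹' {a.1}) = volume.real K := by
    have := hsumS (fun _ => 1)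
    simpa using this
  haveI hne : Nonempty S := by
    by_contra h
    rw [not_nonempty_iff] at h
    rw [Finset.univ_eq_empty, Finset.sum_empty] at hsum
    exact hvol.ne hsum
  obtain ⟨φ₀, φ₁, T₀, T₁, hp₀, hp₁, hT₀, hT₁, hbd⟩ := hst S
    (fun a => volume.real K * π.real (F ⁻¹' {a.1})) (fun a => a.1.1) (fun a => a.1.2)
    (fun a => mul_pos hvol (Finset.mem_filter.1 a.2).2) hsum
    (fun a => hsL _ (Finset.mem_product.1 (Finset.mem_filter.1 a.2).1).1)
    (fun a => hsL _ (Finset.mem_product.1 (Finset.mem_filter.1 a.2).1).2)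
  -- identification of the pushforwards
  have hmap : ∀ G : E d × E d → E d, Measurable G →
      ∑ a : S, ENNReal.ofReal (volume.real K * π.real (F ⁻¹' {a.1})) • Measure.dirac (G a.1) =
        volume K • (π.map fun p => G (F p)) := by
    intro G hG
    ext A hA
    have hGF : Measurable fun p => G (F p) := hG.comp hFm
    rw [Measure.finsetSum_apply, Measure.smul_apply, smul_eq_mul,
      Measure.map_apply hGF hA]
    have h1 : (fun p => G (F p)) ⁻¹' A = F ⁻¹' (G ⁻¹' A) := rfl
    rw [h1, measure_preimage_finite π hFm hFs _ (hG hA), Finset.mul_sum]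
    simp only [Measure.smul_apply, smul_eq_mul, Measure.dirac_apply' _ hA]
    rw [Finset.sum_coe_sort S (fun a => ENNReal.ofReal (volume.real K * π.real (F ⁻¹' {a})) *
      A.indicator 1 (G a)), hS, Finset.sum_filter]
    refine Finset.sum_congr rfl fun a _ => ?_
    have h2 : ENNReal.ofReal (volume.real K * π.real (F ⁻¹' {a})) =
        volume K * π (F ⁻¹' {a}) := by
      rw [ENNReal.ofReal_mul hvol.le, measureReal_def, measureReal_def,
        ENNReal.ofReal_toReal hKtop, ENNReal.ofReal_toReal (measure_ne_top _ _)]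
    have h3 : A.indicator 1 (G a) = (G ⁻¹' A).indicator (fun _ => (1 : ENNReal)) a := rfl
    split_ifs with h
    · rw [h2, h3, mul_assoc]
    · have h4 : π.real (F ⁻¹' {a}) = 0 := le_antisymm (not_lt.1 h) measureReal_nonneg
      have h5 : π (F ⁻¹' {a}) = 0 := by
        rwa [measureReal_def, ENNReal.toReal_eq_zero_iff, or_iff_left (measure_ne_top _ _)] at h4
      rw [h5]; simp
  refine ⟨φ₀, φ₁, T₀, T₁, hp₀, hp₁, ?_, ?_, ?_⟩
  · rw [hT₀]; exact hmap Prod.fst measurable_fst
  · rw [hT₁]; exact hmap Prod.snd measurable_snd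
  · refine hbd.trans (le_of_eq ?_)
    have h1 := hsumS (fun a => ‖a.2 - a.1‖ ^ 2)
    rw [h1, Real.mul_rpow hvol.le (integral_nonneg fun p => sq_nonneg _)]
    ring

end Vale.Agent.P074
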