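import Mathlib
import Vale.Agent.P074.Approx

/-! Passage to general targets, for P074. -/

set_option linter.unusedSectionVars false

open MeasureTheory Finset
open scoped RealInnerProductSpace Topology

namespace Vale.Agent.P074

variable {d : ℕ}

lemma norm_toLp_sub_sq {ρ : Measure (E d)} {f g : E d → E d} (hf : MemLp f 2 ρ)
    (hg : MemLp g 2 ρ) : ‖hf.toLp f - hg.toLp g‖ ^ 2 = ∫ x, ‖f x - g x‖ ^ 2 ∂ρ := by
  rw [← MemLp.toLp_sub, ← real_inner_self_eq_norm_sq, L2.inner_def]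
  refine integral_congr_ae ?_
  filter_upwards [(hf.sub hg).coeFn_toLp] with x hx
  rw [hx, real_inner_self_eq_norm_sq, Pi.sub_apply]

lemma memLp_bdd {ρ : Measure (E d)} [IsFiniteMeasure ρ] {f : E d → E d} (hf : Measurable f)
    {L : ℝ} (hL : ∀ᵐ x ∂ρ, ‖f x‖ ≤ L) : MemLp f 2 ρ :=
  MemLp.of_bound hf.aestronglyMeasurable L hL

/-- two subgradient pairs with the same pushforward have almost everywhere equal maps -/
lemma pair_unique {K : Set (E d)} (hKc : IsCompact K) (hKx : Convex ℝ K)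
    (hKi : (interior K).Nonempty) {L : ℝ} (hL : 0 < L) {φ φ' : E d → ℝ} {T T' : E d → E d}
    (h : IsPair K L φ T) (h' : IsPair K L φ' T')
    (hmap : (volume.restrict K).map T = (volume.restrict K).map T') :
    ∫ x in K, ‖T x - T' x‖ ^ 2 = 0 := by
  obtain ⟨C, h₀, hC, hh₀, hgap⟩ := pair_gap hKc hKx hKi hL
  refine le_antisymm ?_ (integral_nonneg fun x => sq_nonneg _)
  refine le_of_forall_pos_le_add fun η hη => ?_
  have e1 := hgap φ T T' id 0 h.cont h.meas h'.meas measurable_id le_rfl h.bdd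
    (Filter.Eventually.of_forall h'.bdd) h.sub (Filter.Eventually.of_forall fun x => by simp)
    (by simpa using hmap) (min h₀ (η / C)) (lt_min hh₀ (by positivity)) (min_le_left _ _)
  have e2 := hgap φ' T' T id 0 h'.cont h'.meas h.meas measurable_id le_rfl h'.bdd
    (Filter.Eventually.of_forall h.bdd) h'.sub (Filter.Eventually.of_forall fun x => by simp)
    (by simpa using hmap.symm) (min h₀ (η / C)) (lt_min hh₀ (by positivity)) (min_le_left _ _)
  have e3 : ∫ x in K, ‖T' x - T x‖ ^ 2 = ∫ x in K, ‖T x - T' x‖ ^ 2 := by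
    congr 1; ext x; rw [norm_sub_rev]
  have e4 : C * min h₀ (η / C) ≤ η := by
    calc C * min h₀ (η / C) ≤ C * (η / C) := mul_le_mul_of_nonneg_left (min_le_right _ _) hC.le
      _ = η := by field_simp
  rw [e3] at e1
  have hm : 0 < min h₀ (η / C) := lt_min hh₀ (by positivity)
  rw [mul_zero, add_zero, mul_add] at e1 e2
  have e5 : C * (((∫ x in K, ⟪x, T x⟫) - ∫ x in K, ⟪x, T' x⟫) / min h₀ (η / C)) +
      C * (((∫ x in K, ⟪x, T' x⟫) - ∫ x in K, ⟪x, T x⟫) / min h₀ (η / C)) = 0 := by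
    ring
  linarith

/-- quantized comparison of pairs -/
theorem compare_pairs {K : Set (E d)} (hKc : IsCompact K) (hKx : Convex ℝ K)
    (hKi : (interior K).Nonempty) {L : ℝ} (hL : 0 < L) :
    ∃ C : ℝ, 0 ≤ C ∧ ∀ (π : Measure (E d × E d)) (s s' : Finset (E d)) (Q Q' : E d → E d),
      IsProbabilityMeasure π → Measurable Q → Measurable Q' → (∀ y, Q y ∈ s) →
      (∀ y, Q' y ∈ s') → (∀ y ∈ s, ‖y‖ ≤ L) → (∀ y ∈ s', ‖y‖ ≤ L) →
      (∃ (φ : E d → ℝ) (T : E d → E d), IsPair K L φ T ∧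
        (volume.restrict K).map T = volume K • (π.map fun p => Q p.1)) ∧
      ∀ (φ₀ φ₁ : E d → ℝ) (T₀ T₁ : E d → E d), IsPair K L φ₀ T₀ → IsPair K L φ₁ T₁ →
        (volume.restrict K).map T₀ = volume K • (π.map fun p => Q p.1) →
        (volume.restrict K).map T₁ = volume K • (π.map fun p => Q' p.2) →
        ∫ x in K, ‖T₀ x - T₁ x‖ ^ 2 ≤ C * (∫ p, ‖Q' p.2 - Q p.1‖ ^ 2 ∂π) ^ (1 / 3 : ℝ) := by
  classical
  obtain ⟨C, hC, hst⟩ := quantized_stability hKc hKx hKi hL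
  have : IsFiniteMeasure (volume.restrict K) := ⟨by
    rw [Measure.restrict_apply_univ]; exact hKc.measure_lt_top⟩
  refine ⟨C, hC, ?_⟩
  intro π s s' Q Q' hπ hQ hQ' hs hs' hsL hsL'
  obtain ⟨φ, φ', T, T', hT, hT', hmT, hmT', hbd⟩ := hst π (s ∪ s') Q Q' hπ hQ hQ'
    (fun y => Finset.mem_union_left _ (hs y)) (fun y => Finset.mem_union_right _ (hs' y))
    (fun y hy => (Finset.mem_union.1 hy).elim (hsL y) (hsL' y))
  refine ⟨⟨φ, T, hT, hmT⟩, ?_⟩
  intro φ₀ φ₁ T₀ T₁ h₀ h₁ hm₀ hm₁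
  have e0 := pair_unique hKc hKx hKi hL h₀ hT (hm₀.trans hmT.symm)
  have e1 := pair_unique hKc hKx hKi hL h₁ hT' (hm₁.trans hmT'.symm)
  have m0 := memLp_bdd (ρ := volume.restrict K) h₀.meas (Filter.Eventually.of_forall h₀.bdd)
  have m1 := memLp_bdd (ρ := volume.restrict K) h₁.meas (Filter.Eventually.of_forall h₁.bdd)
  have mT := memLp_bdd (ρ := volume.restrict K) hT.meas (Filter.Eventually.of_forall hT.bdd)
  have mT' := memLp_bdd (ρ := volume.restrict K) hT'.meas (Filter.Eventually.of_forall hT'.bdd)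
  rw [← norm_toLp_sub_sq m0 mT, sq_eq_zero_iff, norm_eq_zero, sub_eq_zero] at e0
  rw [← norm_toLp_sub_sq m1 mT', sq_eq_zero_iff, norm_eq_zero, sub_eq_zero] at e1
  rw [← norm_toLp_sub_sq m0 m1, e0, e1, norm_toLp_sub_sq]
  exact hbd

end Vale.Agent.P074
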