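import Mathlib
import Vale.Agent.P074.Limit

/-! Limits of subgradient pairs and optimal maps, for P074. -/

set_option linter.unusedSectionVars false

open MeasureTheory Finset Filter
open scoped RealInnerProductSpace Topology ENNReal

namespace Vale.Agent.P074

variable {d : ℕ}

/-- pushforwards pass to the limit under almost everywhere convergence -/
lemma map_eq_of_tendsto {ρ μ' : Measure (E d)} [IsFiniteMeasure ρ] [IsFiniteMeasure μ']
    {Tn Qn : ℕ → E d → E d} {T' : E d → E d} (hTn : ∀ n, Measurable (Tn n))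
    (hT' : Measurable T') (hQ : ∀ n, Measurable (Qn n))
    (hmap : ∀ n, ρ.map (Tn n) = μ'.map (Qn n))
    (h1 : ∀ᵐ y ∂μ', Tendsto (fun n => Qn n y) atTop (𝓝 y)) {ns : ℕ → ℕ}
    (hns : StrictMono ns) (hae : ∀ᵐ x ∂ρ, Tendsto (fun i => Tn (ns i) x) atTop (𝓝 (T' x))) :
    ρ.map T' = μ' := by
  have : IsFiniteMeasure (ρ.map T') := Measure.isFiniteMeasure_map ρ T'
  refine ext_of_forall_integral_eq_of_IsFiniteMeasure fun g => ?_
  rw [integral_map hT'.aemeasurable g.continuous.aestronglyMeasurable]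
  have l1 : Tendsto (fun i => ∫ x, g (Tn (ns i) x) ∂ρ) atTop (𝓝 (∫ x, g (T' x) ∂ρ)) := by
    refine tendsto_integral_of_dominated_convergence (fun _ => ‖g‖) ?_ (integrable_const _) ?_ ?_
    · exact fun i => (g.continuous.measurable.comp (hTn _)).aestronglyMeasurable
    · exact fun i => Eventually.of_forall fun x => g.norm_coe_le_norm _
    · filter_upwards [hae] with x hx
      exact (g.continuous.tendsto _).comp hx
  have l2 : Tendsto (fun i => ∫ y, g (Qn (ns i) y) ∂μ') atTop (𝓝 (∫ y, g y ∂μ')) := by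
    refine tendsto_integral_of_dominated_convergence (fun _ => ‖g‖) ?_ (integrable_const _) ?_ ?_
    · exact fun i => (g.continuous.measurable.comp (hQ _)).aestronglyMeasurable
    · exact fun i => Eventually.of_forall fun x => g.norm_coe_le_norm _
    · filter_upwards [h1] with x hx
      exact (g.continuous.tendsto _).comp (hx.comp hns.tendsto_atTop)
  have h3 : ∀ i, ∫ x, g (Tn (ns i) x) ∂ρ = ∫ y, g (Qn (ns i) y) ∂μ' := by
    intro i
    rw [← integral_map (hTn _).aemeasurable g.continuous.aestronglyMeasurable, hmap,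
      integral_map (hQ _).aemeasurable g.continuous.aestronglyMeasurable]
  simp only [h3] at l1
  exact tendsto_nhds_unique l1 l2

/-- a Cauchy sequence of bounded maps has a measurable limit map -/
lemma exists_limit_map {ρ μ' : Measure (E d)} [IsFiniteMeasure ρ] [IsFiniteMeasure μ']
    {Tn Qn : ℕ → E d → E d} {L : ℝ} (hTn : ∀ n, Measurable (Tn n)) (hL : ∀ n x, ‖Tn n x‖ ≤ L)
    (hQ : ∀ n, Measurable (Qn n))
    (hmap : ∀ n, ρ.map (Tn n) = μ'.map (Qn n))
    (h1 : ∀ᵐ y ∂μ', Tendsto (fun n => Qn n y) atTop (𝓝 y)) {b : ℕ → ℕ → ℝ}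
    (hb : Tendsto (fun p : ℕ × ℕ => b p.1 p.2) atTop (𝓝 0))
    (hc : ∀ n m, ∫ x, ‖Tn n x - Tn m x‖ ^ 2 ∂ρ ≤ b n m) :
    ∃ T' : E d → E d, Measurable T' ∧ (∀ᵐ x ∂ρ, ‖T' x‖ ≤ L) ∧ ρ.map T' = μ' ∧
      Tendsto (fun n => ∫ x, ‖Tn n x - T' x‖ ^ 2 ∂ρ) atTop (𝓝 0) := by
  have hm : ∀ n, MemLp (Tn n) 2 ρ := fun n =>
    memLp_bdd (hTn n) (L := L) (Eventually.of_forall (hL n))
  set F : ℕ → Lp (E d) 2 ρ := fun n => (hm n).toLp (Tn n) with hF
  have hcs : CauchySeq F := by
    rw [cauchySeq_iff_tendsto_dist_atTop_0]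
    have h2 : ∀ p : ℕ × ℕ, dist (F p.1) (F p.2) ≤ Real.sqrt (b p.1 p.2) := by
      intro p
      refine Real.le_sqrt_of_sq_le ?_
      rw [dist_eq_norm, hF, norm_toLp_sub_sq]
      exact hc _ _
    have h3 : Tendsto (fun p : ℕ × ℕ => Real.sqrt (b p.1 p.2)) atTop (𝓝 0) := by
      have := (Real.continuous_sqrt.tendsto 0).comp hb
      simpa [Function.comp_def] using this
    exact squeeze_zero (fun p => dist_nonneg) h2 h3
  obtain ⟨f, hf⟩ := cauchySeq_tendsto_of_complete hcs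
  have hfm : MemLp f 2 ρ := Lp.memLp f
  set T' : E d → E d := (Lp.aestronglyMeasurable f).mk f with hT'
  have hT'm : Measurable T' := (Lp.aestronglyMeasurable f).stronglyMeasurable_mk.measurable
  have hae' : f =ᵐ[ρ] T' := (Lp.aestronglyMeasurable f).ae_eq_mk
  have hmT' : MemLp T' 2 ρ := hfm.ae_eq hae'
  have hfT' : hmT'.toLp T' = f := by
    refine Lp.ext ?_
    exact hmT'.coeFn_toLp.trans hae'.symm
  have hmeas := tendstoInMeasure_of_tendsto_Lp hf
  obtain ⟨ns, hns, hns'⟩ := hmeas.exists_seq_tendsto_ae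
  have hae : ∀ᵐ x ∂ρ, Tendsto (fun i => Tn (ns i) x) atTop (𝓝 (T' x)) := by
    have h4 : ∀ᵐ x ∂ρ, ∀ n, F n x = Tn n x := by
      rw [ae_all_iff]
      exact fun n => (hm n).coeFn_toLp
    filter_upwards [hns', h4, hae'] with x hx hx4 hx'
    rw [← hx']
    simpa [hx4] using hx
  refine ⟨T', hT'm, ?_, ?_, ?_⟩
  · filter_upwards [hae] with x hx
    exact le_of_tendsto hx.norm (Eventually.of_forall fun i => hL _ x)
  · exact map_eq_of_tendsto hTn hT'm hQ hmap h1 hns hae
  · have h5 : Tendsto (fun n => ‖F n - f‖ ^ 2) atTop (𝓝 0) := by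
      have h6 : Tendsto (fun n => ‖F n - f‖) atTop (𝓝 0) := by
        rw [← tendsto_iff_norm_sub_tendsto_zero]
        exact hf
      simpa using h6.pow 2
    refine h5.congr fun n => ?_
    rw [← hfT', hF, norm_toLp_sub_sq]

end Vale.Agent.P074
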