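import Mathlib
import Vale.Agent.P074.FinA

/-! Optimal maps are limits of subgradient pairs, for P074. -/

set_option linter.unusedSectionVars false

open MeasureTheory Finset Filter
open scoped RealInnerProductSpace Topology ENNReal

namespace Vale.Agent.P074

variable {d : ℕ}

lemma memLp_id {K : Set (E d)} (hKc : IsCompact K) :
    MemLp (fun x : E d => x) 2 (volume.restrict K) := by
  have : IsFiniteMeasure (volume.restrict K) := ⟨by
    rw [Measure.restrict_apply_univ]; exact hKc.measure_lt_top⟩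
  obtain ⟨R, hR⟩ := hKc.exists_bound_of_continuousOn (continuous_id.continuousOn (s := K))
  refine MemLp.of_bound measurable_id.aestronglyMeasurable R ?_
  filter_upwards [ae_restrict_mem hKc.measurableSet] with x hx
  exact hR x hx

/-- inner products against the identity pass to the limit -/
lemma tendsto_inner_id {K : Set (E d)} (hKc : IsCompact K) {Tn : ℕ → E d → E d} {T' : E d → E d}
    (hm : ∀ n, MemLp (Tn n) 2 (volume.restrict K)) (hm' : MemLp T' 2 (volume.restrict K))
    (h : Tendsto (fun n => ∫ x in K, ‖Tn n x - T' x‖ ^ 2) atTop (𝓝 0)) :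
    Tendsto (fun n => ∫ x in K, ⟪x, Tn n x⟫) atTop (𝓝 (∫ x in K, ⟪x, T' x⟫)) := by
  have hid := memLp_id hKc
  have key : ∀ {T : E d → E d} (hT : MemLp T 2 (volume.restrict K)),
      ⟪hid.toLp _, hT.toLp T⟫ = ∫ x in K, ⟪x, T x⟫ := by
    intro T hT
    rw [L2.inner_def]
    refine integral_congr_ae ?_
    filter_upwards [hid.coeFn_toLp, hT.coeFn_toLp] with x h1 h2
    rw [h1, h2]
  have h2 : Tendsto (fun n => (hm n).toLp (Tn n)) atTop (𝓝 (hm'.toLp T')) := by
    rw [tendsto_iff_norm_sub_tendsto_zero]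
    have h3 := (Real.continuous_sqrt.tendsto 0).comp h
    rw [Real.sqrt_zero] at h3
    refine h3.congr fun n => ?_
    rw [Function.comp_apply, ← norm_toLp_sub_sq (hm n) hm', Real.sqrt_sq (norm_nonneg _)]
  have h4 : Tendsto (fun n => ⟪hid.toLp _, (hm n).toLp (Tn n)⟫) atTop
      (𝓝 ⟪hid.toLp _, hm'.toLp T'⟫) := tendsto_const_nhds.inner h2
  rw [key] at h4
  exact h4.congr fun n => key _

lemma volume_pos_of {K : Set (E d)} (hKi : (interior K).Nonempty) : volume K ≠ 0 := by
  have h1 : 0 < volume (interior K) := isOpen_interior.measure_pos _ hKi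
  exact (lt_of_lt_of_le h1 (measure_mono interior_subset)).ne'

lemma map_of_unif {K : Set (E d)} (hKc : IsCompact K) (hKi : (interior K).Nonempty)
    {μ : Measure (E d)} {T : E d → E d} (h : (unif K).map T = μ) :
    (volume.restrict K).map T = volume K • μ := by
  rw [← h, unif, Measure.map_smul, smul_smul,
    ENNReal.mul_inv_cancel (volume_pos_of hKi) hKc.measure_lt_top.ne, one_smul]

lemma unif_of_map {K : Set (E d)} (hKc : IsCompact K) (hKi : (interior K).Nonempty)
    {μ : Measure (E d)} {T : E d → E d} (h : (volume.restrict K).map T = volume K • μ) :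
    (unif K).map T = μ := by
  rw [unif, Measure.map_smul, h, smul_smul,
    ENNReal.inv_mul_cancel (volume_pos_of hKi) hKc.measure_lt_top.ne, one_smul]

lemma integral_unif {K : Set (E d)} (f : E d → ℝ) :
    ∫ x, f x ∂(unif K) = (volume.real K)⁻¹ * ∫ x in K, f x := by
  rw [unif, integral_smul_measure, ENNReal.toReal_inv, smul_eq_mul]
  rfl

lemma ae_mem_of_map {K Y : Set (E d)} (hY : MeasurableSet Y) {μ : Measure (E d)} (hμ : μ Yᶜ = 0)
    {T : E d → E d} (hT : Measurable T) (h : (volume.restrict K).map T = volume K • μ) :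
    ∀ᵐ x ∂(volume.restrict K), T x ∈ Y := by
  have h1 : (volume.restrict K).map T Yᶜ = 0 := by
    rw [h, Measure.smul_apply, hμ, smul_zero]
  rw [Measure.map_apply hT hY.compl] at h1
  exact h1

/-- an optimal map has the largest correlation with the identity -/
lemma optimal_inner {K : Set (E d)} (hKc : IsCompact K) (hKi : (interior K).Nonempty)
    {μ : Measure (E d)} {T T' : E d → E d} (hT : IsOptimalMap (unif K) μ T)
    (hT' : Measurable T') (hmap : (volume.restrict K).map T' = volume K • μ)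
    (hm : MemLp T 2 (volume.restrict K)) (hm' : MemLp T' 2 (volume.restrict K)) :
    ∫ x in K, ⟪x, T' x⟫ ≤ ∫ x in K, ⟪x, T x⟫ := by
  have hvol : 0 < volume.real K := by
    rw [Measure.real, ENNReal.toReal_pos_iff]
    exact ⟨pos_iff_ne_zero.2 (volume_pos_of hKi), hKc.measure_lt_top⟩
  have h1 := hT.2.2 T' hT' (unif_of_map hKc hKi hmap)
  rw [integral_unif, integral_unif] at h1
  have h2 := le_of_mul_le_mul_left h1 (inv_pos.2 hvol)
  have hid := memLp_id hKc
  have exp : ∀ {S : E d → E d}, MemLp S 2 (volume.restrict K) →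
      ∫ x in K, ‖x - S x‖ ^ 2 = (∫ x in K, ‖x‖ ^ 2) - 2 * (∫ x in K, ⟪x, S x⟫) +
        ∫ x in K, ‖S x‖ ^ 2 := by
    intro S hS
    have i1 : Integrable (fun x : E d => ‖x‖ ^ 2) (volume.restrict K) :=
      (memLp_two_iff_integrable_sq_norm hid.1).1 hid
    have i2 : Integrable (fun x : E d => ‖S x‖ ^ 2) (volume.restrict K) :=
      (memLp_two_iff_integrable_sq_norm hS.1).1 hS
    have i3 : Integrable (fun x : E d => ⟪x, S x⟫) (volume.restrict K) := by
      refine (L2.integrable_inner (𝕜 := ℝ) (hid.toLp _) (hS.toLp S)).congr ?_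
      filter_upwards [hid.coeFn_toLp, hS.coeFn_toLp] with x h1 h2
      rw [h1, h2]
    have i4 : Integrable (fun x : E d => ‖x‖ ^ 2 - 2 * ⟪x, S x⟫) (volume.restrict K) :=
      i1.sub (i3.const_mul 2)
    rw [← integral_const_mul, ← integral_sub i1 (i3.const_mul 2), ← integral_add i4 i2]
    refine integral_congr_ae (Eventually.of_forall fun x => ?_)
    simp only
    rw [norm_sub_sq_real]
  have h3 : ∫ x in K, ‖T x‖ ^ 2 = ∫ x in K, ‖T' x‖ ^ 2 := by
    have e1 := map_of_unif hKc hKi hT.2.1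
    have hc : AEStronglyMeasurable (fun y : E d => ‖y‖ ^ 2) ((volume.restrict K).map T) :=
      (continuous_norm.pow 2).aestronglyMeasurable
    have hc' : AEStronglyMeasurable (fun y : E d => ‖y‖ ^ 2) ((volume.restrict K).map T') :=
      (continuous_norm.pow 2).aestronglyMeasurable
    rw [← integral_map hT.1.aemeasurable hc, ← integral_map hT'.aemeasurable hc', e1, hmap]
  rw [exp hm, exp hm', h3] at h2
  linarith

/-- **Optimal maps are limits of the quantized pairs.** -/
theorem optimal_limit {K : Set (E d)} (hKc : IsCompact K) (hKx : Convex ℝ K)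
    (hKi : (interior K).Nonempty) {Y : Set (E d)} (hY : IsCompact Y) {L : ℝ} (hL : 0 < L)
    (hYL : ∀ y ∈ Y, ‖y‖ ≤ L) {s : ℕ → Finset (E d)} {Q : ℕ → E d → E d} {δ : ℕ → ℝ}
    (hδ : ∀ n, 0 < δ n) (hδ0 : Tendsto δ atTop (𝓝 0))
    (hQ : ∀ n, Measurable (Q n)) (hs : ∀ n y, Q n y ∈ s n) (hsY : ∀ n, ∀ y ∈ s n, y ∈ Y)
    (hQd : ∀ n, ∀ y ∈ Y, ‖Q n y - y‖ ≤ δ n) {μ : Measure (E d)} [IsProbabilityMeasure μ]
    (hμ : μ Yᶜ = 0) {T : E d → E d} (hT : IsOptimalMap (unif K) μ T)
    {φn : ℕ → E d → ℝ} {Tn : ℕ → E d → E d} (hp : ∀ n, IsPair K L (φn n) (Tn n))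
    (hpm : ∀ n, (volume.restrict K).map (Tn n) = volume K • (μ.map (Q n))) :
    Tendsto (fun n => ∫ x in K, ‖Tn n x - T x‖ ^ 2) atTop (𝓝 0) := by
  have : IsFiniteMeasure (volume.restrict K) := ⟨by
    rw [Measure.restrict_apply_univ]; exact hKc.measure_lt_top⟩
  have hYm : MeasurableSet Y := hY.measurableSet
  have hμae : ∀ᵐ y ∂μ, y ∈ Y := hμ
  have hfin : IsFiniteMeasure (volume K • μ) := ⟨by
    rw [Measure.smul_apply, measure_univ, smul_eq_mul, mul_one]
    exact hKc.measure_lt_top⟩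
  have hYae' : ∀ᵐ y ∂(volume K • μ), y ∈ Y := by
    change (volume K • μ) Yᶜ = 0
    rw [Measure.smul_apply, hμ, smul_zero]
  obtain ⟨C, hC, hcmp⟩ := compare_pairs hKc hKx hKi hL
  -- the sequence of maps is Cauchy
  have hcauchy : ∀ n m, ∫ x in K, ‖Tn n x - Tn m x‖ ^ 2 ≤
      C * ((δ n + δ m) ^ 2) ^ (1 / 3 : ℝ) := by
    intro n m
    set π : Measure (E d × E d) := μ.map fun y => (y, y) with hπ
    have hdm : Measurable fun y : E d => (y, y) := measurable_id.prodMk measurable_id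
    have : IsProbabilityMeasure π := Measure.isProbabilityMeasure_map hdm.aemeasurable
    have h1 := (hcmp π (s n) (s m) (Q n) (Q m) inferInstance (hQ n) (hQ m) (hs n) (hs m)
      (fun y hy => hYL y (hsY n y hy)) (fun y hy => hYL y (hsY m y hy))).2
      (φn n) (φn m) (Tn n) (Tn m) (hp n) (hp m)
      (by
        rw [hpm n, hπ, Measure.map_map (g := fun p : E d × E d => Q n p.1)
          ((hQ n).comp measurable_fst) hdm]
        rfl)
      (by
        rw [hpm m, hπ, Measure.map_map (g := fun p : E d × E d => Q m p.2)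
          ((hQ m).comp measurable_snd) hdm]
        rfl)
    refine h1.trans (mul_le_mul_of_nonneg_left ?_ hC)
    refine Real.rpow_le_rpow (integral_nonneg fun p => sq_nonneg _) ?_ (by norm_num)
    have hmeas : Measurable fun p : E d × E d => ‖Q m p.2 - Q n p.1‖ ^ 2 :=
      ((((hQ m).comp measurable_snd).sub ((hQ n).comp measurable_fst)).norm.pow_const 2)
    rw [hπ, integral_map hdm.aemeasurable hmeas.aestronglyMeasurable]
    have h2 : ∫ y, ‖Q m y - Q n y‖ ^ 2 ∂μ ≤ ∫ _y, (δ n + δ m) ^ 2 ∂μ := by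
      refine integral_mono_of_nonneg (Eventually.of_forall fun y => sq_nonneg _)
        (integrable_const _) ?_
      filter_upwards [hμae] with y hy
      refine pow_le_pow_left₀ (norm_nonneg _) ?_ 2
      calc ‖Q m y - Q n y‖ = ‖(Q m y - y) - (Q n y - y)‖ := by congr 1; abel
        _ ≤ ‖Q m y - y‖ + ‖Q n y - y‖ := norm_sub_le _ _
        _ ≤ δ m + δ n := add_le_add (hQd m y hy) (hQd n y hy)
        _ = δ n + δ m := add_comm _ _
    refine h2.trans (le_of_eq ?_)
    simp
  have hb : Tendsto (fun p : ℕ × ℕ => C * ((δ p.1 + δ p.2) ^ 2) ^ (1 / 3 : ℝ)) atTop (𝓝 0) := by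
    have h1 : Tendsto (fun p : ℕ × ℕ => δ p.1 + δ p.2) atTop (𝓝 (0 + 0)) := by
      rw [← prod_atTop_atTop_eq]
      exact (hδ0.comp tendsto_fst).add (hδ0.comp tendsto_snd)
    have h2 := ((h1.pow 2).rpow_const (p := (1 / 3 : ℝ)) (Or.inr (by norm_num))).const_mul C
    simpa using h2
  have hQlim : ∀ᵐ y ∂(volume K • μ), Tendsto (fun n => Q n y) atTop (𝓝 y) := by
    filter_upwards [hYae'] with y hy
    rw [tendsto_iff_norm_sub_tendsto_zero]
    exact squeeze_zero (fun n => norm_nonneg _) (fun n => hQd n y hy) hδ0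
  obtain ⟨T', hT'm, hT'L, hT'map, hT'lim⟩ := exists_limit_map (ρ := volume.restrict K)
    (μ' := volume K • μ) (Tn := Tn) (Qn := Q) (L := L) (fun n => (hp n).meas)
    (fun n x => (hp n).bdd x) hQ (fun n => by rw [hpm n, Measure.map_smul]) hQlim
    (b := fun n m => C * ((δ n + δ m) ^ 2) ^ (1 / 3 : ℝ)) hb hcauchy
  have hTmap := map_of_unif hKc hKi hT.2.1
  have hTY := ae_mem_of_map hYm hμ hT.1 hTmap
  have hTL : ∀ᵐ x ∂(volume.restrict K), ‖T x‖ ≤ L := by
    filter_upwards [hTY] with x hx using hYL _ hx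
  have hmT : MemLp T 2 (volume.restrict K) := memLp_bdd hT.1 hTL
  have hmT' : MemLp T' 2 (volume.restrict K) := memLp_bdd hT'm hT'L
  have hmn : ∀ n, MemLp (Tn n) 2 (volume.restrict K) := fun n =>
    memLp_bdd (hp n).meas (L := L) (Eventually.of_forall (hp n).bdd)
  have hin := optimal_inner hKc hKi hT hT'm hT'map hmT hmT'
  have hlim := tendsto_inner_id hKc hmn hmT' hT'lim
  obtain ⟨C', h₀, hC', hh₀, hgap⟩ := pair_gap hKc hKx hKi hL
  rw [Metric.tendsto_atTop]
  intro ε hε
  set h : ℝ := min h₀ (ε / (4 * C')) with hh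
  have hhpos : 0 < h := lt_min hh₀ (by positivity)
  have hlim2 : Tendsto (fun n => C' * (((∫ x in K, ⟪x, Tn n x⟫) - (∫ x in K, ⟪x, T x⟫) +
      C' * δ n) / h + h)) atTop (𝓝 (C' * (((∫ x in K, ⟪x, T' x⟫) - (∫ x in K, ⟪x, T x⟫) +
      C' * 0) / h + h))) :=
    ((((hlim.sub_const _).add (hδ0.const_mul C')).div_const h).add_const h).const_mul C'
  have hle : C' * (((∫ x in K, ⟪x, T' x⟫) - (∫ x in K, ⟪x, T x⟫) + C' * 0) / h + h) < ε := by
    have a1 : ((∫ x in K, ⟪x, T' x⟫) - (∫ x in K, ⟪x, T x⟫) + C' * 0) / h ≤ 0 :=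
      div_nonpos_of_nonpos_of_nonneg (by linarith) hhpos.le
    have a2 : C' * h ≤ ε / 4 := by
      calc C' * h ≤ C' * (ε / (4 * C')) := mul_le_mul_of_nonneg_left (min_le_right _ _) hC'.le
        _ = ε / 4 := by field_simp
    have a3 : C' * (((∫ x in K, ⟪x, T' x⟫) - (∫ x in K, ⟪x, T x⟫) + C' * 0) / h + h) ≤ C' * h :=
      mul_le_mul_of_nonneg_left (by linarith) hC'.le
    linarith
  obtain ⟨N, hN⟩ := eventually_atTop.1 (hlim2.eventually_lt_const hle)
  refine ⟨N, fun n hn => ?_⟩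
  have hg := hgap (φn n) (Tn n) T (Q n) (δ n) (hp n).cont (hp n).meas hT.1 (hQ n) (hδ n).le
    (hp n).bdd hTL (hp n).sub
    (by filter_upwards [hTY] with x hx using hQd n _ hx)
    (by
      have e1 : (volume.restrict K).map (fun x => Q n (T x)) =
          ((volume.restrict K).map T).map (Q n) := (Measure.map_map (hQ n) hT.1).symm
      rw [hpm n, e1, hTmap, Measure.map_smul])
    h hhpos (min_le_left _ _)
  have e3 : ∫ x in K, ‖T x - Tn n x‖ ^ 2 = ∫ x in K, ‖Tn n x - T x‖ ^ 2 := by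
    congr 1; ext x; rw [norm_sub_rev]
  rw [e3] at hg
  rw [Real.dist_eq, sub_zero, abs_of_nonneg (integral_nonneg fun x => sq_nonneg _)]
  exact lt_of_le_of_lt hg (hN n hn)

end Vale.Agent.P074
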