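import Mathlib
import Vale.Agent.P074.FinB

/-! The stability estimate with exponent one third, for P074. -/

set_option linter.unusedSectionVars false

open MeasureTheory Finset Filter
open scoped RealInnerProductSpace Topology ENNReal

namespace Vale.Agent.P074

variable {d : ℕ}

/-- **Main stability estimate.** -/
theorem optimal_stability {K : Set (E d)} (hKc : IsCompact K) (hKx : Convex ℝ K)
    (hKi : (interior K).Nonempty) {Y : Set (E d)} (hY : IsCompact Y) (hYne : Y.Nonempty)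
    {L : ℝ} (hL : 0 < L) (hYL : ∀ y ∈ Y, ‖y‖ ≤ L) :
    ∃ C : ℝ, 0 ≤ C ∧ ∀ μ ν : Measure (E d), IsProbabilityMeasure μ → IsProbabilityMeasure ν →
      μ Yᶜ = 0 → ν Yᶜ = 0 →
      ∀ T S : E d → E d, IsOptimalMap (unif K) μ T → IsOptimalMap (unif K) ν S →
      ∀ π : Measure (E d × E d), π.map Prod.fst = μ → π.map Prod.snd = ν →
        ∫ x in K, ‖T x - S x‖ ^ 2 ≤ C * (∫ p, ‖p.1 - p.2‖ ^ 2 ∂π) ^ (1 / 3 : ℝ) := by
  have : IsFiniteMeasure (volume.restrict K) := ⟨by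
    rw [Measure.restrict_apply_univ]; exact hKc.measure_lt_top⟩
  obtain ⟨C, hC, hcmp⟩ := compare_pairs hKc hKx hKi hL
  refine ⟨C, hC, ?_⟩
  intro μ ν hμp hνp hμ hν T S hT hS π hπ1 hπ2
  have hYm : MeasurableSet Y := hY.measurableSet
  set δ : ℕ → ℝ := fun n => 1 / ((n : ℝ) + 1) with hδdef
  have hδ : ∀ n, 0 < δ n := fun n => by rw [hδdef]; positivity
  have hδ0 : Tendsto δ atTop (𝓝 0) := tendsto_one_div_add_atTop_nhds_zero_nat
  have hq := fun n : ℕ => exists_quantizer hY hYne (hδ n)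
  choose s Q hQ hs hsY hQd using hq
  have hπ : IsProbabilityMeasure π := ⟨by
    have h1 : π.map Prod.fst Set.univ = μ Set.univ := by rw [hπ1]
    rw [Measure.map_apply measurable_fst MeasurableSet.univ, Set.preimage_univ] at h1
    rw [h1]
    exact measure_univ⟩
  have hsL : ∀ n, ∀ y ∈ s n, ‖y‖ ≤ L := fun n y hy => hYL y (hsY n y hy)
  have hm1 : ∀ n, (π.map fun p => Q n p.1) = μ.map (Q n) := by
    intro n
    rw [← hπ1, Measure.map_map (hQ n) measurable_fst]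
    rfl
  have hm2 : ∀ n, (π.map fun p => Q n p.2) = ν.map (Q n) := by
    intro n
    rw [← hπ2, Measure.map_map (hQ n) measurable_snd]
    rfl
  have hexμ : ∀ n, ∃ (φ : E d → ℝ) (T : E d → E d), IsPair K L φ T ∧
      (volume.restrict K).map T = volume K • (μ.map (Q n)) := by
    intro n
    obtain ⟨φ, T, h1, h2⟩ := (hcmp π (s n) (s n) (Q n) (Q n) hπ (hQ n) (hQ n) (hs n) (hs n)
      (hsL n) (hsL n)).1
    exact ⟨φ, T, h1, by rw [h2, hm1]⟩
  have hexν : ∀ n, ∃ (φ : E d → ℝ) (T : E d → E d), IsPair K L φ T ∧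
      (volume.restrict K).map T = volume K • (ν.map (Q n)) := by
    intro n
    have hsw : IsProbabilityMeasure (π.map Prod.swap) :=
      Measure.isProbabilityMeasure_map measurable_swap.aemeasurable
    obtain ⟨φ, T, h1, h2⟩ := (hcmp (π.map Prod.swap) (s n) (s n) (Q n) (Q n) hsw (hQ n) (hQ n)
      (hs n) (hs n) (hsL n) (hsL n)).1
    refine ⟨φ, T, h1, ?_⟩
    rw [h2, ← hm2, Measure.map_map (g := fun p : E d × E d => Q n p.1)
      ((hQ n).comp measurable_fst) measurable_swap]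
    rfl
  choose φn Tn hTn hTnm using hexμ
  choose ψn Sn hSn hSnm using hexν
  have limT := optimal_limit hKc hKx hKi hY hL hYL hδ hδ0 hQ hs hsY hQd hμ hT hTn hTnm
  have limS := optimal_limit hKc hKx hKi hY hL hYL hδ hδ0 hQ hs hsY hQd hν hS hSn hSnm
  have hTL : ∀ᵐ x ∂(volume.restrict K), ‖T x‖ ≤ L := by
    filter_upwards [ae_mem_of_map hYm hμ hT.1 (map_of_unif hKc hKi hT.2.1)] with x hx
      using hYL _ hx
  have hSL : ∀ᵐ x ∂(volume.restrict K), ‖S x‖ ≤ L := by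
    filter_upwards [ae_mem_of_map hYm hν hS.1 (map_of_unif hKc hKi hS.2.1)] with x hx
      using hYL _ hx
  have mT : MemLp T 2 (volume.restrict K) := memLp_bdd hT.1 hTL
  have mS : MemLp S 2 (volume.restrict K) := memLp_bdd hS.1 hSL
  have mTn : ∀ n, MemLp (Tn n) 2 (volume.restrict K) := fun n =>
    memLp_bdd (hTn n).meas (L := L) (Eventually.of_forall (hTn n).bdd)
  have mSn : ∀ n, MemLp (Sn n) 2 (volume.restrict K) := fun n =>
    memLp_bdd (hSn n).meas (L := L) (Eventually.of_forall (hSn n).bdd)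
  set I : ℝ := ∫ p, ‖p.1 - p.2‖ ^ 2 ∂π with hI
  have hI0 : 0 ≤ I := integral_nonneg fun p => sq_nonneg _
  -- supports
  have hπY1 : ∀ᵐ p ∂π, p.1 ∈ Y := by
    have h1 : π.map Prod.fst Yᶜ = 0 := by rw [hπ1, hμ]
    rw [Measure.map_apply measurable_fst hYm.compl] at h1
    exact h1
  have hπY2 : ∀ᵐ p ∂π, p.2 ∈ Y := by
    have h1 : π.map Prod.snd Yᶜ = 0 := by rw [hπ2, hν]
    rw [Measure.map_apply measurable_snd hYm.compl] at h1
    exact h1
  have hint : Integrable (fun p : E d × E d => ‖p.1 - p.2‖ ^ 2) π := by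
    refine Integrable.of_bound ((measurable_fst.sub measurable_snd).norm.pow_const
      2).aestronglyMeasurable ((2 * L) ^ 2) ?_
    filter_upwards [hπY1, hπY2] with p h1 h2
    rw [Real.norm_of_nonneg (sq_nonneg _)]
    refine pow_le_pow_left₀ (norm_nonneg _) ?_ 2
    calc ‖p.1 - p.2‖ ≤ ‖p.1‖ + ‖p.2‖ := norm_sub_le _ _
      _ ≤ L + L := add_le_add (hYL _ h1) (hYL _ h2)
      _ = 2 * L := by ring
  have hquant : ∀ n, ∫ p, ‖Q n p.2 - Q n p.1‖ ^ 2 ∂π ≤ I + (8 * L * δ n + 4 * δ n ^ 2) := by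
    intro n
    have h1 : ∫ p, ‖Q n p.2 - Q n p.1‖ ^ 2 ∂π ≤
        ∫ p, (‖p.1 - p.2‖ ^ 2 + (8 * L * δ n + 4 * δ n ^ 2)) ∂π := by
      refine integral_mono_of_nonneg (Eventually.of_forall fun p => sq_nonneg _)
        (hint.add (integrable_const _)) ?_
      filter_upwards [hπY1, hπY2] with p h1 h2
      have e1 : ‖p.1 - p.2‖ ≤ 2 * L := by
        calc ‖p.1 - p.2‖ ≤ ‖p.1‖ + ‖p.2‖ := norm_sub_le _ _
          _ ≤ L + L := add_le_add (hYL _ h1) (hYL _ h2)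
          _ = 2 * L := by ring
      have e2 : ‖Q n p.2 - Q n p.1‖ ≤ ‖p.1 - p.2‖ + 2 * δ n := by
        have e3 : Q n p.2 - Q n p.1 = (Q n p.2 - p.2) + ((p.2 - p.1) - (Q n p.1 - p.1)) := by abel
        calc ‖Q n p.2 - Q n p.1‖ = ‖(Q n p.2 - p.2) + ((p.2 - p.1) - (Q n p.1 - p.1))‖ := by
              rw [e3]
          _ ≤ ‖Q n p.2 - p.2‖ + (‖p.2 - p.1‖ + ‖Q n p.1 - p.1‖) :=
              (norm_add_le _ _).trans (by gcongr; exact norm_sub_le _ _)
          _ ≤ δ n + (‖p.2 - p.1‖ + δ n) := by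
              gcongr
              · exact hQd n _ h2
              · exact hQd n _ h1
          _ = ‖p.1 - p.2‖ + 2 * δ n := by rw [norm_sub_rev p.2 p.1]; ring
      calc ‖Q n p.2 - Q n p.1‖ ^ 2 ≤ (‖p.1 - p.2‖ + 2 * δ n) ^ 2 :=
            pow_le_pow_left₀ (norm_nonneg _) e2 2
        _ ≤ ‖p.1 - p.2‖ ^ 2 + (8 * L * δ n + 4 * δ n ^ 2) := by
            have := mul_le_mul_of_nonneg_left e1 (hδ n).le
            nlinarith
    refine h1.trans (le_of_eq ?_)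
    rw [integral_add hint (integrable_const _)]
    simp [hI]
  have hD : ∀ n, ‖(mTn n).toLp (Tn n) - (mSn n).toLp (Sn n)‖ ≤
      Real.sqrt (C * (I + (8 * L * δ n + 4 * δ n ^ 2)) ^ (1 / 3 : ℝ)) := by
    intro n
    refine Real.le_sqrt_of_sq_le ?_
    rw [norm_toLp_sub_sq]
    have h1 := (hcmp π (s n) (s n) (Q n) (Q n) hπ (hQ n) (hQ n) (hs n) (hs n)
      (hsL n) (hsL n)).2 (φn n) (ψn n) (Tn n) (Sn n) (hTn n) (hSn n)
      (by rw [hTnm, hm1]) (by rw [hSnm, hm2])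
    refine h1.trans (mul_le_mul_of_nonneg_left ?_ hC)
    exact Real.rpow_le_rpow (integral_nonneg fun p => sq_nonneg _) (hquant n) (by norm_num)
  have toNorm : ∀ {F : ℕ → E d → E d} {G : E d → E d}
      (hF : ∀ n, MemLp (F n) 2 (volume.restrict K)) (hG : MemLp G 2 (volume.restrict K)),
      Tendsto (fun n => ∫ x in K, ‖F n x - G x‖ ^ 2) atTop (𝓝 0) →
      Tendsto (fun n => ‖(hF n).toLp (F n) - hG.toLp G‖) atTop (𝓝 0) := by
    intro F G hF hG h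
    have h3 := (Real.continuous_sqrt.tendsto 0).comp h
    rw [Real.sqrt_zero] at h3
    refine h3.congr fun n => ?_
    rw [Function.comp_apply, ← norm_toLp_sub_sq (hF n) hG, Real.sqrt_sq (norm_nonneg _)]
  have lT := toNorm mTn mT limT
  have lS := toNorm mSn mS limS
  have lR : Tendsto (fun n => Real.sqrt (C * (I + (8 * L * δ n + 4 * δ n ^ 2)) ^ (1 / 3 : ℝ)))
      atTop (𝓝 (Real.sqrt (C * (I + (8 * L * 0 + 4 * 0 ^ 2)) ^ (1 / 3 : ℝ)))) := by
    have h1 : Tendsto (fun n => I + (8 * L * δ n + 4 * δ n ^ 2)) atTop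
        (𝓝 (I + (8 * L * 0 + 4 * 0 ^ 2))) :=
      ((hδ0.const_mul (8 * L)).add ((hδ0.pow 2).const_mul 4)).const_add I
    exact ((h1.rpow_const (Or.inr (by norm_num))).const_mul C).sqrt
  have lall := (lT.add lR).add lS
  have hle : ‖mT.toLp T - mS.toLp S‖ ≤
      0 + Real.sqrt (C * (I + (8 * L * 0 + 4 * 0 ^ 2)) ^ (1 / 3 : ℝ)) + 0 := by
    refine ge_of_tendsto' lall fun n => ?_
    have e1 : mT.toLp T - mS.toLp S = (((mTn n).toLp (Tn n) - (mSn n).toLp (Sn n)) -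
        ((mTn n).toLp (Tn n) - mT.toLp T)) + ((mSn n).toLp (Sn n) - mS.toLp S) := by abel
    calc ‖mT.toLp T - mS.toLp S‖ = ‖(((mTn n).toLp (Tn n) - (mSn n).toLp (Sn n)) -
        ((mTn n).toLp (Tn n) - mT.toLp T)) + ((mSn n).toLp (Sn n) - mS.toLp S)‖ := by rw [e1]
      _ ≤ (‖(mTn n).toLp (Tn n) - (mSn n).toLp (Sn n)‖ + ‖(mTn n).toLp (Tn n) - mT.toLp T‖) +
          ‖(mSn n).toLp (Sn n) - mS.toLp S‖ :=
            (norm_add_le _ _).trans (by gcongr; exact norm_sub_le _ _)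
      _ ≤ ‖(mTn n).toLp (Tn n) - mT.toLp T‖ +
          Real.sqrt (C * (I + (8 * L * δ n + 4 * δ n ^ 2)) ^ (1 / 3 : ℝ)) +
          ‖(mSn n).toLp (Sn n) - mS.toLp S‖ := by
            have := hD n
            linarith
  rw [← norm_toLp_sub_sq mT mS]
  have h0 : (0 : ℝ) ≤ C * I ^ (1 / 3 : ℝ) := mul_nonneg hC (Real.rpow_nonneg hI0 _)
  have hle2 : ‖mT.toLp T - mS.toLp S‖ ≤ Real.sqrt (C * I ^ (1 / 3 : ℝ)) := by
    simpa using hle
  calc ‖mT.toLp T - mS.toLp S‖ ^ 2 ≤ Real.sqrt (C * I ^ (1 / 3 : ℝ)) ^ 2 :=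
        pow_le_pow_left₀ (norm_nonneg _) hle2 2
    _ = C * I ^ (1 / 3 : ℝ) := Real.sq_sqrt h0

/-- product coupling facts -/
lemma W2_le {Y : Set (E d)} (hY : MeasurableSet Y) {L : ℝ} (hL : 0 < L)
    (hYL : ∀ y ∈ Y, ‖y‖ ≤ L) {μ ν : Measure (E d)} (hμp : IsProbabilityMeasure μ)
    (hνp : IsProbabilityMeasure ν) (hμ : μ Yᶜ = 0) (hν : ν Yᶜ = 0) :
    0 ≤ W2 μ ν ∧ W2 μ ν ≤ 2 * L ∧ ∀ b : ℝ, (∀ π : Measure (E d × E d), π.map Prod.fst = μ →
      π.map Prod.snd = ν → b ≤ Real.sqrt (∫ p, ‖p.1 - p.2‖ ^ 2 ∂π)) → b ≤ W2 μ ν := by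
  set A : Set ℝ := {w : ℝ | ∃ π : Measure (E d × E d), π.map Prod.fst = μ ∧ π.map Prod.snd = ν ∧
    w = Real.sqrt (∫ p, ‖p.1 - p.2‖ ^ 2 ∂π)} with hA
  have h1 : (μ.prod ν).map Prod.fst = μ := by
    rw [Measure.map_fst_prod, measure_univ, one_smul]
  have h2 : (μ.prod ν).map Prod.snd = ν := by
    rw [Measure.map_snd_prod, measure_univ, one_smul]
  have hmem : Real.sqrt (∫ p, ‖p.1 - p.2‖ ^ 2 ∂(μ.prod ν)) ∈ A := ⟨_, h1, h2, rfl⟩
  have hlow : ∀ w ∈ A, 0 ≤ w := by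
    rintro w ⟨π, _, _, rfl⟩
    exact Real.sqrt_nonneg _
  refine ⟨le_csInf ⟨_, hmem⟩ hlow, ?_, ?_⟩
  · refine (csInf_le ⟨0, hlow⟩ hmem).trans ?_
    rw [Real.sqrt_le_left (by positivity)]
    have hπY1 : ∀ᵐ p ∂(μ.prod ν), p.1 ∈ Y := by
      have h3 : (μ.prod ν).map Prod.fst Yᶜ = 0 := by rw [h1, hμ]
      rw [Measure.map_apply measurable_fst hY.compl] at h3
      exact h3
    have hπY2 : ∀ᵐ p ∂(μ.prod ν), p.2 ∈ Y := by
      have h3 : (μ.prod ν).map Prod.snd Yᶜ = 0 := by rw [h2, hν]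
      rw [Measure.map_apply measurable_snd hY.compl] at h3
      exact h3
    have h4 : ∫ p, ‖p.1 - p.2‖ ^ 2 ∂(μ.prod ν) ≤ ∫ _p, (2 * L) ^ 2 ∂(μ.prod ν) := by
      refine integral_mono_of_nonneg (Eventually.of_forall fun p => sq_nonneg _)
        (integrable_const _) ?_
      filter_upwards [hπY1, hπY2] with p h1 h2
      refine pow_le_pow_left₀ (norm_nonneg _) ?_ 2
      calc ‖p.1 - p.2‖ ≤ ‖p.1‖ + ‖p.2‖ := norm_sub_le _ _
        _ ≤ L + L := add_le_add (hYL _ h1) (hYL _ h2)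
        _ = 2 * L := by ring
    refine h4.trans (le_of_eq ?_)
    simp
  · intro b hb
    refine le_csInf ⟨_, hmem⟩ ?_
    rintro w ⟨π, h3, h4, rfl⟩
    exact hb π h3 h4

/-- **Every exponent up to one third is admissible.** -/
theorem admissible_le {α : ℝ} (hα : 0 < α) (hα3 : α ≤ 1 / 3) : Admissible d α := by
  intro K hKc hKx hKi Y hY hYne
  obtain ⟨L, hL, hYL⟩ : ∃ L : ℝ, 0 < L ∧ ∀ y ∈ Y, ‖y‖ ≤ L := by
    obtain ⟨L, hL⟩ := hY.isBounded.exists_norm_le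
    exact ⟨max L 1, lt_max_of_lt_right one_pos, fun y hy => (hL y hy).trans (le_max_left _ _)⟩
  obtain ⟨C, hC, hst⟩ := optimal_stability hKc hKx hKi hY hYne hL hYL
  have hvol : 0 < volume.real K := by
    rw [Measure.real, ENNReal.toReal_pos_iff]
    exact ⟨pos_iff_ne_zero.2 (volume_pos_of hKi), hKc.measure_lt_top⟩
  set M : ℝ := Real.sqrt (C / volume.real K) + 1 with hM
  have hMpos : 0 < M := by positivity
  refine ⟨M * (2 * L) ^ (1 / 3 - α), ?_⟩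
  intro μ ν hμp hνp hμ hν T S hT hS
  obtain ⟨hW0, hWL, hWinf⟩ := W2_le hY.measurableSet hL hYL hμp hνp hμ hν
  set x : ℝ := Real.sqrt (∫ x, ‖T x - S x‖ ^ 2 ∂(unif K)) with hx
  have hx0 : 0 ≤ x := Real.sqrt_nonneg _
  have h1 : (x / M) ^ 3 ≤ W2 μ ν := by
    refine hWinf _ fun π hπ1 hπ2 => ?_
    have h2 := hst μ ν hμp hνp hμ hν T S hT hS π hπ1 hπ2
    set I : ℝ := ∫ p, ‖p.1 - p.2‖ ^ 2 ∂π with hI
    have hI0 : 0 ≤ I := integral_nonneg fun p => sq_nonneg _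
    have h3 : x ≤ M * Real.sqrt I ^ (1 / 3 : ℝ) := by
      have e1 : x ≤ Real.sqrt (C / volume.real K * I ^ (1 / 3 : ℝ)) := by
        rw [hx, integral_unif]
        refine Real.sqrt_le_sqrt ?_
        calc (volume.real K)⁻¹ * ∫ x in K, ‖T x - S x‖ ^ 2 ≤
            (volume.real K)⁻¹ * (C * I ^ (1 / 3 : ℝ)) :=
              mul_le_mul_of_nonneg_left h2 (inv_nonneg.2 hvol.le)
          _ = C / volume.real K * I ^ (1 / 3 : ℝ) := by ring
      have e2 : Real.sqrt (C / volume.real K * I ^ (1 / 3 : ℝ)) =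
          Real.sqrt (C / volume.real K) * Real.sqrt I ^ (1 / 3 : ℝ) := by
        rw [Real.sqrt_mul (by positivity), Real.sqrt_eq_rpow I, Real.sqrt_eq_rpow (I ^ _),
          ← Real.rpow_mul hI0, ← Real.rpow_mul hI0, mul_comm (1 / 3 : ℝ)]
      rw [e2] at e1
      refine e1.trans (mul_le_mul_of_nonneg_right (by rw [hM]; linarith)
        (Real.rpow_nonneg (Real.sqrt_nonneg _) _))
    have h4 : x / M ≤ Real.sqrt I ^ (1 / 3 : ℝ) := by
      rw [div_le_iff₀ hMpos, mul_comm]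
      exact h3
    calc (x / M) ^ 3 ≤ (Real.sqrt I ^ (1 / 3 : ℝ)) ^ 3 :=
          pow_le_pow_left₀ (by positivity) h4 3
      _ = Real.sqrt I := by
          rw [← Real.rpow_natCast, ← Real.rpow_mul (Real.sqrt_nonneg _)]
          norm_num
  have h5 : x / M ≤ W2 μ ν ^ (1 / 3 : ℝ) := by
    have e1 : x / M = ((x / M) ^ 3) ^ (1 / 3 : ℝ) := by
      rw [← Real.rpow_natCast, ← Real.rpow_mul (by positivity)]
      norm_num
    rw [e1]
    exact Real.rpow_le_rpow (by positivity) h1 (by norm_num)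
  have h6 : x ≤ M * W2 μ ν ^ (1 / 3 : ℝ) := by
    rw [div_le_iff₀ hMpos, mul_comm] at h5
    exact h5
  refine h6.trans ?_
  rw [mul_assoc]
  refine mul_le_mul_of_nonneg_left ?_ hMpos.le
  calc W2 μ ν ^ (1 / 3 : ℝ) = W2 μ ν ^ ((1 / 3 - α) + α) := by congr 1; ring
    _ = W2 μ ν ^ (1 / 3 - α) * W2 μ ν ^ α :=
        Real.rpow_add_of_nonneg hW0 (by linarith) hα.le
    _ ≤ (2 * L) ^ (1 / 3 - α) * W2 μ ν ^ α :=
        mul_le_mul_of_nonneg_right (Real.rpow_le_rpow hW0 hWL (by linarith))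
          (Real.rpow_nonneg hW0 _)

end Vale.Agent.P074
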