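import Vale.Agent.P074.Defs

/-! Upper bound for P074: no exponent `α > 1/3` is admissible. -/

namespace Vale.Agent.P074.Upper

open MeasureTheory Set Filter
open scoped ENNReal Topology

variable {n : ℕ}

/-- The unit cube. -/
def cube (n : ℕ) : Set (E (n + 2)) := {x | ∀ i, x i ∈ Icc (-(1 / 2) : ℝ) (1 / 2)}

noncomputable def e0 (n : ℕ) : E (n + 2) := EuclideanSpace.single 0 1

noncomputable def e1 (n : ℕ) : E (n + 2) := EuclideanSpace.single 1 1

theorem e0_0 : (e0 n) 0 = 1 := by simp [e0]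
theorem e0_1 : (e0 n) 1 = 0 := by simp [e0]
theorem e1_0 : (e1 n) 0 = 0 := by simp [e1]
theorem e1_1 : (e1 n) 1 = 1 := by simp [e1]

theorem norm_e0 : ‖e0 n‖ = 1 := by simp [e0]
theorem norm_e1 : ‖e1 n‖ = 1 := by simp [e1]

theorem inner_e0 (x : E (n + 2)) : inner ℝ x (e0 n) = x 0 := by
  simp [e0, PiLp.inner_apply]

theorem inner_e1 (x : E (n + 2)) : inner ℝ x (e1 n) = x 1 := by
  simp [e1, PiLp.inner_apply]

theorem vol_box (J : Fin (n + 2) → Set ℝ) (hJ : ∀ i, MeasurableSet (J i)) :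
    volume {x : E (n + 2) | ∀ i, x i ∈ J i} = ∏ i, volume (J i) := by
  have h := (PiLp.volume_preserving_ofLp (Fin (n + 2))).measure_preimage
    (MeasurableSet.univ_pi hJ).nullMeasurableSet
  rw [volume_pi_pi] at h
  rw [← h]
  congr 1
  ext x
  simp

theorem vol_slab (A B : Set ℝ) (hA : MeasurableSet A) (hB : MeasurableSet B) :
    volume {x : E (n + 2) | x 0 ∈ A ∧ x 1 ∈ B ∧
      ∀ i : Fin n, x i.succ.succ ∈ Icc (-(1 / 2) : ℝ) (1 / 2)} = volume A * volume B := by
  have h := vol_box (n := n) (Fin.cons A (Fin.cons B fun _ => Icc (-(1 / 2) : ℝ) (1 / 2)))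
    (by
      intro i
      refine Fin.cases ?_ (fun j => ?_) i
      · simpa using hA
      · refine Fin.cases ?_ (fun k => ?_) j
        · simpa using hB
        · simp)
  rw [Fin.prod_univ_succ, Fin.prod_univ_succ] at h
  simp only [Fin.cons_zero, Fin.cons_succ, Real.volume_Icc, Finset.prod_const] at h
  have h3 : ENNReal.ofReal (1 / 2 - -(1 / 2)) = 1 := by norm_num
  rw [h3, one_pow, mul_one] at h
  rw [← h]
  congr 1
  ext x
  simp only [Set.mem_ofPred_eq]
  rw [Fin.forall_fin_succ, Fin.forall_fin_succ]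
  simp

theorem mem_cube_iff (x : E (n + 2)) : x ∈ cube n ↔ x 0 ∈ Icc (-(1 / 2) : ℝ) (1 / 2) ∧
    x 1 ∈ Icc (-(1 / 2) : ℝ) (1 / 2) ∧
      ∀ i : Fin n, x i.succ.succ ∈ Icc (-(1 / 2) : ℝ) (1 / 2) := by
  unfold cube
  rw [Set.mem_ofPred_eq, Fin.forall_fin_succ, Fin.forall_fin_succ]
  simp

theorem vol_cube : volume (cube n) = 1 := by
  have h := vol_slab (n := n) (Icc (-(1 / 2) : ℝ) (1 / 2)) (Icc (-(1 / 2) : ℝ) (1 / 2))
    measurableSet_Icc measurableSet_Icc
  have h3 : ENNReal.ofReal (1 / 2 - -(1 / 2)) = 1 := by norm_num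
  rw [Real.volume_Icc, h3, one_mul] at h
  rw [← h]
  congr 1
  ext x
  rw [mem_cube_iff]
  simp

theorem unif_cube : unif (cube n) = volume.restrict (cube n) := by
  unfold unif
  rw [vol_cube]
  simp

theorem norm_le_of_mem_cube {x : E (n + 2)} (hx : x ∈ cube n) : ‖x‖ ≤ n + 2 := by
  have h1 : ‖x‖ ^ 2 = ∑ i, (x i) ^ 2 := EuclideanSpace.real_norm_sq_eq x
  have h2 : ∑ i, (x i) ^ 2 ≤ ∑ i : Fin (n + 2), (1 : ℝ) := by
    refine Finset.sum_le_sum fun i _ => ?_
    have := hx i
    nlinarith [this.1, this.2]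
  have h3 : ∑ i : Fin (n + 2), (1 : ℝ) = n + 2 := by simp
  have h4 : (0 : ℝ) ≤ n := Nat.cast_nonneg n
  have h5 : ‖x‖ ^ 2 ≤ ((n : ℝ) + 2) ^ 2 := by nlinarith
  exact le_of_sq_le_sq h5 (by positivity)

theorem isClosed_cube : IsClosed (cube n) := by
  have : cube n = ⋂ i, {x : E (n + 2) | x i ∈ Icc (-(1 / 2) : ℝ) (1 / 2)} := by
    ext x; simp [cube]
  rw [this]
  refine isClosed_iInter fun i => ?_
  exact isClosed_Icc.preimage (by fun_prop)

theorem isCompact_cube : IsCompact (cube n) := by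
  refine Metric.isCompact_of_isClosed_isBounded isClosed_cube ?_
  refine (Metric.isBounded_closedBall (x := (0 : E (n + 2))) (r := (n : ℝ) + 2)).subset ?_
  intro x hx
  rw [mem_closedBall_zero_iff]
  exact norm_le_of_mem_cube hx

theorem convex_cube : Convex ℝ (cube n) := by
  intro x hx y hy a b ha hb hab i
  have h1 := hx i
  have h2 := hy i
  have e : (a • x + b • y) i = a * x i + b * y i := by simp
  rw [e]
  constructor
  · nlinarith [h1.1, h2.1]
  · nlinarith [h1.2, h2.2]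

theorem interior_cube : (interior (cube n)).Nonempty := by
  refine ⟨0, ?_⟩
  rw [mem_interior]
  refine ⟨⋂ i, {x : E (n + 2) | x i ∈ Ioo (-(1 / 2) : ℝ) (1 / 2)}, ?_, ?_, ?_⟩
  · intro x hx i
    exact Ioo_subset_Icc_self (Set.mem_iInter.1 hx i)
  · refine isOpen_iInter_of_finite fun i => ?_
    exact isOpen_Ioo.preimage (by fun_prop)
  · simp

instance : IsProbabilityMeasure (volume.restrict (cube n)) :=
  ⟨by rw [Measure.restrict_apply_univ, vol_cube]⟩

/-- The transport map. -/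
noncomputable def T (s w : ℝ) (x : E (n + 2)) : E (n + 2) :=
  if |x 0| ≤ w * (1 + 2 * s * x 1) then (2 * w * s) • e1 n else if 0 < x 0 then e0 n else -e0 n

theorem measurable_T (s w : ℝ) : Measurable (T (n := n) s w) := by
  unfold T
  refine Measurable.ite ?_ measurable_const (Measurable.ite ?_ measurable_const measurable_const)
  · refine measurableSet_le ?_ ?_
    · fun_prop
    · fun_prop
  · refine measurableSet_lt measurable_const ?_
    fun_prop

/-- The convex potential. -/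
noncomputable def phi (s w : ℝ) (x : E (n + 2)) : ℝ := max (|x 0| - w) (2 * w * s * x 1)

theorem T_mem (s w : ℝ) (x : E (n + 2)) :
    T s w x ∈ ({(2 * w * s) • e1 n, e0 n, -e0 n} : Set (E (n + 2))) := by
  unfold T
  split_ifs <;> simp

theorem inner_T (s w : ℝ) (hw : 0 < w) (x : E (n + 2)) :
    inner ℝ x (T s w x) = phi s w x + w * |(T s w x) 0| := by
  unfold T phi
  split_ifs with h1 h2
  · rw [inner_smul_right, inner_e1]
    have h3 : |x 0| - w ≤ 2 * w * s * x 1 := by nlinarith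
    rw [max_eq_right h3]
    have : ((2 * w * s) • e1 n) 0 = 0 := by simp [e1_0]
    rw [this]
    simp
  · rw [inner_e0]
    push Not at h1
    have h3 : 2 * w * s * x 1 ≤ |x 0| - w := by nlinarith
    rw [max_eq_left h3, e0_0, abs_of_pos h2]
    simp
  · push Not at h1 h2
    have h3 : 2 * w * s * x 1 ≤ |x 0| - w := by nlinarith
    rw [max_eq_left h3, inner_neg_right, inner_e0, abs_of_nonpos h2]
    have : (-e0 n) 0 = -1 := by simp [e0_0]
    rw [this]
    simp

theorem inner_le (s w : ℝ) (hw : 0 < w) (x y : E (n + 2))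
    (hy : y ∈ ({(2 * w * s) • e1 n, e0 n, -e0 n} : Set (E (n + 2)))) :
    inner ℝ x y ≤ phi s w x + w * |y 0| := by
  unfold phi
  rcases hy with rfl | rfl | hy
  · rw [inner_smul_right, inner_e1]
    have : ((2 * w * s) • e1 n) 0 = 0 := by simp [e1_0]
    rw [this]
    simp
  · rw [inner_e0, e0_0]
    have h1 := le_max_left (|x 0| - w) (2 * w * s * x 1)
    have h2 := le_abs_self (x 0)
    rw [abs_one]
    linarith
  · rw [Set.mem_singleton_iff] at hy
    subst hy
    rw [inner_neg_right, inner_e0]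
    have h1 := le_max_left (|x 0| - w) (2 * w * s * x 1)
    have h2 := neg_abs_le (x 0)
    have : (-e0 n) 0 = -1 := by simp [e0_0]
    rw [this, abs_neg, abs_one]
    linarith

theorem norm_le_of_mem (s w : ℝ) (hw : 0 < w) (hw1 : w ≤ 1 / 4) (hs : |s| = 1) (y : E (n + 2))
    (hy : y ∈ ({(2 * w * s) • e1 n, e0 n, -e0 n} : Set (E (n + 2)))) : ‖y‖ ≤ 1 := by
  rcases hy with rfl | rfl | hy
  · rw [norm_smul, norm_e1, Real.norm_eq_abs, abs_mul, hs, abs_of_pos (by positivity)]
    linarith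
  · rw [norm_e0]
  · rw [Set.mem_singleton_iff] at hy
    subst hy
    rw [norm_neg, norm_e0]

theorem T_optimal (s w : ℝ) (hw : 0 < w) (hw1 : w ≤ 1 / 4) (hs : |s| = 1) :
    IsOptimalMap (volume.restrict (cube n)) ((volume.restrict (cube n)).map (T s w))
      (T s w) := by
  set ρ : Measure (E (n + 2)) := volume.restrict (cube n) with hρ
  refine ⟨measurable_T s w, rfl, ?_⟩
  intro S hS hmap
  set A : Set (E (n + 2)) := {(2 * w * s) • e1 n, e0 n, -e0 n} with hA
  have hAm : MeasurableSet A := (Set.toFinite A).measurableSet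
  have hSA : ∀ᵐ x ∂ρ, S x ∈ A := by
    have h1 : ρ.map (T s w) Aᶜ = 0 := by
      rw [Measure.map_apply (measurable_T s w) hAm.compl]
      have : T s w ⁻¹' Aᶜ = (∅ : Set (E (n + 2))) := by
        ext x
        simp only [Set.mem_preimage, Set.mem_compl_iff, Set.mem_empty_iff_false, iff_false,
          not_not]
        exact T_mem s w x
      rw [this]
      simp
    rw [← hmap, Measure.map_apply hS hAm.compl] at h1
    exact h1
  set F : E (n + 2) → ℝ := fun y => ‖y‖ ^ 2 - 2 * (w * |y 0|) with hF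
  have hFc : Continuous F := by
    rw [hF]
    fun_prop
  set G : E (n + 2) → ℝ := fun x => ‖x‖ ^ 2 - 2 * phi s w x with hG
  have hGc : Continuous G := by
    rw [hG]
    unfold phi
    fun_prop
  have hGi : Integrable G ρ := hGc.continuousOn.integrableOn_compact isCompact_cube
  have hxc : ∀ᵐ x ∂ρ, x ∈ cube n := ae_restrict_mem isClosed_cube.measurableSet
  have hSi : Integrable (fun x => ‖x - S x‖ ^ 2) ρ := by
    refine Integrable.of_bound (C := ((n : ℝ) + 2 + 1) ^ 2) ?_ ?_
    · have : Measurable fun x => ‖x - S x‖ ^ 2 := (measurable_id.sub hS).norm.pow_const 2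
      exact this.aestronglyMeasurable
    · filter_upwards [hSA, hxc] with x hx1 hx2
      have h1 := norm_le_of_mem s w hw hw1 hs _ hx1
      have h2 := norm_le_of_mem_cube hx2
      rw [Real.norm_eq_abs, abs_of_nonneg (by positivity)]
      have h3 : ‖x - S x‖ ≤ n + 2 + 1 := (norm_sub_le _ _).trans (by linarith)
      gcongr
  have hTi : Integrable (fun x => ‖x - T s w x‖ ^ 2) ρ := by
    refine Integrable.of_bound (C := ((n : ℝ) + 2 + 1) ^ 2) ?_ ?_
    · have : Measurable fun x => ‖x - T s w x‖ ^ 2 :=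
        (measurable_id.sub (measurable_T (n := n) s w)).norm.pow_const 2
      exact this.aestronglyMeasurable
    · filter_upwards [hxc] with x hx2
      have h1 := norm_le_of_mem s w hw hw1 hs _ (T_mem s w x)
      have h2 := norm_le_of_mem_cube hx2
      rw [Real.norm_eq_abs, abs_of_nonneg (by positivity)]
      have h3 : ‖x - T s w x‖ ≤ n + 2 + 1 := (norm_sub_le _ _).trans (by linarith)
      gcongr
  have eT : ∀ x, ‖x - T s w x‖ ^ 2 = G x + F (T s w x) := by
    intro x
    rw [@norm_sub_sq_real, inner_T s w hw x, hG, hF]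
    ring
  have eS : ∀ᵐ x ∂ρ, G x + F (S x) ≤ ‖x - S x‖ ^ 2 := by
    filter_upwards [hSA] with x hx
    rw [@norm_sub_sq_real, hG, hF]
    have := inner_le s w hw x _ hx
    simp only
    linarith
  have hFT : Integrable (fun x => F (T s w x)) ρ := by
    have : (fun x => F (T s w x)) = fun x => ‖x - T s w x‖ ^ 2 - G x := by
      ext x
      rw [eT]
      ring
    rw [this]
    exact hTi.sub hGi
  have hFμ : Integrable F (ρ.map (T s w)) := by
    rw [integrable_map_measure hFc.aestronglyMeasurable (measurable_T s w).aemeasurable]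
    exact hFT
  have hFS : Integrable (fun x => F (S x)) ρ := by
    rw [← hmap] at hFμ
    exact hFμ.comp_measurable hS
  have hFST : ∫ x, F (S x) ∂ρ = ∫ x, F (T s w x) ∂ρ := by
    rw [← integral_map hS.aemeasurable hFc.aestronglyMeasurable, hmap,
      integral_map (measurable_T s w).aemeasurable hFc.aestronglyMeasurable]
  calc ∫ x, ‖x - T s w x‖ ^ 2 ∂ρ = ∫ x, (G x + F (T s w x)) ∂ρ := by
        refine integral_congr_ae (ae_of_all _ fun x => ?_)
        exact eT x
    _ = ∫ x, G x ∂ρ + ∫ x, F (T s w x) ∂ρ := integral_add hGi hFT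
    _ = ∫ x, G x ∂ρ + ∫ x, F (S x) ∂ρ := by rw [hFST]
    _ = ∫ x, (G x + F (S x)) ∂ρ := (integral_add hGi hFS).symm
    _ ≤ ∫ x, ‖x - S x‖ ^ 2 ∂ρ := integral_mono_ae (hGi.add hFS) hSi eS

/-- Reflection in the coordinate `1`. -/
noncomputable def R (n : ℕ) : E (n + 2) ≃ₗᵢ[ℝ] E (n + 2) :=
  LinearIsometryEquiv.piLpCongrRight 2 fun i : Fin (n + 2) =>
    if i = 1 then LinearIsometryEquiv.neg ℝ else LinearIsometryEquiv.refl ℝ ℝ

theorem R_1 (x : E (n + 2)) : (R n x) 1 = -x 1 := by
  simp [R, LinearIsometryEquiv.piLpCongrRight_apply]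

theorem R_ne (x : E (n + 2)) (i : Fin (n + 2)) (hi : i ≠ 1) : (R n x) i = x i := by
  simp [R, LinearIsometryEquiv.piLpCongrRight_apply, hi]

theorem R_preimage : (R n) ⁻¹' (cube n) = cube n := by
  ext x
  simp only [Set.mem_preimage]
  constructor
  · intro h i
    have h1 := h i
    by_cases hi : i = 1
    · subst hi
      rw [R_1] at h1
      exact ⟨by linarith [h1.2], by linarith [h1.1]⟩
    · rwa [R_ne x i hi] at h1
  · intro h i
    have h1 := h i
    by_cases hi : i = 1
    · subst hi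
      rw [R_1]
      exact ⟨by linarith [h1.2], by linarith [h1.1]⟩
    · rwa [R_ne x i hi]

theorem R_mp : MeasurePreserving (R n) (volume.restrict (cube n)) (volume.restrict (cube n)) := by
  have h := (R n).measurePreserving.restrict_preimage isClosed_cube.measurableSet
    (s := cube n)
  rwa [R_preimage] at h

theorem W2_nonneg {d : ℕ} (μ ν : Measure (E d)) : 0 ≤ W2 μ ν := by
  unfold W2
  refine Real.sInf_nonneg ?_
  rintro w ⟨π, -, -, rfl⟩
  exact Real.sqrt_nonneg _

theorem T_diff (w : ℝ) (hw : 0 < w) (x : E (n + 2)) (hx : x ∈ cube n) :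
    ‖T 1 w x - T (-1) w (R n x)‖ ^ 2 ≤
      {x : E (n + 2) | |x 0| ≤ 2 * w}.indicator (fun _ => 16 * w ^ 2) x := by
  have h1 : (R n x) 0 = x 0 := R_ne x 0 (by simp)
  have h2 : (R n x) 1 = -x 1 := R_1 x
  have h3 : w * (1 + 2 * (-1) * -x 1) = w * (1 + 2 * 1 * x 1) := by ring
  unfold T
  rw [h1, h2, h3]
  split_ifs with h4 h5
  · have h6 : x ∈ {x : E (n + 2) | |x 0| ≤ 2 * w} := by
      rw [Set.mem_ofPred_eq]
      have := (hx 1).2
      nlinarith
    rw [Set.indicator_of_mem h6, ← sub_smul, norm_smul, norm_e1, Real.norm_eq_abs, mul_one,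
      sq_abs]
    nlinarith
  · rw [sub_self, norm_zero]
    have : 0 ≤ {x : E (n + 2) | |x 0| ≤ 2 * w}.indicator (fun _ => 16 * w ^ 2) x :=
      Set.indicator_nonneg (fun _ _ => by positivity) _
    simpa using this
  · rw [sub_self, norm_zero]
    have : 0 ≤ {x : E (n + 2) | |x 0| ≤ 2 * w}.indicator (fun _ => 16 * w ^ 2) x :=
      Set.indicator_nonneg (fun _ _ => by positivity) _
    simpa using this

theorem meas_slab_set (w : ℝ) : MeasurableSet {x : E (n + 2) | |x 0| ≤ 2 * w} := by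
  refine measurableSet_le ?_ measurable_const
  fun_prop

theorem vol_slab2 (w : ℝ) (hw : 0 < w) (hw1 : w ≤ 1 / 4) :
    (volume.restrict (cube n)).real {x : E (n + 2) | |x 0| ≤ 2 * w} = 4 * w := by
  have h := vol_slab (n := n) (Icc (-(2 * w)) (2 * w)) (Icc (-(1 / 2) : ℝ) (1 / 2))
    measurableSet_Icc measurableSet_Icc
  have h3 : ENNReal.ofReal (1 / 2 - -(1 / 2)) = 1 := by norm_num
  rw [Real.volume_Icc, Real.volume_Icc, h3, mul_one] at h
  have e : {x : E (n + 2) | |x 0| ≤ 2 * w} ∩ cube n = {x : E (n + 2) | x 0 ∈ Icc (-(2 * w)) (2 * w)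
      ∧ x 1 ∈ Icc (-(1 / 2) : ℝ) (1 / 2) ∧
      ∀ i : Fin n, x i.succ.succ ∈ Icc (-(1 / 2) : ℝ) (1 / 2)} := by
    ext x
    rw [Set.mem_inter_iff, mem_cube_iff, Set.mem_ofPred_eq, Set.mem_ofPred_eq, abs_le]
    constructor
    · rintro ⟨h1, h2, h3, h4⟩
      exact ⟨h1, h3, h4⟩
    · rintro ⟨h1, h3, h4⟩
      refine ⟨h1, ⟨?_, ?_⟩, h3, h4⟩
      · linarith [h1.1]
      · linarith [h1.2]
  rw [measureReal_def, Measure.restrict_apply (meas_slab_set w), e, h,
    ENNReal.toReal_ofReal (by linarith)]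
  ring

theorem W2_le (w : ℝ) (hw : 0 < w) (hw1 : w ≤ 1 / 4) :
    W2 ((volume.restrict (cube n)).map (T 1 w)) ((volume.restrict (cube n)).map (T (-1) w)) ≤
      Real.sqrt (64 * w ^ 3) := by
  set ρ : Measure (E (n + 2)) := volume.restrict (cube n) with hρ
  have hRm : Measurable (R n) := (R n).continuous.measurable
  have hT1 := measurable_T (n := n) 1 w
  have hT2 := measurable_T (n := n) (-1) w
  have hT3 : Measurable fun x => T (-1) w (R n x) := hT2.comp hRm
  have hpair : Measurable fun x : E (n + 2) => (T 1 w x, T (-1) w (R n x)) := hT1.prodMk hT3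
  set π : Measure (E (n + 2) × E (n + 2)) := ρ.map fun x => (T 1 w x, T (-1) w (R n x)) with hπ
  have h1 : π.map Prod.fst = ρ.map (T 1 w) := by
    rw [hπ, Measure.map_map measurable_fst hpair]
    rfl
  have h2 : π.map Prod.snd = ρ.map (T (-1) w) := by
    rw [hπ, Measure.map_map measurable_snd hpair]
    have e : (Prod.snd ∘ fun x : E (n + 2) => (T 1 w x, T (-1) w (R n x))) =
        (T (-1) w) ∘ (R n) := rfl
    rw [e, ← Measure.map_map hT2 hRm, R_mp.map_eq]
  have h3 : W2 (ρ.map (T 1 w)) (ρ.map (T (-1) w)) ≤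
      Real.sqrt (∫ p, ‖p.1 - p.2‖ ^ 2 ∂π) := by
    unfold W2
    refine csInf_le ?_ ⟨π, h1, h2, rfl⟩
    refine ⟨0, ?_⟩
    rintro w ⟨π, -, -, rfl⟩
    exact Real.sqrt_nonneg _
  refine h3.trans (Real.sqrt_le_sqrt ?_)
  have hc : Continuous fun p : E (n + 2) × E (n + 2) => ‖p.1 - p.2‖ ^ 2 := by fun_prop
  rw [hπ, integral_map hpair.aemeasurable hc.aestronglyMeasurable]
  simp only
  have hxc : ∀ᵐ x ∂ρ, x ∈ cube n := ae_restrict_mem isClosed_cube.measurableSet
  have hind : Integrable ({x : E (n + 2) | |x 0| ≤ 2 * w}.indicator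
      (fun _ => 16 * w ^ 2 : E (n + 2) → ℝ)) ρ :=
    (integrable_const _).indicator (meas_slab_set w)
  have hi : Integrable (fun x => ‖T 1 w x - T (-1) w (R n x)‖ ^ 2) ρ := by
    refine hind.mono ?_ ?_
    · exact ((hT1.sub hT3).norm.pow_const 2).aestronglyMeasurable
    · filter_upwards [hxc] with x hx
      rw [Real.norm_eq_abs, abs_of_nonneg (by positivity)]
      exact (T_diff w hw x hx).trans (le_abs_self _)
  calc ∫ x, ‖T 1 w x - T (-1) w (R n x)‖ ^ 2 ∂ρ
      ≤ ∫ x, {x : E (n + 2) | |x 0| ≤ 2 * w}.indicator (fun _ => 16 * w ^ 2) x ∂ρ := by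
        refine integral_mono_ae hi hind ?_
        filter_upwards [hxc] with x hx
        exact T_diff w hw x hx
    _ = 64 * w ^ 3 := by
        rw [integral_indicator (meas_slab_set w), setIntegral_const, vol_slab2 w hw hw1,
          smul_eq_mul]
        ring

theorem lower (w : ℝ) (hw : 0 < w) (hw1 : w ≤ 1 / 4) :
    w / 8 ≤ ∫ x, ‖T 1 w x - T (-1) w x‖ ^ 2 ∂(volume.restrict (cube n)) := by
  set ρ : Measure (E (n + 2)) := volume.restrict (cube n) with hρ
  have hT1 := measurable_T (n := n) 1 w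
  have hT2 := measurable_T (n := n) (-1) w
  set Bx : Set (E (n + 2)) := {x : E (n + 2) | x 0 ∈ Ioc w (3 / 2 * w) ∧
    x 1 ∈ Icc (1 / 4 : ℝ) (1 / 2) ∧
      ∀ i : Fin n, x i.succ.succ ∈ Icc (-(1 / 2) : ℝ) (1 / 2)} with hBx
  have hBm : MeasurableSet Bx := by
    have : Bx = {x : E (n + 2) | x 0 ∈ Ioc w (3 / 2 * w)} ∩
      ({x : E (n + 2) | x 1 ∈ Icc (1 / 4 : ℝ) (1 / 2)} ∩
      ⋂ i : Fin n, {x : E (n + 2) | x i.succ.succ ∈ Icc (-(1 / 2) : ℝ) (1 / 2)}) := by
      ext x; simp [hBx]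
    rw [this]
    refine MeasurableSet.inter ?_ (MeasurableSet.inter ?_ (MeasurableSet.iInter fun i => ?_))
    · exact measurableSet_Ioc.preimage (by fun_prop)
    · exact measurableSet_Icc.preimage (by fun_prop)
    · exact measurableSet_Icc.preimage (by fun_prop)
  have hBc : Bx ⊆ cube n := by
    intro x hx
    rw [mem_cube_iff]
    refine ⟨⟨?_, ?_⟩, ⟨?_, ?_⟩, hx.2.2⟩
    · linarith [hx.1.1]
    · linarith [hx.1.2]
    · linarith [hx.2.1.1]
    · linarith [hx.2.1.2]
  have hvol : ρ.real Bx = w / 8 := by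
    have h := vol_slab (n := n) (Ioc w (3 / 2 * w)) (Icc (1 / 4 : ℝ) (1 / 2))
      measurableSet_Ioc measurableSet_Icc
    rw [measureReal_def, hρ, Measure.restrict_apply hBm, Set.inter_eq_left.2 hBc, hBx, h,
      Real.volume_Ioc, Real.volume_Icc, ENNReal.toReal_mul,
      ENNReal.toReal_ofReal (by linarith), ENNReal.toReal_ofReal (by norm_num)]
    ring
  have hpt : ∀ x ∈ Bx, 1 ≤ ‖T 1 w x - T (-1) w x‖ ^ 2 := by
    intro x hx
    have h0 : 0 < x 0 := lt_trans hw hx.1.1
    have h1 : |x 0| ≤ w * (1 + 2 * 1 * x 1) := by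
      rw [abs_of_pos h0]
      nlinarith [hx.1.2, hx.2.1.1]
    have h2 : ¬ |x 0| ≤ w * (1 + 2 * (-1) * x 1) := by
      rw [abs_of_pos h0, not_le]
      nlinarith [hx.1.1, hx.2.1.1]
    unfold T
    rw [if_pos h1, if_neg h2, if_pos h0]
    have h3 : inner ℝ ((2 * w * 1) • e1 n) (e0 n) = 0 := by
      rw [inner_e0]
      simp [e1_0]
    rw [@norm_sub_sq_real, h3, norm_e0]
    nlinarith [sq_nonneg ‖(2 * w * 1) • e1 n‖]
  have hi : Integrable (fun x => ‖T 1 w x - T (-1) w x‖ ^ 2) ρ := by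
    refine Integrable.of_bound (C := 4) ?_ ?_
    · exact ((hT1.sub hT2).norm.pow_const 2).aestronglyMeasurable
    · refine ae_of_all _ fun x => ?_
      have h1 := norm_le_of_mem 1 w hw hw1 (by simp) _ (T_mem 1 w x)
      have h2 := norm_le_of_mem (-1) w hw hw1 (by simp) _ (T_mem (-1) w x)
      rw [Real.norm_eq_abs, abs_of_nonneg (by positivity)]
      have h3 : ‖T 1 w x - T (-1) w x‖ ≤ 2 := (norm_sub_le _ _).trans (by linarith)
      nlinarith [norm_nonneg (T 1 w x - T (-1) w x)]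
  calc w / 8 = ∫ x, Bx.indicator (fun _ => (1 : ℝ)) x ∂ρ := by
        rw [integral_indicator hBm, setIntegral_const, hvol, smul_eq_mul, mul_one]
    _ ≤ ∫ x, ‖T 1 w x - T (-1) w x‖ ^ 2 ∂ρ := by
        refine integral_mono ((integrable_const _).indicator hBm) hi ?_
        intro x
        by_cases hx : x ∈ Bx
        · rw [Set.indicator_of_mem hx]
          exact hpt x hx
        · rw [Set.indicator_of_notMem hx]
          positivity

theorem not_admissible_aux (n : ℕ) (α : ℝ) (h : 1 / 3 < α) : ¬ Admissible (n + 2) α := by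
  intro hadm
  obtain ⟨C, hC⟩ := hadm (cube n) isCompact_cube convex_cube interior_cube
    (Metric.closedBall 0 1) (isCompact_closedBall _ _) ⟨0, by simp⟩
  rw [unif_cube] at hC
  have key : ∀ w : ℝ, 0 < w → w ≤ 1 / 4 →
      Real.sqrt (1 / 8) ≤ |C| * (64 : ℝ) ^ (α / 2) * w ^ ((3 * α - 1) / 2) := by
    intro w hw hw1
    have hY : ∀ s : ℝ, |s| = 1 → ((volume.restrict (cube n)).map (T s w))
        (Metric.closedBall (0 : E (n + 2)) 1)ᶜ = 0 := by
      intro s hs
      rw [Measure.map_apply (measurable_T s w) Metric.isClosed_closedBall.measurableSet.compl]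
      have : T s w ⁻¹' (Metric.closedBall (0 : E (n + 2)) 1)ᶜ = (∅ : Set (E (n + 2))) := by
        ext x
        simp only [Set.mem_preimage, Set.mem_compl_iff, Set.mem_empty_iff_false, iff_false,
          not_not, mem_closedBall_zero_iff]
        exact norm_le_of_mem s w hw hw1 hs _ (T_mem s w x)
      rw [this]
      simp
    have h1 := hC ((volume.restrict (cube n)).map (T 1 w))
      ((volume.restrict (cube n)).map (T (-1) w))
      (Measure.isProbabilityMeasure_map (measurable_T 1 w).aemeasurable)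
      (Measure.isProbabilityMeasure_map (measurable_T (-1) w).aemeasurable)
      (hY 1 (by simp)) (hY (-1) (by simp)) (T 1 w) (T (-1) w)
      (T_optimal 1 w hw hw1 (by simp)) (T_optimal (-1) w hw hw1 (by simp))
    have h2 := lower (n := n) w hw hw1
    have h3 := W2_le (n := n) w hw hw1
    have h4 := W2_nonneg ((volume.restrict (cube n)).map (T 1 w))
      ((volume.restrict (cube n)).map (T (-1) w))
    set W := W2 ((volume.restrict (cube n)).map (T 1 w))
      ((volume.restrict (cube n)).map (T (-1) w))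
    have h5 : Real.sqrt (w / 8) ≤ |C| * (Real.sqrt (64 * w ^ 3)) ^ α := by
      calc Real.sqrt (w / 8) ≤ C * W ^ α := (Real.sqrt_le_sqrt h2).trans h1
        _ ≤ |C| * W ^ α := by
            gcongr
            exact le_abs_self C
        _ ≤ |C| * (Real.sqrt (64 * w ^ 3)) ^ α := by
            gcongr
    have h6 : (Real.sqrt (64 * w ^ 3)) ^ α = (64 : ℝ) ^ (α / 2) * w ^ (3 * α / 2) := by
      rw [Real.sqrt_eq_rpow, ← Real.rpow_mul (by positivity),
        Real.mul_rpow (by positivity) (by positivity), ← Real.rpow_natCast w 3,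
        ← Real.rpow_mul hw.le]
      congr 2
      · ring
      · push_cast
        ring
    have h7 : Real.sqrt (w / 8) = Real.sqrt (1 / 8) * w ^ (1 / 2 : ℝ) := by
      rw [← Real.sqrt_eq_rpow, ← Real.sqrt_mul (by norm_num)]
      congr 1
      ring
    have h8 : w ^ (3 * α / 2) = w ^ ((3 * α - 1) / 2) * w ^ (1 / 2 : ℝ) := by
      rw [← Real.rpow_add hw]
      congr 1
      ring
    rw [h6, h7, h8] at h5
    have h9 : 0 < w ^ (1 / 2 : ℝ) := Real.rpow_pos_of_pos hw _
    have h10 : Real.sqrt (1 / 8) * w ^ (1 / 2 : ℝ) ≤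
        (|C| * (64 : ℝ) ^ (α / 2) * w ^ ((3 * α - 1) / 2)) * w ^ (1 / 2 : ℝ) := by
      calc _ ≤ _ := h5
        _ = _ := by ring
    exact le_of_mul_le_mul_right h10 h9
  have hexp : 0 < (3 * α - 1) / 2 := by linarith
  have hlim : Tendsto (fun w : ℝ => |C| * (64 : ℝ) ^ (α / 2) * w ^ ((3 * α - 1) / 2))
      (𝓝[>] 0) (𝓝 (|C| * (64 : ℝ) ^ (α / 2) * 0)) := by
    refine Tendsto.const_mul _ ?_
    have h1 : Tendsto (fun w : ℝ => w ^ ((3 * α - 1) / 2)) (𝓝 0)
        (𝓝 ((0 : ℝ) ^ ((3 * α - 1) / 2))) :=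
      (Real.continuousAt_rpow_const _ _ (Or.inr hexp.le)).tendsto
    rw [Real.zero_rpow hexp.ne'] at h1
    exact h1.mono_left nhdsWithin_le_nhds
  have hge : Real.sqrt (1 / 8) ≤ |C| * (64 : ℝ) ^ (α / 2) * 0 := by
    refine ge_of_tendsto hlim ?_
    have h1 : Ioc (0 : ℝ) (1 / 4) ∈ 𝓝[>] (0 : ℝ) := Ioc_mem_nhdsGT (by norm_num)
    filter_upwards [h1] with w hw
    exact key w hw.1 hw.2
  rw [mul_zero] at hge
  have : 0 < Real.sqrt (1 / 8) := Real.sqrt_pos.2 (by norm_num)
  linarith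

end Vale.Agent.P074.Upper

namespace Vale.Agent.P074

/-- No exponent above `1/3` is admissible, in any dimension `d ≥ 2`. -/
theorem not_admissible (d : ℕ) (hd : 2 ≤ d) (α : ℝ) (h : 1 / 3 < α) (_ha : α ≤ 1) :
    ¬ Admissible d α := by
  obtain ⟨n, rfl⟩ := Nat.exists_eq_add_of_le' hd
  exact Upper.not_admissible_aux n α h

end Vale.Agent.P074
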